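import Vale.Agent.P230.Upper.Grid

/-!
P230 upper bound: periodic functions on `ℝ^N` and the uncovered fraction of a lattice arrangement.
-/

open MeasureTheory Set
open scoped ENNReal

namespace Vale.Agent.P230.Upper

noncomputable section

variable {N : ℕ}

lemma zr_neg (z : Fin N → ℤ) : zr (-z) = -zr z := by
  funext i; simp [zr]

lemma iUnion_cell (a : Fin N → ℝ) : (⋃ z : Fin N → ℤ, cell (a + zr z)) = univ :=
  eq_univ_of_forall fun x => mem_iUnion.2 ⟨_, mem_cell_floor a x⟩

lemma lintegral_eq_tsum_cells (a : Fin N → ℝ) (S : Set (Fin N → ℝ)) (f : (Fin N → ℝ) → ℝ≥0∞) :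
    ∫⁻ x in S, f x = ∑' z : Fin N → ℤ, ∫⁻ x in cell (a + zr z), f x ∂(volume.restrict S) := by
  rw [← lintegral_iUnion (fun z => measurableSet_cell _) (cell_disjoint a), iUnion_cell,
    setLIntegral_univ]

lemma preimage_add_cell (b c : Fin N → ℝ) : (fun x => x + c) ⁻¹' cell b = cell (b - c) := by
  ext x
  simp only [cell, mem_preimage, mem_pi, mem_univ, true_implies, mem_Ico, Pi.add_apply,
    Pi.sub_apply]
  exact forall_congr' fun i => ⟨fun h => ⟨by linarith [h.1], by linarith [h.2]⟩,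
    fun h => ⟨by linarith [h.1], by linarith [h.2]⟩⟩

/-- Integrals of periodic functions over the unit cell ignore translations. -/
lemma lintegral_periodic_shift {f : (Fin N → ℝ) → ℝ≥0∞} (hf : Measurable f)
    (hper : ∀ x z, f (x + zr z) = f x) (b : Fin N → ℝ) :
    ∫⁻ x in cell 0, f (x + b) = ∫⁻ x in cell 0, f x := by
  have h0 : ∫⁻ x in cell 0, f (x + b) = ∫⁻ x in cell b, f x := by
    rw [← (measurePreserving_add_right volume b).setLIntegral_comp_preimage
      (measurableSet_cell b) hf, preimage_add_cell, sub_self]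
  have hL : ∫⁻ x in cell b, f x = ∑' z : Fin N → ℤ, ∫⁻ x in cell (b - zr z) ∩ cell 0, f x := by
    rw [lintegral_eq_tsum_cells 0 (cell b) f]
    refine tsum_congr fun z => ?_
    rw [zero_add, Measure.restrict_restrict (measurableSet_cell _), inter_comm,
      ← (measurePreserving_add_right volume (zr z)).setLIntegral_comp_preimage
        ((measurableSet_cell _).inter (measurableSet_cell _)) hf,
      preimage_inter, preimage_add_cell, preimage_add_cell, sub_self]
    exact lintegral_congr fun x => hper x z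
  have hR : ∫⁻ x in cell 0, f x = ∑' z : Fin N → ℤ, ∫⁻ x in cell (b + zr z) ∩ cell 0, f x := by
    rw [lintegral_eq_tsum_cells b (cell 0) f]
    exact tsum_congr fun z => by rw [Measure.restrict_restrict (measurableSet_cell _)]
  rw [h0, hL, hR, ← (Equiv.neg (Fin N → ℤ)).tsum_eq]
  exact tsum_congr fun z => by
    show ∫⁻ x in cell (b - zr (-z)) ∩ cell 0, f x = _
    rw [zr_neg, sub_neg_eq_add]

/-- The uncovered set, as a periodic set in lattice coordinates. -/
def uncov (B : Set (Fin N → ℝ)) (A : (Fin N → ℝ) →ₗ[ℝ] (Fin N → ℝ)) : Set (Fin N → ℝ) :=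
  {w | ∀ z : Fin N → ℤ, A (w + zr z) ∉ B}

lemma measurable_linearMap (A : (Fin N → ℝ) →ₗ[ℝ] (Fin N → ℝ)) : Measurable A :=
  A.continuous_of_finiteDimensional.measurable

lemma measurableSet_uncov {B : Set (Fin N → ℝ)} (hB : MeasurableSet B)
    (A : (Fin N → ℝ) →ₗ[ℝ] (Fin N → ℝ)) : MeasurableSet (uncov B A) := by
  have : uncov B A = ⋂ z : Fin N → ℤ, (fun w => A (w + zr z)) ⁻¹' Bᶜ := by
    ext w; simp [uncov]
  rw [this]
  exact MeasurableSet.iInter fun z =>
    hB.compl.preimage ((measurable_linearMap A).comp (measurable_add_const _))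

lemma uncov_periodic (B : Set (Fin N → ℝ)) (A : (Fin N → ℝ) →ₗ[ℝ] (Fin N → ℝ))
    (w : Fin N → ℝ) (z : Fin N → ℤ) : w + zr z ∈ uncov B A ↔ w ∈ uncov B A := by
  constructor
  · intro h z'
    have := h (z' - z)
    rwa [add_assoc, ← zr_add, add_sub_cancel] at this
  · intro h z'
    rw [add_assoc, ← zr_add]
    exact h _

/-- The uncovered fraction of space. -/
def miss (B : Set (Fin N → ℝ)) (A : (Fin N → ℝ) →ₗ[ℝ] (Fin N → ℝ)) : ℝ≥0∞ :=
  ∫⁻ w in cell 0, (uncov B A).indicator 1 w

lemma miss_le_one (B : Set (Fin N → ℝ)) (A : (Fin N → ℝ) →ₗ[ℝ] (Fin N → ℝ)) : miss B A ≤ 1 := by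
  calc miss B A ≤ ∫⁻ _w in cell (0 : Fin N → ℝ), 1 :=
        lintegral_mono fun w => indicator_le_self' (fun _ _ => zero_le) w
    _ = 1 := by rw [setLIntegral_one, volume_cell]

lemma miss_mono {B B' : Set (Fin N → ℝ)} (h : B' ⊆ B) (A : (Fin N → ℝ) →ₗ[ℝ] (Fin N → ℝ)) :
    miss B A ≤ miss B' A :=
  lintegral_mono fun w => indicator_le_indicator_of_subset
    (s := uncov B A) (t := uncov B' A) (fun _ hw z hz => hw z (h hz)) (fun _ => zero_le) w

lemma miss_shift {B : Set (Fin N → ℝ)} (hB : MeasurableSet B)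
    (A : (Fin N → ℝ) →ₗ[ℝ] (Fin N → ℝ)) (b : Fin N → ℝ) :
    ∫⁻ w in cell 0, (uncov B A).indicator 1 (w + b) = miss B A := by
  refine lintegral_periodic_shift (f := (uncov B A).indicator 1)
    (measurable_one.indicator (measurableSet_uncov hB A)) (fun x z => ?_) b
  by_cases hx : x ∈ uncov B A
  · rw [indicator_of_mem hx, indicator_of_mem ((uncov_periodic B A x z).2 hx)]
    rfl
  · rw [indicator_of_notMem hx, indicator_of_notMem fun h => hx ((uncov_periodic B A x z).1 h)]

/-- The uncovered fraction is invariant under translations of the body. -/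
lemma miss_translate {B : Set (Fin N → ℝ)} (hB : MeasurableSet B)
    {A : (Fin N → ℝ) →ₗ[ℝ] (Fin N → ℝ)} (hA : Function.Surjective A) (t : Fin N → ℝ) :
    miss ((fun x => x + t) ⁻¹' B) A = miss B A := by
  obtain ⟨b, rfl⟩ := hA t
  rw [← miss_shift hB A b]
  refine lintegral_congr fun w => ?_
  have : w ∈ uncov ((fun x => x + A b) ⁻¹' B) A ↔ w + b ∈ uncov B A := by
    simp only [uncov, mem_ofPred_eq, mem_preimage]
    exact forall_congr' fun z => by rw [← map_add, add_right_comm]
  by_cases hw : w + b ∈ uncov B A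
  · rw [indicator_of_mem hw, indicator_of_mem (this.2 hw)]
    rfl
  · rw [indicator_of_notMem hw, indicator_of_notMem fun h => hw (this.1 h)]

/-- If a translate of `B'` lies in `B` then `B` misses no more than `B'`. -/
lemma miss_le_of_translate {B B' : Set (Fin N → ℝ)} (hB' : MeasurableSet B')
    {A : (Fin N → ℝ) →ₗ[ℝ] (Fin N → ℝ)} (hA : Function.Surjective A) (t : Fin N → ℝ)
    (h : ∀ x ∈ B', x + t ∈ B) : miss B A ≤ miss B' A := by
  rw [← miss_translate hB' hA (-t)]
  refine miss_mono (fun x hx => ?_) A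
  simpa using h _ hx

end

end Vale.Agent.P230.Upper
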