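import Vale.Agent.P230.Defs
import Vale.Agent.P230.Upper.Periodic

/-!
P230 upper bound: lattices in coordinates versus lattices in Euclidean space.
-/

open MeasureTheory Set
open scoped ENNReal Pointwise

namespace Vale.Agent.P230.Upper

noncomputable section

variable {N : ℕ}

lemma fundamentalDomain_basisFun :
    ZSpan.fundamentalDomain (Pi.basisFun ℝ (Fin N)) = cell (0 : Fin N → ℝ) := by
  ext x
  simp [ZSpan.mem_fundamentalDomain, cell]

/-- A covering by translates along `M ℤ^N` bounds the lattice covering density. -/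
theorem thetaL_le_of_pi {K : Set (EuclideanSpace ℝ (Fin N))} (hK : IsCompact K)
    {M : (Fin N → ℝ) →ₗ[ℝ] (Fin N → ℝ)} (hM : LinearMap.det M ≠ 0)
    (hcov : ∀ y : Fin N → ℝ, ∃ k ∈ WithLp.ofLp '' K, ∃ z : Fin N → ℤ, y = k + M (zr z)) :
    thetaL K ≤ volume (WithLp.ofLp '' K) / ENNReal.ofReal |LinearMap.det M| := by
  set e : (Fin N → ℝ) ≃ₗ[ℝ] EuclideanSpace ℝ (Fin N) :=
    (M.equivOfDetNeZero hM).trans (WithLp.linearEquiv 2 ℝ (Fin N → ℝ)).symm with he
  have heq : ∀ x, e x = WithLp.toLp 2 (M x) := fun x => rfl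
  set b := (Pi.basisFun ℝ (Fin N)).map e with hb
  set L : Submodule ℤ (EuclideanSpace ℝ (Fin N)) := Submodule.span ℤ (range b) with hL
  have hzr : ∀ z : Fin N → ℤ, zr z = ∑ i, z i • (Pi.basisFun ℝ (Fin N)) i := fun z => by
    funext l
    simp [zr, Finset.sum_apply, Pi.single_apply]
  have hmemL : ∀ z, WithLp.toLp 2 (M (zr z)) ∈ L := fun z => by
    rw [← heq, hzr, map_sum]
    refine Submodule.sum_mem _ fun i _ => ?_
    rw [map_zsmul]
    exact Submodule.smul_mem _ _ (Submodule.subset_span ⟨i, by rw [hb, Module.Basis.map_apply]⟩)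
  have hcov' : K + (L : Set (EuclideanSpace ℝ (Fin N))) = univ := by
    refine eq_univ_of_forall fun y => ?_
    obtain ⟨_, ⟨k, hk, rfl⟩, z, hz⟩ := hcov (WithLp.ofLp y)
    refine ⟨k, hk, _, hmemL z, ?_⟩
    apply WithLp.ofLp_injective
    simp [hz]
  have hq : MeasurePreserving (WithLp.toLp 2 : (Fin N → ℝ) → EuclideanSpace ℝ (Fin N)) volume
      volume := PiLp.volume_preserving_toLp _
  have hdom := ZSpan.isAddFundamentalDomain b (volume : Measure (EuclideanSpace ℝ (Fin N)))
  have hcovol : ENNReal.ofReal (ZLattice.covolume L volume) = ENNReal.ofReal |LinearMap.det M| := by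
    rw [ZLattice.covolume_eq_measure_fundamentalDomain L volume hdom, hb,
      ← ZSpan.map_fundamentalDomain, fundamentalDomain_basisFun]
    congr 1
    rw [Measure.real, ← hq.measure_preimage]
    · have : (WithLp.toLp 2 : (Fin N → ℝ) → EuclideanSpace ℝ (Fin N)) ⁻¹' (e '' cell 0) =
          M '' cell 0 := by
        ext x
        simp only [mem_preimage, mem_image, heq]
        exact exists_congr fun y => and_congr_right fun _ =>
          ⟨fun h => WithLp.toLp_injective 2 h, fun h => by rw [h]⟩
      rw [this, Measure.addHaar_image_linearMap, volume_cell, mul_one,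
        ENNReal.toReal_ofReal (abs_nonneg _)]
    · exact ((e.toContinuousLinearEquiv.toHomeomorph.measurableEmbedding).measurableSet_image.2
        (measurableSet_cell _)).nullMeasurableSet
  have hvol : volume K = volume (WithLp.ofLp '' K : Set (Fin N → ℝ)) := by
    rw [← hq.measure_preimage hK.measurableSet.nullMeasurableSet]
    congr 1
    ext x
    simp only [mem_preimage, mem_image]
    exact ⟨fun h => ⟨_, h, rfl⟩, fun ⟨k, hk, hkx⟩ => by rw [← hkx]; exact hk⟩
  refine le_trans (iInf_le_of_le L (iInf_le_of_le inferInstance (iInf_le_of_le inferInstance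
    (iInf_le _ hcov')))) ?_
  rw [hcovol, hvol]

end

end Vale.Agent.P230.Upper
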