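import Vale.Agent.P230.Upper.Energy

/-!
P230 upper bound: integer points in large convex bodies, uniformly in translations.
-/

open MeasureTheory Set
open scoped ENNReal NNReal

namespace Vale.Agent.P230.Upper

noncomputable section

variable {m : ℕ}

/-- An integer vector as a real vector. -/
def zr (u : Fin m → ℤ) : Fin m → ℝ := fun i => (u i : ℝ)

lemma zr_add (u v : Fin m → ℤ) : zr (u + v) = zr u + zr v := by
  funext i; simp [zr]

/-- Unit cell with lower corner `x`. -/
def cell (x : Fin m → ℝ) : Set (Fin m → ℝ) := univ.pi fun i => Ico (x i) (x i + 1)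

lemma volume_cell (x : Fin m → ℝ) : volume (cell x) = 1 := by
  simp [cell, Real.volume_pi_Ico]

lemma measurableSet_cell (x : Fin m → ℝ) : MeasurableSet (cell x) :=
  MeasurableSet.univ_pi fun _ => measurableSet_Ico

lemma cell_eq_floor {a x : Fin m → ℝ} {u : Fin m → ℤ} (hx : x ∈ cell (a + zr u)) :
    u = fun i => ⌊x i - a i⌋ := by
  funext i
  have h := hx i (mem_univ i)
  simp only [Pi.add_apply, zr, mem_Ico] at h
  exact (Int.floor_eq_iff.2 ⟨by linarith, by linarith⟩).symm

lemma mem_cell_floor (a x : Fin m → ℝ) : x ∈ cell (a + zr fun i => ⌊x i - a i⌋) := by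
  intro i _
  simp only [Pi.add_apply, zr, mem_Ico]
  constructor <;> linarith [Int.floor_le (x i - a i), Int.lt_floor_add_one (x i - a i)]

lemma cell_disjoint (a : Fin m → ℝ) :
    Pairwise (Function.onFun Disjoint fun u : Fin m → ℤ => cell (a + zr u)) := fun u v huv =>
  Set.disjoint_left.2 fun _ hu hv => huv ((cell_eq_floor hu).trans (cell_eq_floor hv).symm)

lemma norm_sub_le_of_mem_cell {x y : Fin m → ℝ} (hy : y ∈ cell x) : ‖y - x‖ ≤ 1 :=
  (pi_norm_le_iff_of_nonneg zero_le_one).2 fun i => by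
    have h := hy i (mem_univ i)
    simp only [mem_Ico] at h
    rw [Real.norm_eq_abs, abs_le, Pi.sub_apply]
    constructor <;> linarith

/-- Homothetic image about `z`. -/
def hom (z : Fin m → ℝ) (c : ℝ) (C : Set (Fin m → ℝ)) : Set (Fin m → ℝ) :=
  AffineMap.homothety z c '' C

lemma isCompact_hom {z : Fin m → ℝ} {c : ℝ} {C : Set (Fin m → ℝ)} (hC : IsCompact C) :
    IsCompact (hom z c C) :=
  hC.image (AffineMap.homothety z c).continuous_of_finiteDimensional

lemma volume_hom {z : Fin m → ℝ} {c : ℝ} (hc : 0 ≤ c) (C : Set (Fin m → ℝ)) :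
    volume (hom z c C) = ENNReal.ofReal (c ^ m) * volume C := by
  rw [hom, Measure.addHaar_image_homothety, Module.finrank_fin_fun, abs_of_nonneg (pow_nonneg hc m)]

/-- A convex body containing the ball of radius `ρ` around `z`. -/
structure Fat (C : Set (Fin m → ℝ)) (z : Fin m → ℝ) (ρ : ℝ) : Prop where
  conv : Convex ℝ C
  cpt : IsCompact C
  pos : 0 < ρ
  ball : Metric.closedBall z ρ ⊆ C

lemma Fat.add_mem {C : Set (Fin m → ℝ)} {z : Fin m → ℝ} {ρ : ℝ} (hC : Fat C z ρ) {x b : Fin m → ℝ}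
    (hx : x ∈ C) {c : ℝ} (hc : 0 < c) (hb : ‖b‖ ≤ c) : x + b ∈ hom z (1 + c / ρ) C := by
  have hρ := hC.pos
  refine ⟨(ρ / (ρ + c)) • x + (c / (ρ + c)) • (z + (ρ / c) • b), ?_, ?_⟩
  · refine hC.conv hx (hC.ball ?_) (by positivity) (by positivity) (by field_simp)
    rw [Metric.mem_closedBall, dist_eq_norm, add_sub_cancel_left, norm_smul,
      Real.norm_of_nonneg (by positivity), div_mul_eq_mul_div, div_le_iff₀ hc]
    exact mul_le_mul_of_nonneg_left hb hρ.le
  · rw [AffineMap.homothety_apply, vsub_eq_sub, vadd_eq_add]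
    funext i
    simp only [Pi.add_apply, Pi.smul_apply, Pi.sub_apply, smul_eq_mul]
    field_simp
    ring

lemma Fat.hom_add_mem {C : Set (Fin m → ℝ)} {z : Fin m → ℝ} {ρ : ℝ} (hC : Fat C z ρ) (h1 : 1 ≤ ρ)
    {y b : Fin m → ℝ} (hy : y ∈ hom z (1 - 1 / ρ) C) (hb : ‖b‖ ≤ 1) : y + b ∈ C := by
  have hρ := hC.pos
  obtain ⟨x, hx, rfl⟩ := hy
  have h2 : z + ρ • b ∈ C := hC.ball (by
    rw [Metric.mem_closedBall, dist_eq_norm, add_sub_cancel_left, norm_smul,
      Real.norm_of_nonneg hρ.le]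
    exact mul_le_of_le_one_right hρ.le hb)
  have h3 : (1 - 1 / ρ) • x + (1 / ρ) • (z + ρ • b) ∈ C :=
    hC.conv hx h2 (by rw [sub_nonneg, div_le_one hρ]; exact h1) (by positivity) (by ring)
  convert h3 using 1
  rw [AffineMap.homothety_apply, vsub_eq_sub, vadd_eq_add]
  funext i
  simp only [Pi.add_apply, Pi.smul_apply, Pi.sub_apply, smul_eq_mul]
  field_simp
  ring

/-- Integer translates of `a` inside `C`. -/
def pts (C : Set (Fin m → ℝ)) (a : Fin m → ℝ) : Set (Fin m → ℤ) := {u | a + zr u ∈ C}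

lemma finite_pts {C : Set (Fin m → ℝ)} (hC : Bornology.IsBounded C) (a : Fin m → ℝ) :
    (pts C a).Finite := by
  obtain ⟨R, hR⟩ := hC.exists_norm_le
  refine Set.Finite.subset (Set.Finite.pi fun i : Fin m =>
    Set.finite_Icc ⌈-R - a i⌉ ⌊R - a i⌋) fun u hu i _ => ?_
  have h := (norm_le_pi_norm (a + zr u) i).trans (hR _ hu)
  rw [Real.norm_eq_abs, abs_le] at h
  simp only [Pi.add_apply, zr] at h
  exact ⟨Int.ceil_le.2 (by linarith), Int.le_floor.2 (by linarith)⟩

lemma volume_cells (a : Fin m → ℝ) (s : Finset (Fin m → ℤ)) :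
    volume (⋃ u ∈ s, cell (a + zr u)) = s.card := by
  rw [measure_biUnion_finset (fun u _ v _ huv => cell_disjoint a huv)
    fun u _ => measurableSet_cell _]
  simp [volume_cell]

/-- Upper bound for the number of integer points. -/
lemma Fat.card_le {C : Set (Fin m → ℝ)} {z : Fin m → ℝ} {ρ : ℝ} (hC : Fat C z ρ) (a : Fin m → ℝ)
    (s : Finset (Fin m → ℤ)) (hs : ∀ u ∈ s, a + zr u ∈ C) :
    (s.card : ℝ) ≤ (1 + 1 / ρ) ^ m * (volume C).toReal := by
  have hρ := hC.pos
  have h : (s.card : ℝ≥0∞) ≤ volume (hom z (1 + 1 / ρ) C) := by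
    rw [← volume_cells a s]
    refine measure_mono (iUnion₂_subset fun u hu y hy => ?_)
    simpa using hC.add_mem (hs u hu) one_pos (norm_sub_le_of_mem_cell hy)
  rw [volume_hom (by positivity)] at h
  have h2 := ENNReal.toReal_mono
    (ENNReal.mul_ne_top ENNReal.ofReal_ne_top hC.cpt.measure_lt_top.ne) h
  rw [ENNReal.toReal_natCast, ENNReal.toReal_mul, ENNReal.toReal_ofReal (by positivity)] at h2
  exact h2

/-- Lower bound for the number of integer points. -/
lemma Fat.le_card {C : Set (Fin m → ℝ)} {z : Fin m → ℝ} {ρ : ℝ} (hC : Fat C z ρ) (h1 : 1 ≤ ρ)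
    (a : Fin m → ℝ) :
    (1 - 1 / ρ) ^ m * (volume C).toReal ≤ ((finite_pts hC.cpt.isBounded a).toFinset.card : ℝ) := by
  have hρ := hC.pos
  have h0 : 0 ≤ 1 - 1 / ρ := by rw [sub_nonneg, div_le_one hρ]; exact h1
  have h : volume (hom z (1 - 1 / ρ) C) ≤
      ((finite_pts hC.cpt.isBounded a).toFinset.card : ℝ≥0∞) := by
    rw [← volume_cells a]
    refine measure_mono fun y hy => ?_
    simp only [mem_iUnion, Set.Finite.mem_toFinset, exists_prop]
    refine ⟨fun i => ⌊y i - a i⌋, ?_, mem_cell_floor a y⟩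
    have := hC.hom_add_mem h1 hy (b := a + zr (fun i => ⌊y i - a i⌋) - y)
      (by rw [norm_sub_rev]; exact norm_sub_le_of_mem_cell (mem_cell_floor a y))
    simpa [pts] using this
  rw [volume_hom h0] at h
  have h2 := ENNReal.toReal_mono (ENNReal.natCast_ne_top _) h
  rw [ENNReal.toReal_natCast, ENNReal.toReal_mul, ENNReal.toReal_ofReal (pow_nonneg h0 m)] at h2
  exact h2

/-- Additive quadruples of integer points in a convex body. -/
lemma Fat.card_quad_le {C : Set (Fin m → ℝ)} {z : Fin m → ℝ} {ρ : ℝ} (hC : Fat C z ρ)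
    (a : Fin m → ℝ) (w : Fin m → ℤ) (s : Finset ((Fin m → ℤ) × (Fin m → ℤ) × (Fin m → ℤ)))
    (hs : ∀ p ∈ s, a + zr p.1 ∈ C ∧ a + zr p.2.1 ∈ C ∧ a + zr p.2.2 ∈ C ∧
      a + zr (p.1 + p.2.1 - p.2.2 + w) ∈ C) :
    (s.card : ℝ) ≤ (kappa : ℝ) ^ m * ((1 + 2 / ρ) ^ m * (volume C).toReal) ^ 3 := by
  have hρ := hC.pos
  set A := hom z (1 + 1 / ρ) C with hA
  set A2 := hom z (1 + 2 / ρ) C with hA2
  set D := (fun x : Fin m → ℝ => x + zr w) ⁻¹' A2 with hD
  have hAc : IsCompact A := isCompact_hom hC.cpt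
  have hA2c : IsCompact A2 := isCompact_hom hC.cpt
  have hDc : IsCompact D := (Homeomorph.addRight (zr w)).isCompact_preimage.2 hA2c
  set V := ENNReal.ofReal ((1 + 2 / ρ) ^ m) * volume C with hV
  have hVA : volume A ≤ V := by
    rw [hA, volume_hom (by positivity)]
    refine mul_le_mul' (ENNReal.ofReal_le_ofReal (pow_le_pow_left₀ (by positivity) ?_ m)) le_rfl
    have : 1 / ρ ≤ 2 / ρ := by gcongr; norm_num
    linarith
  have hVD : volume D ≤ V := by
    rw [hD, measure_preimage_add_right, hA2, volume_hom (by positivity)]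
  have hE := energy_four hAc.measurableSet hAc.measurableSet hAc.measurableSet hDc.measurableSet
    hAc.isBounded hAc.isBounded hAc.isBounded hDc.isBounded hVA hVA hVA hVD
  set ind : (Fin m → ℤ) → (Fin m → ℝ) → ℝ≥0∞ := fun u => (cell (a + zr u)).indicator 1 with hind
  have hm : ∀ u, Measurable (ind u) := fun u =>
    measurable_one.indicator (measurableSet_cell _)
  have hint : ∀ u, ∫⁻ x, ind u x = 1 := fun u => by
    rw [hind]
    simp only
    rw [lintegral_indicator_one (measurableSet_cell _), volume_cell]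
  have hpt : ∀ x y t, ∑ p ∈ s, ind p.1 x * (ind p.2.1 y * ind p.2.2 t) ≤
      A.indicator 1 x * A.indicator 1 y * (A.indicator 1 t * D.indicator 1 (x + y - t)) := by
    intro x y t
    have huniq : ∀ p ∈ s, ind p.1 x * (ind p.2.1 y * ind p.2.2 t) ≠ 0 →
        p = (fun i => ⌊x i - a i⌋, fun i => ⌊y i - a i⌋, fun i => ⌊t i - a i⌋) ∧
        x ∈ cell (a + zr p.1) ∧ y ∈ cell (a + zr p.2.1) ∧ t ∈ cell (a + zr p.2.2) := by
      intro p _ hp
      simp only [ne_eq, mul_eq_zero, not_or, hind, Set.indicator_apply_eq_zero, not_forall,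
        exists_prop] at hp
      obtain ⟨⟨h1, -⟩, ⟨h2, -⟩, h3, -⟩ := hp
      exact ⟨Prod.ext (cell_eq_floor h1) (Prod.ext (cell_eq_floor h2) (cell_eq_floor h3)),
        h1, h2, h3⟩
    by_cases hex : ∃ p ∈ s, ind p.1 x * (ind p.2.1 y * ind p.2.2 t) ≠ 0
    · obtain ⟨p, hps, hp⟩ := hex
      rw [Finset.sum_eq_single p (fun q hq hqp => by
        by_contra hne
        exact hqp (((huniq q hq hne).1).trans ((huniq p hps hp).1).symm)) (fun h => absurd hps h)]
      obtain ⟨-, hx, hy, ht⟩ := huniq p hps hp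
      obtain ⟨s1, s2, s3, s4⟩ := hs p hps
      have mA : ∀ {u : Fin m → ℤ} {v : Fin m → ℝ}, a + zr u ∈ C → v ∈ cell (a + zr u) → v ∈ A :=
        fun {u v} hu hv => by simpa [hA] using hC.add_mem hu one_pos (norm_sub_le_of_mem_cell hv)
      have hDm : x + y - t ∈ D := by
        have h := hC.add_mem s4 two_pos (b := x + y - t + zr w - (a + zr (p.1 + p.2.1 - p.2.2 + w)))
          ((pi_norm_le_iff_of_nonneg zero_le_two).2 fun i => by
            have h1 := hx i (mem_univ i)
            have h2 := hy i (mem_univ i)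
            have h3 := ht i (mem_univ i)
            simp only [Pi.add_apply, zr, mem_Ico] at h1 h2 h3
            simp only [Pi.add_apply, Pi.sub_apply, zr, Int.cast_add, Int.cast_sub,
              Real.norm_eq_abs, abs_le]
            constructor <;> linarith)
        simpa [hD] using h
      simp [hind, hx, hy, ht, mA s1 hx, mA s2 hy, mA s3 ht, hDm]
    · push Not at hex
      rw [Finset.sum_eq_zero hex]
      exact zero_le
  have hcard : (s.card : ℝ≥0∞) = ∫⁻ x, ∫⁻ y, ∫⁻ t,
      ∑ p ∈ s, ind p.1 x * (ind p.2.1 y * ind p.2.2 t) := by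
    have h1 : ∀ x y, ∫⁻ t, ∑ p ∈ s, ind p.1 x * (ind p.2.1 y * ind p.2.2 t) =
        ∑ p ∈ s, ind p.1 x * ind p.2.1 y := fun x y => by
      rw [lintegral_finsetSum _ fun p _ => ((hm _).const_mul _).const_mul _]
      refine Finset.sum_congr rfl fun p _ => ?_
      rw [lintegral_const_mul _ ((hm _).const_mul _), lintegral_const_mul _ (hm _), hint, mul_one]
    have h2 : ∀ x, ∫⁻ y, ∑ p ∈ s, ind p.1 x * ind p.2.1 y = ∑ p ∈ s, ind p.1 x := fun x => by
      rw [lintegral_finsetSum _ fun p _ => (hm _).const_mul _]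
      refine Finset.sum_congr rfl fun p _ => ?_
      rw [lintegral_const_mul _ (hm _), hint, mul_one]
    simp only [h1, h2]
    rw [lintegral_finsetSum _ fun p _ => hm _]
    simp [hint]
  have hle : (s.card : ℝ≥0∞) ≤ (kappa : ℝ≥0∞) ^ m * V ^ 3 :=
    hcard.trans_le ((lintegral_mono fun x => lintegral_mono fun y =>
      lintegral_mono fun t => hpt x y t).trans hE)
  have hfin : (kappa : ℝ≥0∞) ^ m * V ^ 3 ≠ ⊤ :=
    ENNReal.mul_ne_top (ENNReal.pow_ne_top ENNReal.coe_ne_top)
      (ENNReal.pow_ne_top (ENNReal.mul_ne_top ENNReal.ofReal_ne_top hC.cpt.measure_lt_top.ne))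
  have h2 := ENNReal.toReal_mono hfin hle
  rw [hV, ENNReal.toReal_natCast, ENNReal.toReal_mul, ENNReal.toReal_pow, ENNReal.toReal_pow,
    ENNReal.coe_toReal, ENNReal.toReal_mul, ENNReal.toReal_ofReal (by positivity)] at h2
  exact h2

end

end Vale.Agent.P230.Upper
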