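import Vale.Agent.P230.Upper.Relations
import Vale.Agent.P230.Upper.Grid

/-!
P230 upper bound: how many tuples of grid points satisfy a given primitive relation.
-/

open Finset MeasureTheory Matrix
open scoped Pointwise

namespace Vale.Agent.P230.Upper

noncomputable section

open scoped Classical

variable {m : ℕ}

/-- Grid points of a bounded set as a finset. -/
def gridPts (C : Set (Fin m → ℝ)) (hC : Bornology.IsBounded C) (a : Fin m → ℝ) :
    Finset (Fin m → ℤ) :=
  (finite_pts hC a).toFinset

lemma mem_gridPts {C : Set (Fin m → ℝ)} {hC : Bornology.IsBounded C} {a : Fin m → ℝ}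
    {u : Fin m → ℤ} : u ∈ gridPts C hC a ↔ a + zr u ∈ C := by
  simp [gridPts, pts]

/-- Tuples satisfying a relation. -/
def relSet {t : ℕ} (S : Finset (Fin m → ℤ)) (p : Fin t → ℤ) : Finset (Fin t → Fin m → ℤ) :=
  (Fintype.piFinset fun _ : Fin t => S).filter fun x => ∀ l, ∑ i, p i * x i l = 0

lemma card_fiber_mul {G H : Type*} [AddCommGroup G] [AddCommGroup H] [Fintype G] [Fintype H]
    (f : G →+ H) (hf : Function.Surjective f) :
    (univ.filter fun g => f g = 0).card * Fintype.card H = Fintype.card G := by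
  have hfib : ∀ y : H, (univ.filter fun g => f g = y).card =
      (univ.filter fun g => f g = 0).card := fun y => by
    obtain ⟨g0, rfl⟩ := hf y
    refine Finset.card_bij (fun g _ => g - g0) (fun g hg => ?_) (fun a _ b _ hab => by
      simpa using hab) (fun b hb => ⟨b + g0, ?_, by simp⟩)
    · simp only [mem_filter, mem_univ, true_and] at hg ⊢
      rw [map_sub, hg, sub_self]
    · simp only [mem_filter, mem_univ, true_and] at hb ⊢
      rw [map_add, hb, zero_add]
  have htot := Finset.card_eq_sum_card_fiberwise (f := fun g => f g) (s := univ) (t := univ)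
    (fun _ _ => mem_univ _)
  simp only [hfib, Finset.sum_const, smul_eq_mul, Finset.card_univ] at htot
  rw [mul_comm]
  exact htot.symm

/-- Points in one residue class. -/
lemma card_class_le {C : Set (Fin m → ℝ)} {z : Fin m → ℝ} {ρ : ℝ} (hC : Fat C z ρ)
    (a : Fin m → ℝ) {H : ℕ} [NeZero H] (r : Fin m → ZMod H) :
    (((gridPts C hC.cpt.isBounded a).filter fun u => (fun l => ((u l : ℤ) : ZMod H)) = r).card : ℝ)
      ≤ (1 + (H : ℝ) / ρ) ^ m * (volume C).toReal / (H : ℝ) ^ m := by
  have hH : (0 : ℝ) < H := by exact_mod_cast Nat.pos_of_ne_zero (NeZero.ne H)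
  have hρ := hC.pos
  have hmem : ∀ x, x ∈ (H : ℝ)⁻¹ • C ↔ (H : ℝ) • x ∈ C := fun x => by
    rw [Set.mem_inv_smul_set_iff₀ hH.ne']
  have hfat : Fat ((H : ℝ)⁻¹ • C) ((H : ℝ)⁻¹ • z) (ρ / H) := by
    refine ⟨hC.conv.smul _, hC.cpt.smul _, div_pos hρ hH, fun x hx => (hmem x).2 (hC.ball ?_)⟩
    rw [Metric.mem_closedBall, dist_eq_norm] at hx ⊢
    rw [show (H : ℝ) • x - z = (H : ℝ) • (x - (H : ℝ)⁻¹ • z) by
        rw [smul_sub, smul_smul, mul_inv_cancel₀ hH.ne', one_smul],
      norm_smul, Real.norm_of_nonneg hH.le]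
    calc (H : ℝ) * ‖x - (H : ℝ)⁻¹ • z‖ ≤ H * (ρ / H) := by gcongr
      _ = ρ := by field_simp
  set T := (gridPts C hC.cpt.isBounded a).filter fun u => (fun l => ((u l : ℤ) : ZMod H)) = r
    with hT
  set w : Fin m → ℤ := fun l => ((r l).val : ℤ) with hw
  set g : (Fin m → ℤ) → (Fin m → ℤ) := fun u l => (u l - w l) / H with hg
  have hback : ∀ u ∈ T, ∀ l, u l = w l + H * g u l := fun u hu l => by
    have h := congrFun (Finset.mem_filter.1 hu).2 l
    have hdvd : (H : ℤ) ∣ u l - w l := by
      rw [← ZMod.intCast_zmod_eq_zero_iff_dvd, hw]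
      simp [h]
    rw [hg]
    simp only [Int.mul_ediv_cancel' hdvd]
    ring
  have hinj : Set.InjOn g T := fun u hu v hv huv => funext fun l => by
    rw [hback u hu l, hback v hv l, huv]
  have hle := hfat.card_le ((H : ℝ)⁻¹ • (a + zr w)) (T.image g) fun v hv => by
    obtain ⟨u, hu, rfl⟩ := Finset.mem_image.1 hv
    rw [hmem]
    convert mem_gridPts.1 (Finset.mem_filter.1 hu).1 using 1
    funext l
    simp only [Pi.smul_apply, Pi.add_apply, zr, smul_eq_mul, hback u hu l, Int.cast_add,
      Int.cast_mul, Int.cast_natCast]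
    field_simp
    ring
  rw [Finset.card_image_of_injOn hinj] at hle
  refine hle.trans_eq ?_
  rw [Measure.addHaar_smul, Module.finrank_fin_fun, ENNReal.toReal_mul,
    ENNReal.toReal_ofReal (abs_nonneg _), abs_of_nonneg (by positivity), inv_pow,
    one_div, inv_div]
  ring

/-- Relations with all coefficients `±1`. -/
lemma card_rel_one {C : Set (Fin m → ℝ)} {z : Fin m → ℝ} {ρ : ℝ} (hC : Fat C z ρ)
    (a : Fin m → ℝ) {t : ℕ} (ht : 3 ≤ t) {p : Fin t → ℤ} (hp : ∀ i, p i = 1 ∨ p i = -1)
    (hsum : ∑ i, p i = 0) :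
    4 ≤ t ∧ ((relSet (gridPts C hC.cpt.isBounded a) p).card : ℝ) ≤
      ((gridPts C hC.cpt.isBounded a).card : ℝ) ^ (t - 4) *
        ((kappa : ℝ) ^ m * ((1 + 2 / ρ) ^ m * (volume C).toReal) ^ 3) := by
  set S := gridPts C hC.cpt.isBounded a with hS
  set Pp := univ.filter fun i => p i = 1 with hPp
  set Pn := univ.filter fun i => ¬ p i = 1 with hPn
  have hcard : Pp.card + Pn.card = t := by
    rw [hPp, hPn, Finset.card_filter_add_card_filter_not, Finset.card_univ, Fintype.card_fin]
  have heq : Pp.card = Pn.card := by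
    rw [← Finset.sum_filter_add_sum_filter_not univ (fun i => p i = 1)] at hsum
    rw [Finset.sum_congr rfl fun i hi => (Finset.mem_filter.1 hi).2,
      Finset.sum_congr rfl fun i hi => (hp i).resolve_left (Finset.mem_filter.1 hi).2] at hsum
    simp only [Finset.sum_const, mul_one, nsmul_eq_mul, Int.mul_neg] at hsum
    rw [← hPp, ← hPn] at hsum
    omega
  obtain ⟨i, hi, j, hj, hij⟩ := Finset.one_lt_card.1 (show 1 < Pp.card by omega)
  obtain ⟨k, hk, l, hl, hkl⟩ := Finset.one_lt_card.1 (show 1 < Pn.card by omega)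
  have pi_ : p i = 1 := (Finset.mem_filter.1 hi).2
  have pj : p j = 1 := (Finset.mem_filter.1 hj).2
  have pk : p k = -1 := (hp k).resolve_left (Finset.mem_filter.1 hk).2
  have pl : p l = -1 := (hp l).resolve_left (Finset.mem_filter.1 hl).2
  have hik : i ≠ k := fun h => by rw [h, pk] at pi_; omega
  have hil : i ≠ l := fun h => by rw [h, pl] at pi_; omega
  have hjk : j ≠ k := fun h => by rw [h, pk] at pj; omega
  have hjl : j ≠ l := fun h => by rw [h, pl] at pj; omega
  set F : Finset (Fin t) := {i, j, k, l} with hF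
  have hF4 : F.card = 4 := by
    rw [hF]
    repeat rw [Finset.card_insert_of_notMem (by simp [*])]
    simp
  have hFle : 4 ≤ t := by
    simpa [hF4] using Finset.card_le_univ F
  refine ⟨hFle, ?_⟩
  set proj : (Fin t → Fin m → ℤ) → (↥(Fᶜ) → Fin m → ℤ) := fun x o => x o with hproj
  set Q : ℝ := (kappa : ℝ) ^ m * ((1 + 2 / ρ) ^ m * (volume C).toReal) ^ 3 with hQ
  have hfib : ∀ y ∈ (relSet S p).image proj,
      (((relSet S p).filter fun x => proj x = y).card : ℝ) ≤ Q := by
    intro y _
    set w : Fin m → ℤ := fun c => ∑ o : ↥(Fᶜ), p o * y o c with hw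
    set T := (relSet S p).filter fun x => proj x = y with hT
    have hrel : ∀ x ∈ T, x l = x i + x j - x k + w := by
      intro x hx
      obtain ⟨hx1, hx2⟩ := Finset.mem_filter.1 hx
      funext c
      have h := (Finset.mem_filter.1 hx1).2 c
      rw [← Finset.sum_add_sum_compl F, ← Finset.sum_coe_sort Fᶜ] at h
      have hwc : ∑ o : ↥(Fᶜ), p o * x o c = w c := by
        rw [hw]
        exact Finset.sum_congr rfl fun o _ => by rw [← congrFun hx2 o]
      rw [hwc, hF, Finset.sum_insert (by simp [*]), Finset.sum_insert (by simp [*]),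
        Finset.sum_insert (by simp [*]), Finset.sum_singleton, pi_, pj, pk, pl] at h
      simp only [Pi.add_apply, Pi.sub_apply]
      linarith
    set g : (Fin t → Fin m → ℤ) → (Fin m → ℤ) × (Fin m → ℤ) × (Fin m → ℤ) :=
      fun x => (x i, x j, x k) with hg
    have hinj : Set.InjOn g T := by
      intro x hx x' hx' hxx
      simp only [hg, Prod.mk.injEq] at hxx
      obtain ⟨e1, e2, e3⟩ := hxx
      funext o
      by_cases ho : o ∈ F
      · simp only [hF, Finset.mem_insert, Finset.mem_singleton] at ho
        rcases ho with rfl | rfl | rfl | rfl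
        exacts [e1, e2, e3, by rw [hrel x hx, hrel x' hx', e1, e2, e3]]
      · have h1 := congrFun ((Finset.mem_filter.1 hx).2.trans (Finset.mem_filter.1 hx').2.symm)
          ⟨o, Finset.mem_compl.2 ho⟩
        exact h1
    rw [← Finset.card_image_of_injOn hinj]
    refine hC.card_quad_le a w _ fun q hq => ?_
    obtain ⟨x, hx, rfl⟩ := Finset.mem_image.1 hq
    have hS' := Fintype.mem_piFinset.1 (Finset.mem_filter.1 (Finset.mem_filter.1 hx).1).1
    refine ⟨mem_gridPts.1 (hS' i), mem_gridPts.1 (hS' j), mem_gridPts.1 (hS' k), ?_⟩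
    have := mem_gridPts.1 (hS' l)
    rw [hrel x hx] at this
    exact this
  have himg : ((relSet S p).image proj).card ≤ S.card ^ (t - 4) := by
    refine (Finset.card_le_card (t := Fintype.piFinset fun _ : ↥(Fᶜ) => S) fun y hy => ?_).trans ?_
    · obtain ⟨x, hx, rfl⟩ := Finset.mem_image.1 hy
      exact Fintype.mem_piFinset.2 fun o => Fintype.mem_piFinset.1 (Finset.mem_filter.1 hx).1 _
    · rw [Fintype.card_piFinset, Finset.prod_const, Finset.card_univ, Fintype.card_coe,
        Finset.card_compl, hF4, Fintype.card_fin]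
  rw [Finset.card_eq_sum_card_image proj, Nat.cast_sum]
  calc _ ≤ ∑ y ∈ (relSet S p).image proj, Q := Finset.sum_le_sum hfib
    _ = (((relSet S p).image proj).card : ℝ) * Q := by rw [Finset.sum_const, nsmul_eq_mul]
    _ ≤ _ := by
        have hρ := hC.pos
        have hk := kappa.coe_nonneg
        have hV := ENNReal.toReal_nonneg (a := volume C)
        refine mul_le_mul_of_nonneg_right (by exact_mod_cast himg) ?_
        positivity

/-- Relations with largest coefficient `H`, by residues modulo `H`. -/
lemma card_rel_mod {C : Set (Fin m → ℝ)} {z : Fin m → ℝ} {ρ : ℝ} (hC : Fat C z ρ)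
    (a : Fin m → ℝ) {s H : ℕ} [NeZero H] {p : Fin (s + 1) → ℤ} {i0 : Fin (s + 1)}
    (hi0 : (p i0).natAbs = H) (hprim : ∃ w : Fin (s + 1) → ℤ, ∑ i, w i * p i = 1) :
    ((relSet (gridPts C hC.cpt.isBounded a) p).card : ℝ) ≤
      ((1 + (H : ℝ) / ρ) ^ m * (volume C).toReal) ^ s / (H : ℝ) ^ m := by
  set S := gridPts C hC.cpt.isBounded a with hS
  have hH : (0 : ℝ) < H := by exact_mod_cast Nat.pos_of_ne_zero (NeZero.ne H)
  have hp0 : ((p i0 : ℤ) : ZMod H) = 0 := by
    rw [ZMod.intCast_zmod_eq_zero_iff_dvd, ← hi0]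
    exact Int.natAbs_dvd.2 dvd_rfl
  let f : (Fin s → Fin m → ZMod H) →+ (Fin m → ZMod H) :=
    { toFun := fun r l => ∑ j, (p (i0.succAbove j) : ZMod H) * r j l
      map_zero' := by funext l; simp
      map_add' := fun r r' => by
        funext l; simp [mul_add, Finset.sum_add_distrib] }
  have hsurj : Function.Surjective f := by
    obtain ⟨w, hw⟩ := hprim
    rw [Fin.sum_univ_succAbove _ i0] at hw
    have h1 := congrArg (fun x : ℤ => (x : ZMod H)) hw
    simp only [Int.cast_add, Int.cast_mul, Int.cast_sum, hp0, mul_zero, zero_add,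
      Int.cast_one] at h1
    intro y
    refine ⟨fun j l => (w (i0.succAbove j) : ZMod H) * y l, funext fun l => ?_⟩
    simp only [f, AddMonoidHom.coe_mk, ZeroHom.coe_mk]
    calc ∑ j, (p (i0.succAbove j) : ZMod H) * ((w (i0.succAbove j) : ZMod H) * y l)
        = (∑ j, (w (i0.succAbove j) : ZMod H) * (p (i0.succAbove j) : ZMod H)) * y l := by
          rw [Finset.sum_mul]
          exact Finset.sum_congr rfl fun j _ => by ring
      _ = y l := by rw [h1, one_mul]
  set Rk := univ.filter fun r => f r = 0 with hRk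
  have hker : (Rk.card : ℝ) * (H : ℝ) ^ m = ((H : ℝ) ^ m) ^ s := by
    have h := card_fiber_mul f hsurj
    simp only [Fintype.card_fun, ZMod.card, Fintype.card_fin] at h
    have h2 : Rk.card * H ^ m = (H ^ m) ^ s := by
      convert h using 3
      rw [hRk]
      ext g
      simp only [Finset.mem_filter]
    exact_mod_cast h2
  set red : (Fin (s + 1) → Fin m → ℤ) → (Fin s → Fin m → ZMod H) :=
    fun x j l => (x (i0.succAbove j) l : ZMod H) with hred
  set B : ℝ := (1 + (H : ℝ) / ρ) ^ m * (volume C).toReal / (H : ℝ) ^ m with hB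
  have hB0 : 0 ≤ B := le_trans (by positivity) (card_class_le hC a (fun _ => (0 : ZMod H)))
  have hfib : ∀ r ∈ Rk, (((relSet S p).filter fun x => red x = r).card : ℝ) ≤ B ^ s := by
    intro r _
    set U : Fin s → Finset (Fin m → ℤ) :=
      fun j => S.filter fun u => (fun l => ((u l : ℤ) : ZMod H)) = r j with hU
    have hle : ((relSet S p).filter fun x => red x = r).card ≤ (Fintype.piFinset U).card := by
      refine Finset.card_le_card_of_injOn (fun x j => x (i0.succAbove j)) (fun x hx => ?_) ?_
      · obtain ⟨h1, h2⟩ := Finset.mem_filter.1 hx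
        refine Fintype.mem_piFinset.2 fun j => Finset.mem_filter.2
          ⟨Fintype.mem_piFinset.1 (Finset.mem_filter.1 h1).1 _, congrFun h2 j⟩
      · intro x hx x' hx' hxx
        have e1 := (Finset.mem_filter.1 (Finset.mem_filter.1 hx).1).2
        have e2 := (Finset.mem_filter.1 (Finset.mem_filter.1 hx').1).2
        funext o
        rcases Fin.eq_self_or_eq_succAbove i0 o with rfl | ⟨j, rfl⟩
        · funext l
          have a1 := e1 l
          have a2 := e2 l
          rw [Fin.sum_univ_succAbove _ o] at a1 a2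
          simp only [funext_iff] at hxx
          simp only [hxx] at a1
          have hne : p o ≠ 0 := fun h0 => NeZero.ne H (by rw [← hi0, h0]; rfl)
          exact mul_left_cancel₀ hne (by linarith)
        · exact congrFun hxx j
    rw [Fintype.card_piFinset] at hle
    refine (Nat.cast_le.2 hle).trans ?_
    rw [Nat.cast_prod]
    refine (Finset.prod_le_prod (fun j _ => Nat.cast_nonneg _)
      fun j _ => card_class_le hC a (r j)).trans ?_
    simp [hB, div_pow]
  have hmaps : ∀ x ∈ relSet S p, red x ∈ Rk := fun x hx => by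
    refine Finset.mem_filter.2 ⟨mem_univ _, funext fun l => ?_⟩
    have h := congrArg (fun x : ℤ => (x : ZMod H)) ((Finset.mem_filter.1 hx).2 l)
    rw [Fin.sum_univ_succAbove _ i0] at h
    simpa [f, hred, hp0] using h
  rw [Finset.card_eq_sum_card_fiberwise hmaps, Nat.cast_sum]
  refine (Finset.sum_le_sum hfib).trans_eq ?_
  rw [Finset.sum_const, nsmul_eq_mul, hB, div_pow, eq_div_iff (by positivity), mul_right_comm,
    hker, mul_div_assoc', mul_comm, mul_div_assoc, div_self (by positivity), mul_one]

/-- The tail estimate: relations that come from a circuit are rare for large `H`. -/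
lemma card_rel_tail {S : Finset (Fin m → ℤ)} {L : ℕ} (hL : 1 ≤ L)
    (hS : ∀ u ∈ S, ∀ i, (u i).natAbs ≤ L) {s H : ℕ} [NeZero H] {p : Fin (s + 1) → ℤ}
    {i0 : Fin (s + 1)} (hi0 : (p i0).natAbs = H)
    (hprim : ∃ w : Fin (s + 1) → ℤ, ∑ i, w i * p i = 1)
    {x0 : Fin (s + 1) → Fin m → ℤ} (hx0 : x0 ∈ circTuples S (s + 1))
    (hrel : ∑ i, p i • liftZ (x0 i) = 0) :
    (relSet S p).card * H ^ m ≤ ((2 * ((m + 2) * L) + 1) ^ s) ^ m := by
  obtain ⟨hx0S, hinj, hcirc⟩ := Finset.mem_filter.1 hx0
  rw [Fintype.mem_piFinset] at hx0S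
  have hp0 : ((p i0 : ℤ) : ZMod H) = 0 := by
    rw [ZMod.intCast_zmod_eq_zero_iff_dvd, ← hi0]
    exact Int.natAbs_dvd.2 dvd_rfl
  set res : (Fin s → ℤ) → ZMod H := fun w => ∑ j, (p (i0.succAbove j) : ZMod H) * w j with hres
  set box : ℕ → Finset (Fin s → ℤ) :=
    fun K => Fintype.piFinset fun _ => Finset.Icc (-(K : ℤ)) K with hbox
  set G := (box L).filter fun w => res w = 0 with hG
  have hres_add : ∀ v w, res (v + w) = res v + res w := fun v w => by
    simp [hres, mul_add, Finset.sum_add_distrib]
  have hrep : ∀ y : ZMod H, ∃ w ∈ box ((m + 1) * L), res w = y := by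
    intro y
    set M : Matrix (Fin s) (Fin (m + 1)) ℤ :=
      Matrix.of fun j l => liftZ (x0 (i0.succAbove j)) l with hM
    have hMG : ∀ l, res (fun j => M j l) = 0 := fun l => by
      have h := congrFun hrel l
      simp only [Finset.sum_apply, Pi.smul_apply, smul_eq_mul, Pi.zero_apply] at h
      rw [Fin.sum_univ_succAbove _ i0] at h
      have h2 := congrArg (fun x : ℤ => (x : ZMod H)) h
      simpa [hres, hM, hp0] using h2
    have hdetZ : (M * Mᵀ).det ≠ 0 := by
      intro h0
      obtain ⟨q, hq0, hq⟩ := Matrix.exists_vecMul_eq_zero_iff.2 h0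
      have hzero : q ᵥ* M = 0 := by
        have h1 : dotProduct (q ᵥ* M) (q ᵥ* M) = 0 := by
          have h2 : (q ᵥ* (M * Mᵀ)) ⬝ᵥ q = 0 := by rw [hq, zero_dotProduct]
          rw [← Matrix.vecMul_vecMul, ← Matrix.dotProduct_mulVec, Matrix.mulVec_transpose] at h2
          exact h2
        exact dotProduct_self_eq_zero.1 h1
      apply hq0
      have herase := hcirc.2 (x0 i0) (Finset.mem_image_of_mem x0 (mem_univ i0))
      rw [linearIndepOn_finset_iff] at herase
      set qq : Fin (s + 1) → ℤ := i0.insertNth 0 q with hqq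
      have hx := herase (Function.extend x0 qq 0) (by
        rw [Finset.sum_erase _ (by
              rw [hinj.extend_apply, hqq, Fin.insertNth_apply_same, zero_smul]),
          Finset.sum_image fun a _ b _ h => hinj h, Fin.sum_univ_succAbove _ i0]
        simp only [hinj.extend_apply, hqq, Fin.insertNth_apply_same, zero_smul, zero_add,
          Fin.insertNth_apply_succAbove]
        funext l
        have := congrFun hzero l
        simpa [Matrix.vecMul, dotProduct, hM, Finset.sum_apply] using this)
      funext j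
      have h := hx (x0 (i0.succAbove j)) (Finset.mem_erase.2
        ⟨hinj.ne (Fin.succAbove_ne _ _), Finset.mem_image_of_mem x0 (mem_univ _)⟩)
      simpa [hinj.extend_apply, hqq] using h
    set MR : Matrix (Fin s) (Fin (m + 1)) ℝ := M.map (Int.castRingHom ℝ) with hMR
    have hdetR : IsUnit (MR * MRᵀ).det := by
      rw [hMR, ← Matrix.transpose_map, ← Matrix.map_mul, ← RingHom.mapMatrix_apply,
        ← RingHom.map_det]
      exact isUnit_iff_ne_zero.2 (by simpa using hdetZ)
    obtain ⟨w1, hw1⟩ := hprim
    set w0 : Fin s → ℤ := fun j => (y.val : ℤ) * w1 (i0.succAbove j) with hw0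
    have hres0 : res w0 = y := by
      rw [Fin.sum_univ_succAbove _ i0] at hw1
      have h1 := congrArg (fun x : ℤ => (x : ZMod H)) hw1
      simp only [Int.cast_add, Int.cast_mul, Int.cast_sum, hp0, mul_zero, zero_add,
        Int.cast_one] at h1
      calc res w0 = (y.val : ZMod H) * ∑ j, (w1 (i0.succAbove j) : ZMod H) *
            (p (i0.succAbove j) : ZMod H) := by
            rw [hres, hw0, Finset.mul_sum]
            exact Finset.sum_congr rfl fun j _ => by push_cast; ring
        _ = y := by rw [h1, mul_one, ZMod.natCast_zmod_val]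
    set c : Fin (m + 1) → ℝ :=
      MRᵀ *ᵥ ((MR * MRᵀ)⁻¹ *ᵥ fun j => (w0 j : ℝ)) with hc
    have hMc : MR *ᵥ c = fun j => (w0 j : ℝ) := by
      rw [hc, Matrix.mulVec_mulVec, Matrix.mulVec_mulVec, Matrix.mul_nonsing_inv _ hdetR,
        Matrix.one_mulVec]
    refine ⟨fun j => w0 j - ∑ l, ⌊c l⌋ * M j l, ?_, ?_⟩
    · refine Fintype.mem_piFinset.2 fun j => ?_
      have hj := congrFun hMc j
      simp only [Matrix.mulVec, dotProduct, hMR, Matrix.map_apply, eq_intCast] at hj
      rw [Finset.mem_Icc, ← abs_le, ← Int.cast_le (R := ℝ)]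
      push_cast
      rw [← hj, ← Finset.sum_sub_distrib]
      refine (Finset.abs_sum_le_sum_abs _ _).trans ?_
      calc ∑ l, |(M j l : ℝ) * c l - ⌊c l⌋ * M j l| ≤ ∑ _l : Fin (m + 1), (L : ℝ) := by
            refine Finset.sum_le_sum fun l _ => ?_
            rw [show (M j l : ℝ) * c l - ⌊c l⌋ * M j l = (M j l : ℝ) * Int.fract (c l) by
                rw [← Int.self_sub_floor]; ring, abs_mul, Int.abs_fract]
            refine (mul_le_of_le_one_right (abs_nonneg _) (Int.fract_lt_one _).le).trans ?_
            have h := natAbs_liftZ_le hL (hS _ (hx0S (i0.succAbove j))) l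
            rw [← Int.cast_abs, Int.abs_eq_natAbs, hM, Matrix.of_apply]
            exact_mod_cast h
        _ = _ := by simp
    · have : (fun j => w0 j - ∑ l, ⌊c l⌋ * M j l) + (fun j => ∑ l, ⌊c l⌋ * M j l) = w0 := by
        funext j; simp
      have h2 : res (fun j => ∑ l, ⌊c l⌋ * M j l) = 0 := by
        rw [hres]
        simp only [Int.cast_sum, Int.cast_mul, Finset.mul_sum]
        rw [Finset.sum_comm]
        refine Finset.sum_eq_zero fun l _ => ?_
        have h3 := hMG l
        simp only [hres] at h3
        rw [← mul_zero (⌊c l⌋ : ZMod H), ← h3, Finset.mul_sum]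
        exact Finset.sum_congr rfl fun j _ => by ring
      have h4 := hres_add (fun j => w0 j - ∑ l, ⌊c l⌋ * M j l) (fun j => ∑ l, ⌊c l⌋ * M j l)
      rw [this, h2, add_zero, hres0] at h4
      exact h4.symm
  choose wr hwr hwr' using hrep
  have hGH : G.card * H ≤ (2 * ((m + 2) * L) + 1) ^ s := by
    calc G.card * H = (G ×ˢ (univ : Finset (ZMod H))).card := by simp
      _ ≤ (box ((m + 2) * L)).card := by
          refine Finset.card_le_card_of_injOn (fun q => q.1 + wr q.2) (fun q hq => ?_) ?_
          · obtain ⟨h1, -⟩ := Finset.mem_product.1 hq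
            have hg := Fintype.mem_piFinset.1 (Finset.mem_filter.1 h1).1
            have hw := Fintype.mem_piFinset.1 (hwr q.2)
            refine Fintype.mem_piFinset.2 fun j => ?_
            have a1 := Finset.mem_Icc.1 (hg j)
            have a2 := Finset.mem_Icc.1 (hw j)
            rw [Finset.mem_Icc]
            simp only [Pi.add_apply]
            push_cast at a1 a2 ⊢
            constructor <;> linarith
          · intro q hq q' hq' hqq
            have g1 := (Finset.mem_filter.1 (Finset.mem_product.1 hq).1).2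
            have g2 := (Finset.mem_filter.1 (Finset.mem_product.1 hq').1).2
            have h := congrArg res hqq
            simp only [hres_add, g1, g2, zero_add, hwr'] at h
            refine Prod.ext ?_ h
            simp only [h] at hqq
            exact add_right_cancel hqq
      _ = _ := by
          rw [hbox, Fintype.card_piFinset, Finset.prod_const, Finset.card_univ, Fintype.card_fin,
            Int.card_Icc]
          congr 1
          omega
  calc (relSet S p).card * H ^ m ≤ G.card ^ m * H ^ m := by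
        refine Nat.mul_le_mul_right _ ?_
        refine le_of_le_of_eq (Finset.card_le_card_of_injOn
          (t := Fintype.piFinset fun _ : Fin m => G)
          (fun x l j => x (i0.succAbove j) l) (fun x hx => ?_) ?_) (by simp)
        · obtain ⟨h1, h2⟩ := Finset.mem_filter.1 hx
          refine Fintype.mem_piFinset.2 fun l => Finset.mem_filter.2
            ⟨Fintype.mem_piFinset.2 fun j => ?_, ?_⟩
          · have := hS _ (Fintype.mem_piFinset.1 h1 (i0.succAbove j)) l
            simp only [Finset.mem_Icc]
            omega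
          · have h := congrArg (fun x : ℤ => (x : ZMod H)) (h2 l)
            rw [Fin.sum_univ_succAbove _ i0] at h
            simpa [hres, hp0] using h
        · intro x hx x' hx' hxx
          have e1 := (Finset.mem_filter.1 hx).2
          have e2 := (Finset.mem_filter.1 hx').2
          simp only [funext_iff] at hxx
          funext o l
          rcases Fin.eq_self_or_eq_succAbove i0 o with rfl | ⟨j, rfl⟩
          · have a1 := e1 l
            have a2 := e2 l
            rw [Fin.sum_univ_succAbove _ o] at a1 a2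
            simp only [hxx] at a1
            have hne : p o ≠ 0 := fun h0 => NeZero.ne H (by rw [← hi0, h0]; rfl)
            exact mul_left_cancel₀ hne (by linarith)
          · exact hxx l j
    _ = (G.card * H) ^ m := (mul_pow _ _ _).symm
    _ ≤ _ := Nat.pow_le_pow_left hGH m

end

end Vale.Agent.P230.Upper
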