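import Vale.Agent.P230.Upper.Periodic
import Vale.Agent.P230.Upper.RelBounds

/-!
P230 upper bound: the lattice of integer points on a hyperplane modulo `P`, and its uncovered
fraction as an average over residues.
-/

open MeasureTheory Set Matrix
open scoped ENNReal Pointwise

namespace Vale.Agent.P230.Upper

noncomputable section

open scoped Classical

variable {m : ℕ}

lemma surjective_of_det {N : ℕ} {A : (Fin N → ℝ) →ₗ[ℝ] (Fin N → ℝ)} (h : LinearMap.det A ≠ 0) :
    Function.Surjective A := by
  intro y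
  refine ⟨(A.equivOfDetNeZero h).symm y, ?_⟩
  exact (A.equivOfDetNeZero h).apply_symm_apply y

/-- Scalar product modulo `P`. -/
def hdot {P : ℕ} (h : Fin m → ZMod P) (u : Fin m → ℤ) : ZMod P := ∑ l, h l * (u l : ZMod P)

/-- Residues avoided by all grid points. -/
def avoidCnt {P : ℕ} [NeZero P] (S : Finset (Fin m → ℤ)) (h : Fin m → ZMod P) : ℕ :=
  (Finset.univ.filter fun c : ZMod P => ∀ u ∈ S, hdot h u ≠ c).card

lemma hdot_add {P : ℕ} (h : Fin m → ZMod P) (u v : Fin m → ℤ) :
    hdot h (u + v) = hdot h u + hdot h v := by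
  simp [hdot, mul_add, Finset.sum_add_distrib]

lemma hdot_sub {P : ℕ} (h : Fin m → ZMod P) (u v : Fin m → ℤ) :
    hdot h (u - v) = hdot h u - hdot h v := by
  simp [hdot, mul_sub, Finset.sum_sub_distrib]

/-- The lattice of the hyperplane `h`, scaled by `1/lam`. -/
theorem exists_hyperplane_lattice {P : ℕ} [hP : Fact P.Prime] {lam : ℝ} (hlam : 0 < lam)
    (hlamP : lam ^ m = (P : ℝ)) {h : Fin m → ZMod P} (hh : h ≠ 0) :
    ∃ A : (Fin m → ℝ) →ₗ[ℝ] (Fin m → ℝ), |LinearMap.det A| = 1 ∧
      (∀ z : Fin m → ℤ, ∃ u : Fin m → ℤ, A (zr z) = lam⁻¹ • zr u ∧ hdot h u = 0) ∧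
      ∀ (B : Set (Fin m → ℝ)) (hB : IsCompact B), miss B A * (P : ℝ≥0∞) =
        ∫⁻ a in cell 0, (avoidCnt (gridPts (lam • B) (hB.smul lam).isBounded a) h : ℝ≥0∞) := by
  obtain ⟨i0, hi0⟩ : ∃ i, h i ≠ 0 := Function.ne_iff.1 hh
  set g : Fin m → ZMod P := fun l => (h i0)⁻¹ * h l with hg
  have hg0 : g i0 = 1 := inv_mul_cancel₀ hi0
  have hdot_g : ∀ u, hdot g u = (h i0)⁻¹ * hdot h u := fun u => by
    rw [hdot, hdot, Finset.mul_sum]
    exact Finset.sum_congr rfl fun l _ => by rw [hg]; ring
  have hP0 : (P : ℝ) ≠ 0 := by exact_mod_cast hP.out.pos.ne'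
  set row : Fin m → ℤ := fun j => if j = i0 then (P : ℤ) else -((g j).val : ℤ) with hrow
  set Mz : Matrix (Fin m) (Fin m) ℤ := Matrix.updateRow 1 i0 row with hMz
  set MR : Matrix (Fin m) (Fin m) ℝ := Mz.map (Int.castRingHom ℝ) with hMR
  have hdet : Mz.det = (P : ℤ) := by
    have h1 := Matrix.det_updateRow_sum (1 : Matrix (Fin m) (Fin m) ℤ) i0 row
    have h2 : (∑ k, row k • (1 : Matrix (Fin m) (Fin m) ℤ) k) = row := by
      funext j; simp [Finset.sum_apply, Matrix.one_apply]
    rw [h2, Matrix.det_one, smul_eq_mul, mul_one] at h1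
    rw [hMz, h1, hrow]
    simp
  set A : (Fin m → ℝ) →ₗ[ℝ] (Fin m → ℝ) := lam⁻¹ • Matrix.toLin' MR with hA
  have hAdet : LinearMap.det A = 1 := by
    rw [hA, LinearMap.det_smul, Module.finrank_fin_fun, LinearMap.det_toLin', hMR,
      ← RingHom.mapMatrix_apply, ← RingHom.map_det, hdet, inv_pow, hlamP]
    simp [hP0]
  have hAzr : ∀ z, A (zr z) = lam⁻¹ • zr (Mz *ᵥ z) := fun z => by
    rw [hA, LinearMap.smul_apply, Matrix.toLin'_apply]
    congr 1
    funext i
    simp [hMR, zr, Matrix.mulVec, dotProduct]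
  have hMval : ∀ z i, (Mz *ᵥ z) i = if i = i0 then ∑ j, row j * z j else z i := fun z i => by
    rw [hMz, Matrix.mulVec, dotProduct]
    by_cases hi : i = i0
    · subst hi; simp
    · simp [Matrix.one_apply, hi]
  have hrow_cast : ∀ j, ((row j : ℤ) : ZMod P) = if j = i0 then 0 else -g j := fun j => by
    by_cases hj : j = i0
    · simp [hrow, hj]
    · simp [hrow, hj]
  have hMdot : ∀ z, hdot g (Mz *ᵥ z) = 0 := fun z => by
    rw [hdot, ← Finset.add_sum_erase _ _ (Finset.mem_univ i0), hMval, if_pos rfl, hg0, one_mul,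
      Int.cast_sum, ← Finset.add_sum_erase _ _ (Finset.mem_univ i0)]
    rw [Finset.sum_congr (rfl : Finset.univ.erase i0 = _)
      (fun j hj => by rw [Int.cast_mul, hrow_cast, if_neg (Finset.ne_of_mem_erase hj)]),
      Finset.sum_congr (rfl : Finset.univ.erase i0 = _)
        (fun j hj => by rw [hMval, if_neg (Finset.ne_of_mem_erase hj)] :
          ∀ j ∈ Finset.univ.erase i0, g j * (((Mz *ᵥ z) j : ℤ) : ZMod P) = g j * (z j : ZMod P)),
      Int.cast_mul, hrow_cast, if_pos rfl]
    simp only [zero_mul, zero_add, ← Finset.sum_add_distrib]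
    exact Finset.sum_eq_zero fun j _ => by ring
  have honto : ∀ v, hdot g v = 0 → ∃ z, Mz *ᵥ z = v := fun v hv => by
    set z0 : Fin m → ℤ := Function.update v i0 0 with hz0
    have hdiv : (P : ℤ) ∣ v i0 - (Mz *ᵥ z0) i0 := by
      rw [← ZMod.intCast_zmod_eq_zero_iff_dvd]
      have h1 : hdot g (v - Mz *ᵥ z0) = 0 := by rw [hdot_sub, hv, hMdot, sub_zero]
      rw [hdot, Finset.sum_eq_single i0 (fun j _ hj => by simp [hMval, hj, hz0]) (by simp),
        hg0, one_mul] at h1
      simpa using h1
    obtain ⟨k, hk⟩ := hdiv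
    refine ⟨z0 + Pi.single i0 k, funext fun i => ?_⟩
    rw [Matrix.mulVec_add, Pi.add_apply, hMval (Pi.single i0 k) i]
    by_cases hi : i = i0
    · subst hi
      rw [if_pos rfl, Finset.sum_eq_single i (fun j _ hj => by simp [hj]) (by simp),
        Pi.single_eq_same, show row i = P by simp [hrow]]
      linarith
    · simp [hMval, hi, hz0]
  refine ⟨A, by rw [hAdet, abs_one], fun z => ⟨_, hAzr z, ?_⟩, fun B hB => ?_⟩
  · have h1 := hMdot z
    rw [hdot_g] at h1
    exact (mul_eq_zero.1 h1).resolve_left (inv_ne_zero hi0)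
  · set C := lam • B with hC
    set F : (Fin m → ℝ) → Prop := fun x => ∀ v, hdot g v = 0 → x + zr v ∉ C with hF
    have hunc : ∀ w, w ∈ uncov B A ↔ F (MR *ᵥ w) := fun w => by
      have e : ∀ z, A (w + zr z) ∈ B ↔ MR *ᵥ w + zr (Mz *ᵥ z) ∈ C := fun z => by
        rw [map_add, hAzr, show A w = lam⁻¹ • (MR *ᵥ w) by
          rw [hA, LinearMap.smul_apply, Matrix.toLin'_apply], ← smul_add, hC,
          Set.mem_smul_set_iff_inv_smul_mem₀ hlam.ne']
      constructor
      · intro hw v hv
        obtain ⟨z, rfl⟩ := honto v hv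
        exact fun hcon => hw z ((e z).2 hcon)
      · exact fun hw z hcon => hw _ (hMdot z) ((e z).1 hcon)
    set ind : (Fin m → ℝ) → ℝ≥0∞ := fun x => if F x then 1 else 0 with hind
    have hCm : MeasurableSet C := (hB.smul lam).measurableSet
    have hFm : MeasurableSet {x | F x} := by
      have : {x | F x} = ⋂ v : {v : Fin m → ℤ // hdot g v = 0}, (fun x => x + zr v.1) ⁻¹' Cᶜ := by
        ext x; simp [hF]
      rw [this]
      exact MeasurableSet.iInter fun v => hCm.compl.preimage (measurable_add_const _)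
    have hindm : Measurable ind := Measurable.ite hFm measurable_const measurable_const
    set e : Fin m → ℤ := Pi.single i0 1 with he
    set shf : ZMod P → (Fin m → ℤ) := fun c => (c.val : ℤ) • e with hshf
    have hdot_shf : ∀ c, hdot g (shf c) = c := fun c => by
      rw [hdot, Finset.sum_eq_single i0 (fun j _ hj => by simp [hshf, he, hj]) (by simp)]
      simp only [hshf, he, Pi.smul_apply, Pi.single_eq_same, smul_eq_mul, mul_one,
        Int.cast_natCast, hg0, one_mul, ZMod.natCast_zmod_val]
    set Φ : (Fin m → ℝ) → ℝ≥0∞ := fun x => ∑ c : ZMod P, ind (x + zr (shf c)) with hΦ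
    have hΦm : Measurable Φ := Finset.measurable_sum _ fun c _ => hindm.comp (by fun_prop)
    have hFper : ∀ x v, hdot g v = 0 → (F (x + zr v) ↔ F x) := fun x v hv => by
      constructor
      · intro hF1 v' hv'
        have := hF1 (v' - v) (by rw [hdot_sub, hv', hv, sub_zero])
        rwa [add_assoc, ← zr_add, add_sub_cancel] at this
      · intro hF1 v' hv'
        rw [add_assoc, ← zr_add]
        exact hF1 _ (by rw [hdot_add, hv', hv, add_zero])
    have hΦper : ∀ x u, Φ (x + zr u) = Φ x := fun x u => by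
      rw [hΦ]
      refine Fintype.sum_equiv (Equiv.addLeft (hdot g u)) _ _ fun c => ?_
      set d : ZMod P := hdot g u + c with hd
      have hv : hdot g (u + shf c - shf d) = 0 := by
        rw [hdot_sub, hdot_add, hdot_shf, hdot_shf, hd, sub_self]
      have hiff := hFper (x + zr (shf d)) _ hv
      rw [show x + zr (shf d) + zr (u + shf c - shf d) = x + zr u + zr (shf c) by
        simp only [add_assoc, ← zr_add]; congr 2; abel] at hiff
      simp only [hind, Equiv.coe_addLeft, ← hd]
      by_cases hq : F (x + zr (shf d))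
      · rw [if_pos hq, if_pos (hiff.2 hq)]
      · rw [if_neg hq, if_neg fun h => hq (hiff.1 h)]
    have hper : ∀ x z, (uncov B A).indicator (1 : (Fin m → ℝ) → ℝ≥0∞) (x + zr z) =
        (uncov B A).indicator 1 x := fun x z => by
      by_cases hx : x ∈ uncov B A
      · rw [indicator_of_mem hx, indicator_of_mem ((uncov_periodic B A x z).2 hx)]; rfl
      · rw [indicator_of_notMem hx,
          indicator_of_notMem fun h => hx ((uncov_periodic B A x z).1 h)]
    have hMdetR : MR.det ≠ 0 := by
      rw [hMR, ← RingHom.mapMatrix_apply, ← RingHom.map_det, hdet]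
      simpa using hP0
    have hshift : ∀ b, ∫⁻ w in cell 0, ind (MR *ᵥ w + b) = miss B A := by
      intro b
      obtain ⟨c, rfl⟩ : ∃ c, MR *ᵥ c = b := ⟨MR⁻¹ *ᵥ b, by
        rw [Matrix.mulVec_mulVec, Matrix.mul_nonsing_inv _ (isUnit_iff_ne_zero.2 hMdetR),
          Matrix.one_mulVec]⟩
      rw [← miss_shift hB.measurableSet A c]
      refine lintegral_congr fun w => ?_
      rw [← Matrix.mulVec_add]
      simp only [hind, Set.indicator_apply, hunc, Pi.one_apply]
    have hmeas2 : Measurable fun q : (Fin m → ℝ) × (Fin m → ℝ) => Φ (MR *ᵥ q.1 + q.2) := by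
      refine hΦm.comp (Measurable.add ?_ measurable_snd)
      exact ((Matrix.toLin' MR).continuous_of_finiteDimensional.measurable).comp measurable_fst
    calc miss B A * (P : ℝ≥0∞) = ∫⁻ a in cell 0, ∫⁻ w in cell 0, Φ (MR *ᵥ w + a) := by
          have : ∀ a, ∫⁻ w in cell 0, Φ (MR *ᵥ w + a) = miss B A * (P : ℝ≥0∞) := fun a => by
            simp only [hΦ, add_assoc]
            rw [lintegral_finsetSum _ fun c _ => ?_]
            · simp only [hshift]
              rw [Finset.sum_const, Finset.card_univ, ZMod.card, nsmul_eq_mul, mul_comm]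
            · exact hindm.comp (((Matrix.toLin' MR).continuous_of_finiteDimensional.measurable).add_const _)
          simp only [this]
          rw [setLIntegral_const, volume_cell, mul_one]
      _ = ∫⁻ w in cell 0, ∫⁻ a in cell 0, Φ (a + MR *ᵥ w) := by
          rw [lintegral_lintegral_swap]
          · simp only [add_comm]
          · exact (hmeas2.comp measurable_swap).aemeasurable
      _ = ∫⁻ a in cell 0, Φ a := by
          simp only [lintegral_periodic_shift hΦm hΦper]
          rw [setLIntegral_const, volume_cell, mul_one]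
      _ = _ := by
          refine lintegral_congr fun a => ?_
          simp only [hΦ, hind, avoidCnt]
          rw [Finset.sum_boole]
          congr 1
          refine Finset.card_bij (fun c _ => c * h i0) (fun c hc => ?_) (fun c _ d _ hcd =>
            mul_right_cancel₀ hi0 hcd) (fun d hd => ⟨d * (h i0)⁻¹, ?_, by
              rw [mul_assoc, inv_mul_cancel₀ hi0, mul_one]⟩)
          · simp only [Finset.mem_filter, Finset.mem_univ, true_and, mem_gridPts] at hc ⊢
            intro u hu hcon
            refine hc (u - shf c) ?_ ?_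
            · rw [hdot_sub, hdot_shf, hdot_g, hcon, mul_comm c, ← mul_assoc,
                inv_mul_cancel₀ hi0, one_mul, sub_self]
            · rw [add_assoc, ← zr_add, add_sub_cancel]
              exact hu
          · simp only [Finset.mem_filter, Finset.mem_univ, true_and, mem_gridPts] at hd ⊢
            intro v hv hcon
            rw [add_assoc, ← zr_add] at hcon
            refine hd _ hcon ?_
            have h2 : hdot g (shf (d * (h i0)⁻¹) + v) = d * (h i0)⁻¹ := by
              rw [hdot_add, hdot_shf, hv, add_zero]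
            rw [hdot_g, mul_comm] at h2
            exact mul_right_cancel₀ (inv_ne_zero hi0) h2

end

end Vale.Agent.P230.Upper
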