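import Vale.Agent.P230.Upper.Counting
import Vale.Agent.P230.Upper.Hyperplane

/-!
P230 upper bound, base step: lattices of covolume one in `ℝ^m` that miss only an `e^{-cm}` fraction
of space for each of several given convex bodies of volume `c m`, and avoid a small symmetric body.
-/

open Finset MeasureTheory Filter Topology
open scoped Pointwise ENNReal

namespace Vale.Agent.P230.Upper

noncomputable section

open scoped Classical

variable {m : ℕ}

lemma altsum_le {μ : ℝ} (hμ : 0 < μ) {M : ℕ} (hM : 6 * μ ≤ M) :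
    ∑ j ∈ range M, (-μ) ^ j / j.factorial ≤ Real.exp (-μ) + 2 * (1 / 2) ^ M := by
  have hM0 : (0 : ℝ) < M := lt_of_lt_of_le (by linarith) hM
  have h : ‖Complex.exp ((-μ : ℝ) : ℂ) - ∑ j ∈ range M, ((-μ : ℝ) : ℂ) ^ j / j.factorial‖ ≤
      ‖((-μ : ℝ) : ℂ)‖ ^ M / M.factorial * 2 := by
    refine Complex.exp_bound' ?_
    rw [Complex.norm_real, Real.norm_eq_abs, abs_neg, abs_of_pos hμ, div_le_iff₀ (by positivity)]
    push_cast
    linarith
  have hcast : Complex.exp ((-μ : ℝ) : ℂ) - ∑ j ∈ range M, ((-μ : ℝ) : ℂ) ^ j / j.factorial =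
      ((Real.exp (-μ) - ∑ j ∈ range M, (-μ) ^ j / j.factorial : ℝ) : ℂ) := by
    push_cast
    rfl
  rw [hcast, Complex.norm_real, Complex.norm_real, Real.norm_eq_abs, Real.norm_eq_abs, abs_neg,
    abs_of_pos hμ] at h
  have h2 : μ ^ M / M.factorial ≤ (1 / 2 : ℝ) ^ M := by
    have h3 : (M : ℝ) ^ M / M.factorial ≤ Real.exp M :=
      Real.pow_div_factorial_le_exp (M : ℝ) hM0.le M
    have h4 : μ ^ M ≤ ((M : ℝ) / 6) ^ M := pow_le_pow_left₀ hμ.le (by linarith) M
    calc μ ^ M / M.factorial ≤ ((M : ℝ) / 6) ^ M / M.factorial := by gcongr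
      _ = (M : ℝ) ^ M / M.factorial / 6 ^ M := by rw [div_pow]; ring
      _ ≤ Real.exp M / 6 ^ M := by gcongr
      _ = (Real.exp 1 / 6) ^ M := by rw [← Real.exp_one_pow, div_pow]
      _ ≤ _ := pow_le_pow_left₀ (by positivity) (by have := Real.exp_one_lt_three; linarith) M
  have := (abs_le.1 h).1
  linarith

lemma hdot_cons {P : ℕ} (c : ZMod P) (h : Fin m → ZMod P) (u : Fin m → ℤ) :
    dotProduct (Fin.cons c h : Fin (m + 1) → ZMod P) (liftP P u) = c + hdot h u := by
  simp [dotProduct, Fin.sum_univ_succ, liftP, liftZ, hdot]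

lemma sum_avoidCnt {P : ℕ} [Fact P.Prime] (S : Finset (Fin m → ℤ)) :
    ∑ h : Fin m → ZMod P, avoidCnt S h =
      (univ.filter fun φ : Fin (m + 1) → ZMod P => sel (liftP P) S φ = ∅).card := by
  simp only [avoidCnt]
  rw [← Finset.card_sigma]
  refine Finset.card_bij (fun p _ => Fin.cons (-p.2) p.1) (fun p hp => ?_) (fun p _ q _ h => ?_)
    (fun φ hφ => ⟨⟨Fin.tail φ, -φ 0⟩, ?_, by simp⟩)
  · simp only [Finset.mem_sigma, mem_filter, mem_univ, true_and] at hp ⊢
    simp only [sel, Finset.filter_eq_empty_iff]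
    intro u hu h0
    rw [hdot_cons] at h0
    exact hp u hu (neg_add_eq_zero.1 h0).symm
  · obtain ⟨p1, p2⟩ := p
    obtain ⟨q1, q2⟩ := q
    simp only [Fin.cons_inj, neg_inj] at h
    obtain ⟨rfl, rfl⟩ := h
    rfl
  · simp only [Finset.mem_sigma, mem_filter, mem_univ, true_and] at hφ ⊢
    simp only [sel, Finset.filter_eq_empty_iff] at hφ
    intro u hu h0
    refine hφ hu ?_
    rw [← Fin.cons_self_tail φ, hdot_cons, h0, add_neg_cancel]

lemma card_hdot_zero {P : ℕ} [Fact P.Prime] {u : Fin m → ℤ} (hu : ∃ i, ((u i : ℤ) : ZMod P) ≠ 0) :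
    (univ.filter fun h : Fin m → ZMod P => hdot h u = 0).card * P = P ^ m := by
  have hne : (fun i => ((u i : ℤ) : ZMod P)) ≠ 0 := Function.ne_iff.2 hu
  have h := card_vanish (F := ZMod P) (fun w : Fin m → ℤ => fun i => ((w i : ℤ) : ZMod P)) {u}
    (by rw [Finset.coe_singleton]; exact LinearIndepOn.singleton hne)
  rw [Finset.card_singleton, pow_one, ZMod.card] at h
  rw [← h]
  congr 2
  refine Finset.filter_congr fun φ _ => ?_
  simp [hdot, dotProduct]

/-- The absolute constant of the base step. -/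
def cB : ℝ := min (1 / 100) (-Real.log (kappa : ℝ) / 60)

lemma cB_pos : 0 < cB := by
  refine lt_min (by norm_num) (div_pos (neg_pos.2 (Real.log_neg ?_ ?_)) (by norm_num))
  · exact_mod_cast kappa_pos
  · exact_mod_cast kappa_lt_one

lemma exists_parameters : ∃ m0 : ℕ, ∀ m, m0 ≤ m → 8 ≤ m ∧ 1 ≤ cB * m ∧ ∃ r : ℕ,
    8 * r + 6 ≤ m ∧
    ∑ j ∈ range (2 * r + 1), (-(cB * m)) ^ j / j.factorial +
      6 * 6 ^ (4 * r + 1) * (kappa : ℝ) ^ m * Real.exp (4 * (cB * m)) + Real.exp (-(cB * m)) ≤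
      7 / 2 * Real.exp (-(cB * m)) := by
  set g := -Real.log (kappa : ℝ) with hg
  have hk0 : 0 < (kappa : ℝ) := by exact_mod_cast kappa_pos
  have hg0 : 0 < g := by
    rw [hg]; exact neg_pos.2 (Real.log_neg hk0 (by exact_mod_cast kappa_lt_one))
  refine ⟨max 20 (max ⌈1 / cB⌉₊ ⌈52 / g⌉₊), fun m hm => ?_⟩
  simp only [max_le_iff] at hm
  obtain ⟨h20, hc, hg'⟩ := hm
  have hc' : 1 ≤ cB * m := by
    have : (1 / cB : ℝ) ≤ m := (Nat.le_ceil _).trans (by exact_mod_cast hc)
    rwa [div_le_iff₀ cB_pos, mul_comm] at this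
  have hg'' : 52 ≤ g * m := by
    have : (52 / g : ℝ) ≤ m := (Nat.le_ceil _).trans (by exact_mod_cast hg')
    rwa [div_le_iff₀ hg0, mul_comm] at this
  have hm20 : (20 : ℝ) ≤ m := by exact_mod_cast h20
  set μ := cB * (m : ℝ) with hμ
  have hμ1 : 100 * μ ≤ m := by
    have := min_le_left (1 / 100 : ℝ) (-Real.log (kappa : ℝ) / 60)
    rw [hμ, cB]; nlinarith
  have hμ2 : 60 * μ ≤ g * m := by
    have := min_le_right (1 / 100 : ℝ) (-Real.log (kappa : ℝ) / 60)
    rw [hμ, cB]; rw [← hg] at this ⊢; nlinarith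
  set r := ⌈3 * μ⌉₊ with hr
  have hr1 : 3 * μ ≤ r := Nat.le_ceil _
  have hr2 : (r : ℝ) ≤ 3 * μ + 1 := (Nat.ceil_lt_add_one (by linarith)).le
  refine ⟨by omega, hc', r, ?_, ?_⟩
  · have : ((8 * r + 6 : ℕ) : ℝ) ≤ (m : ℝ) := by push_cast; linarith
    exact_mod_cast this
  · have h1 := altsum_le (show 0 < μ by linarith) (M := 2 * r + 1) (by push_cast; linarith)
    have e1 : (1 : ℝ) / 2 ≤ Real.exp (-(2 / 3)) := by
      have : Real.exp (2 / 3 : ℝ) ≤ 2 := by
        have h2 := Real.log_two_gt_d9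
        rw [← Real.le_log_iff_exp_le two_pos]
        linarith
      rw [Real.exp_neg, one_div]
      exact inv_anti₀ (Real.exp_pos _) this
    have h2 : 2 * (1 / 2 : ℝ) ^ (2 * r + 1) ≤ Real.exp (-μ) := by
      calc 2 * (1 / 2 : ℝ) ^ (2 * r + 1) = (1 / 2 : ℝ) ^ (2 * r) := by rw [pow_succ]; ring
        _ ≤ Real.exp (-(2 / 3)) ^ (2 * r) := by gcongr
        _ = Real.exp (-(2 / 3) * (2 * r : ℕ)) := by rw [← Real.exp_nat_mul]; ring_nf
        _ ≤ _ := Real.exp_le_exp.2 (by push_cast; linarith)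
    have h6 : (6 : ℝ) ≤ Real.exp 2 := by
      have h2 := Real.exp_one_gt_d9
      rw [show (2 : ℝ) = 1 + 1 by norm_num, Real.exp_add]
      nlinarith
    have h3 : 6 * 6 ^ (4 * r + 1) * (kappa : ℝ) ^ m * Real.exp (4 * μ) ≤
        1 / 2 * Real.exp (-μ) := by
      have hk : (kappa : ℝ) ^ m = Real.exp (-(g * m)) := by
        rw [hg, neg_mul, neg_neg, mul_comm, Real.exp_nat_mul, Real.exp_log hk0]
      have he : Real.exp (-1) ≤ 1 / 2 := by
        rw [Real.exp_neg, one_div]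
        exact inv_anti₀ two_pos (by linarith [Real.exp_one_gt_d9])
      calc 6 * 6 ^ (4 * r + 1) * (kappa : ℝ) ^ m * Real.exp (4 * μ)
          ≤ Real.exp 2 * Real.exp 2 ^ (4 * r + 1) * Real.exp (-(g * m)) * Real.exp (4 * μ) := by
            rw [hk]
            gcongr
        _ = Real.exp (2 + (4 * r + 1 : ℕ) * 2 + -(g * m) + 4 * μ) := by
            rw [← Real.exp_nat_mul, ← Real.exp_add, ← Real.exp_add, ← Real.exp_add]
        _ ≤ Real.exp (-1 + -μ) := Real.exp_le_exp.2 (by push_cast; linarith)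
        _ = Real.exp (-1) * Real.exp (-μ) := Real.exp_add _ _
        _ ≤ _ := mul_le_mul_of_nonneg_right he (Real.exp_pos _).le
    linarith [Real.exp_pos (-μ)]

lemma shrink_body {B : Set (Fin m → ℝ)} (hm : m ≠ 0) (hc : Convex ℝ B) (hk : IsCompact B) {μ : ℝ}
    (hμ : 0 < μ) (hV : μ ≤ (volume B).toReal) :
    ∃ B', B' ⊆ B ∧ Convex ℝ B' ∧ IsCompact B' ∧ (volume B').toReal = μ := by
  obtain ⟨z, hz⟩ : B.Nonempty := by
    by_contra h
    rw [Set.not_nonempty_iff_eq_empty] at h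
    simp [h] at hV
    linarith
  have hV0 : 0 < (volume B).toReal := lt_of_lt_of_le hμ hV
  set c := (μ / (volume B).toReal) ^ ((m : ℝ)⁻¹) with hcdef
  have hc0 : 0 ≤ c := Real.rpow_nonneg (by positivity) _
  have hc1 : c ≤ 1 := Real.rpow_le_one (by positivity) ((div_le_one hV0).2 hV) (by positivity)
  refine ⟨hom z c B, ?_, hc.affine_image _, isCompact_hom hk, ?_⟩
  · rintro _ ⟨x, hx, rfl⟩
    rw [AffineMap.homothety_apply, vsub_eq_sub, vadd_eq_add]
    exact hc.lineMap_mem hz hx ⟨hc0, hc1⟩ |> fun h => by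
      simpa [AffineMap.lineMap_apply_module'] using h
  · rw [volume_hom hc0, ENNReal.toReal_mul, ENNReal.toReal_ofReal (pow_nonneg hc0 m), hcdef,
      Real.rpow_inv_natCast_pow (by positivity) hm]
    field_simp

lemma sum_lintegral_le' {α β : Type*} [MeasurableSpace α] (ν : Measure α) (s : Finset β)
    (f : β → α → ℝ≥0∞) : ∑ i ∈ s, ∫⁻ a, f i a ∂ν ≤ ∫⁻ a, ∑ i ∈ s, f i a ∂ν := by
  induction s using Finset.induction with
  | empty => simp
  | insert i s hi ih =>
    simp only [Finset.sum_insert hi]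
    exact (add_le_add le_rfl ih).trans (le_lintegral_add _ _)

/-- The base step. -/
theorem base_lattice : ∃ m0 : ℕ, ∀ m, m0 ≤ m → ∀ (ι : Type) [Fintype ι] [Nonempty ι]
    (B : ι → Set (Fin m → ℝ)), (∀ i, Convex ℝ (B i)) → (∀ i, IsCompact (B i)) →
    (∀ i, cB * m ≤ (volume (B i)).toReal) → ∀ S0 : Set (Fin m → ℝ), Convex ℝ S0 → IsCompact S0 →
    0 < (volume S0).toReal → (volume S0).toReal ≤ (1 / 2) ^ m →
    ∃ A : (Fin m → ℝ) →ₗ[ℝ] (Fin m → ℝ), |LinearMap.det A| = 1 ∧
      (∀ i, miss (B i) A ≤ ENNReal.ofReal (4 * Fintype.card ι * Real.exp (-(cB * m)))) ∧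
      ∀ z : Fin m → ℤ, A (zr z) ∈ S0 → z = 0 := by
  obtain ⟨m0, hm0⟩ := exists_parameters
  refine ⟨m0, fun m hm ι _ _ B hBc hBk hBV S0 hSc hSk hS0 hSV => ?_⟩
  obtain ⟨hm8, hμ1, r, hr, hpar⟩ := hm0 m hm
  set μ := cB * (m : ℝ) with hμ
  have hμ0 : 0 < μ := by linarith
  have hmne : m ≠ 0 := by omega
  choose B' hB'sub hB'c hB'k hB'V using fun i => shrink_body hmne (hBc i) (hBk i) hμ0 (hBV i)
  have hcount := fun i => eventually_none_le (hB'c i) (hB'k i) hμ0 (hB'V i) r hr (Real.exp_pos (-μ))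
  obtain ⟨z0, r0, hfat⟩ := exists_fat hSc hSk hS0
  obtain ⟨R0, hR0⟩ := hSk.isBounded.exists_norm_le
  have hshort : ∀ᶠ P : ℕ in atTop, 32 ≤ P ∧ max R0 1 < scl m P ∧
      (1 + 1 / (scl m P * r0)) ^ m ≤ 2 := by
    have h1 : Tendsto (fun P : ℕ => (1 + 1 / (scl m P * r0)) ^ m) atTop (𝓝 1) := by
      have : Tendsto (fun P : ℕ => 1 / (scl m P * r0)) atTop (𝓝 0) := tendsto_const_nhds.div_atTop
        (Tendsto.atTop_mul_const hfat.pos (tendsto_scl (by omega)))
      simpa using (this.const_add 1).pow m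
    filter_upwards [eventually_ge_atTop 32,
      (tendsto_scl (show 0 < m by omega)).eventually (eventually_gt_atTop (max R0 1)),
      h1.eventually (ge_mem_nhds (show (1 : ℝ) < 2 by norm_num))] with P a b c using ⟨a, b, c⟩
  obtain ⟨P, ⟨hPall, hP32, hPR, hP2⟩, hPp⟩ := ((((eventually_all.2 hcount).and hshort).and_frequently
    (Nat.frequently_atTop_iff_infinite.2 Nat.infinite_setOfPred_prime))).exists
  have hfact : Fact P.Prime := ⟨hPp⟩
  have hP0 : (0 : ℝ) < P := by exact_mod_cast hPp.pos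
  have hlam : 0 < scl m P := scl_pos hPp.pos
  have hlamP := scl_pow hmne P
  -- lattices
  have hex := fun h : {h : Fin m → ZMod P // h ≠ 0} =>
    exists_hyperplane_lattice hlam hlamP h.2
  choose A hAdet hAim hAmiss using hex
  -- short vectors
  set T := (bodyPts hSk P 0).filter fun u => u ≠ 0 with hT
  have hTne : ∀ u ∈ T, ∃ i, ((u i : ℤ) : ZMod P) ≠ 0 := by
    intro u hu
    obtain ⟨hu1, hu2⟩ := Finset.mem_filter.1 hu
    obtain ⟨i, hi⟩ := Function.ne_iff.1 hu2
    refine ⟨i, fun h0 => hi ?_⟩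
    rw [ZMod.intCast_zmod_eq_zero_iff_dvd] at h0
    have hmem := mem_gridPts.1 hu1
    rw [zero_add, Set.mem_smul_set] at hmem
    obtain ⟨b, hb, hbu⟩ := hmem
    have hbi : |b i| ≤ R0 := (norm_le_pi_norm b i).trans (hR0 b hb)
    have hui : |((u i : ℤ) : ℝ)| < (P : ℝ) := by
      have hi' := congrFun hbu i
      simp only [Pi.smul_apply, smul_eq_mul, zr] at hi'
      rw [← hi', abs_mul, abs_of_pos hlam]
      calc scl m P * |b i| ≤ scl m P * R0 := by gcongr
        _ < scl m P * scl m P := by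
            gcongr
            exact lt_of_le_of_lt (le_max_left _ _) hPR
        _ = scl m P ^ 2 := by ring
        _ ≤ scl m P ^ m := pow_le_pow_right₀ ((le_max_right _ _).trans hPR.le) (by omega)
        _ = P := hlamP
    have hui' : |u i| < (P : ℤ) := by
      rw [← Int.cast_abs] at hui
      exact_mod_cast hui
    exact Int.eq_zero_of_abs_lt_dvd h0 hui'
  have hTcard : (T.card : ℝ) ≤ 2 * (1 / 2 : ℝ) ^ m * P := by
    have h1 : (T.card : ℝ) ≤ ((bodyPts hSk P 0).card : ℝ) :=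
      Nat.cast_le.2 (Finset.card_filter_le _ _)
    have h2 := (fat_smul hfat hlam).card_le 0 (bodyPts hSk P 0) fun u hu => mem_gridPts.1 hu
    rw [volume_scl_smul hmne] at h2
    calc (T.card : ℝ) ≤ (1 + 1 / (scl m P * r0)) ^ m * ((P : ℝ) * (volume S0).toReal) := h1.trans h2
      _ ≤ 2 * ((P : ℝ) * (1 / 2 : ℝ) ^ m) := by gcongr
      _ = _ := by ring
  -- the functional
  set D : ℝ≥0∞ := ENNReal.ofReal (4 * Fintype.card ι * Real.exp (-μ)) with hD
  have hD0 : D ≠ 0 := by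
    rw [hD, Ne, ENNReal.ofReal_eq_zero, not_le]
    have : (0 : ℝ) < Fintype.card ι := by exact_mod_cast Fintype.card_pos
    positivity
  have hDt : D ≠ ⊤ := ENNReal.ofReal_ne_top
  set short : (Fin m → ZMod P) → ℕ := fun h => (T.filter fun u => hdot h u = 0).card with hsh
  have hsum : ∀ i, ∑ h : {h : Fin m → ZMod P // h ≠ 0}, miss (B' i) (A h) * (P : ℝ≥0∞) ≤
      ENNReal.ofReal (7 / 2 * Real.exp (-μ) * (P : ℝ) ^ (m + 1)) := by
    intro i
    simp only [hAmiss _ (B' i) (hB'k i)]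
    calc ∑ h : {h : Fin m → ZMod P // h ≠ 0},
          ∫⁻ a in cell 0, (avoidCnt (gridPts (scl m P • B' i) _ a) (h : Fin m → ZMod P) : ℝ≥0∞)
        ≤ ∫⁻ a in cell 0, ∑ h : {h : Fin m → ZMod P // h ≠ 0},
          (avoidCnt (gridPts (scl m P • B' i) ((hB'k i).smul (scl m P)).isBounded a)
            (h : Fin m → ZMod P) : ℝ≥0∞) :=
          sum_lintegral_le' _ _ _
      _ ≤ ∫⁻ _a in cell 0, ENNReal.ofReal (7 / 2 * Real.exp (-μ) * (P : ℝ) ^ (m + 1)) := by
          refine setLIntegral_mono measurable_const fun a ha => ?_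
          have hle := hPall i hfact a ha
          calc ∑ h : {h : Fin m → ZMod P // h ≠ 0},
                (avoidCnt (bodyPts (hB'k i) P a) (h : Fin m → ZMod P) : ℝ≥0∞)
              ≤ ∑ h : Fin m → ZMod P, (avoidCnt (bodyPts (hB'k i) P a) h : ℝ≥0∞) := by
                rw [← Finset.sum_subtype (univ.filter fun h : Fin m → ZMod P => h ≠ 0)
                  (by simp) (fun h => (avoidCnt (bodyPts (hB'k i) P a) h : ℝ≥0∞))]
                exact Finset.sum_le_sum_of_subset (Finset.subset_univ _)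
            _ = (((univ.filter fun φ : Fin (m + 1) → ZMod P =>
                  sel (liftP P) (bodyPts (hB'k i) P a) φ = ∅).card : ℕ) : ℝ≥0∞) := by
                rw [← sum_avoidCnt, Nat.cast_sum]
            _ ≤ _ := by
                rw [← ENNReal.ofReal_natCast]
                exact ENNReal.ofReal_le_ofReal
                  (hle.trans (mul_le_mul_of_nonneg_right hpar (by positivity)))
      _ = _ := by rw [setLIntegral_const, volume_cell, mul_one]
  have hshortsum : ∑ h : {h : Fin m → ZMod P // h ≠ 0}, (short h : ℝ≥0∞) ≤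
      ENNReal.ofReal (2 * (1 / 2 : ℝ) ^ m * (P : ℝ) ^ m) := by
    have hnat : (∑ h : Fin m → ZMod P, short h) * P = T.card * P ^ m := by
      simp only [hsh, Finset.card_filter]
      rw [Finset.sum_comm, Finset.sum_mul, Finset.sum_congr rfl fun u hu => ?_, Finset.sum_const,
        smul_eq_mul]
      rw [← Finset.card_filter]
      exact card_hdot_zero (hTne u hu)
    have hreal : ((∑ h : Fin m → ZMod P, short h : ℕ) : ℝ) ≤ 2 * (1 / 2 : ℝ) ^ m * (P : ℝ) ^ m := by
      refine le_of_mul_le_mul_right ?_ hP0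
      have h2 := congrArg (fun x : ℕ => (x : ℝ)) hnat
      simp only [Nat.cast_mul, Nat.cast_pow] at h2
      rw [h2]
      calc (T.card : ℝ) * (P : ℝ) ^ m ≤ 2 * (1 / 2 : ℝ) ^ m * P * (P : ℝ) ^ m :=
            mul_le_mul_of_nonneg_right hTcard (by positivity)
        _ = _ := by ring
    refine le_trans ?_ (ENNReal.ofReal_le_ofReal hreal)
    rw [ENNReal.ofReal_natCast, Nat.cast_sum,
      ← Finset.sum_subtype (univ.filter fun h : Fin m → ZMod P => h ≠ 0)
        (by simp) (fun h => (short h : ℝ≥0∞))]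
    exact Finset.sum_le_sum_of_subset (Finset.subset_univ _)
  set Gf : {h : Fin m → ZMod P // h ≠ 0} → ℝ≥0∞ :=
    fun h => (∑ i, miss (B' i) (A h)) / D + (short h : ℝ≥0∞) with hGf
  obtain ⟨h, hh⟩ : ∃ h, Gf h < 1 := by
    by_contra hcon
    push Not at hcon
    have h1 : ((P ^ m - 1 : ℕ) : ℝ≥0∞) ≤ ∑ h, Gf h := by
      have hc : Fintype.card {h : Fin m → ZMod P // h ≠ 0} = P ^ m - 1 := by
        rw [Fintype.card_subtype_compl, Fintype.card_subtype_eq, Fintype.card_fun, ZMod.card,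
          Fintype.card_fin]
      calc ((P ^ m - 1 : ℕ) : ℝ≥0∞) = ∑ _h : {h : Fin m → ZMod P // h ≠ 0}, (1 : ℝ≥0∞) := by
            rw [Finset.sum_const, Finset.card_univ, hc, nsmul_eq_mul, mul_one]
        _ ≤ _ := Finset.sum_le_sum fun h _ => hcon h
    have h2 : ∑ h, Gf h ≤ ENNReal.ofReal ((7 / 8) * (P : ℝ) ^ m) +
        ENNReal.ofReal (2 * (1 / 2 : ℝ) ^ m * (P : ℝ) ^ m) := by
      rw [hGf, Finset.sum_add_distrib]
      refine add_le_add ?_ hshortsum
      simp only [div_eq_mul_inv]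
      rw [← Finset.sum_mul, Finset.sum_comm, ← div_eq_mul_inv, ENNReal.div_le_iff hD0 hDt]
      have hPne : (P : ℝ≥0∞) ≠ 0 := Nat.cast_ne_zero.2 hPp.ne_zero
      rw [← ENNReal.mul_le_mul_iff_left hPne (ENNReal.natCast_ne_top P), Finset.sum_mul]
      calc ∑ i, (∑ h, miss (B' i) (A h)) * (P : ℝ≥0∞)
          ≤ ∑ _i : ι, ENNReal.ofReal (7 / 2 * Real.exp (-μ) * (P : ℝ) ^ (m + 1)) :=
            Finset.sum_le_sum fun i _ => by rw [Finset.sum_mul]; exact hsum i
        _ = _ := by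
            rw [Finset.sum_const, Finset.card_univ, nsmul_eq_mul, hD, ← ENNReal.ofReal_natCast,
              ← ENNReal.ofReal_mul (by positivity), ← ENNReal.ofReal_mul (by positivity),
              ← ENNReal.ofReal_natCast P, ← ENNReal.ofReal_mul (by positivity)]
            congr 1
            ring
    have h3 := h1.trans h2
    rw [← ENNReal.ofReal_add (by positivity) (by positivity), ← ENNReal.ofReal_natCast,
      ENNReal.ofReal_le_ofReal_iff (by positivity),
      Nat.cast_sub (Nat.one_le_pow _ _ hPp.pos)] at h3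
    push_cast at h3
    have hm' : (1 / 2 : ℝ) ^ m ≤ (1 / 2) ^ 8 := pow_le_pow_of_le_one (by norm_num) (by norm_num) hm8
    have hPm : (32 : ℝ) ≤ (P : ℝ) ^ m := le_trans (by exact_mod_cast hP32)
      (le_self_pow₀ (by exact_mod_cast hPp.one_lt.le) hmne)
    have : 2 * (1 / 2 : ℝ) ^ m * (P : ℝ) ^ m ≤ 2 * (1 / 2) ^ 8 * (P : ℝ) ^ m := by gcongr
    norm_num at this
    linarith
  refine ⟨A h, hAdet h, fun i => ?_, fun z hz => ?_⟩
  · refine (miss_mono (hB'sub i) _).trans ?_
    have h1 : (∑ i, miss (B' i) (A h)) / D < 1 := lt_of_le_of_lt le_self_add hh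
    rw [ENNReal.div_lt_iff (Or.inl hD0) (Or.inl hDt), one_mul] at h1
    exact (Finset.single_le_sum (fun i _ => zero_le) (mem_univ i)).trans h1.le
  · obtain ⟨u, hu, hdu⟩ := hAim h z
    have hinj : Function.Injective (A h) := by
      have hne : LinearMap.det (A h) ≠ 0 := fun h0 => by simpa [h0] using hAdet h
      exact ((A h).equivOfDetNeZero hne).injective
    have hshort0 : short h = 0 := by
      by_contra hne
      have : (1 : ℝ≥0∞) ≤ (short h : ℝ≥0∞) := by exact_mod_cast Nat.one_le_iff_ne_zero.2 hne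
      exact absurd (this.trans le_add_self) (not_le.2 hh)
    have hu0 : u = 0 := by
      by_contra hne
      rw [hsh, Finset.card_eq_zero, Finset.filter_eq_empty_iff] at hshort0
      refine hshort0 (Finset.mem_filter.2 ⟨mem_gridPts.2 ?_, hne⟩) hdu
      rw [zero_add, Set.mem_smul_set_iff_inv_smul_mem₀ hlam.ne', ← hu]
      exact hz
    rw [hu0] at hu
    have hz0 : zr z = 0 := hinj (by rw [hu, map_zero]; funext i; simp [zr])
    funext i
    have := congrFun hz0 i
    simpa [zr] using this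

end

end Vale.Agent.P230.Upper
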