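import Vale.Agent.P230.Upper.Slices
import Vale.Agent.P230.Upper.Grid

/-!
P230 upper bound: a parallelepiped of slicing coordinates on whose dyadic points all slices are
large, of volume comparable to `volume K` up to a factor depending only on the number of
coordinates.
-/

open MeasureTheory Set Matrix Filter Topology
open scoped ENNReal

namespace Vale.Agent.P230.Upper

noncomputable section

open scoped Classical

variable {m d : ℕ}

lemma exists_le_sum_eq {α : Type*} [Fintype α] (k : α → ℕ) :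
    ∀ a ≤ ∑ i, k i, ∃ k' : α → ℕ, (∀ i, k' i ≤ k i) ∧ ∑ i, k' i = a := by
  intro a
  induction a with
  | zero => exact fun _ => ⟨0, fun _ => Nat.zero_le _, by simp⟩
  | succ a ih =>
    intro ha
    obtain ⟨k', hk', hs⟩ := ih (by omega)
    obtain ⟨i, hi⟩ : ∃ i, k' i < k i := by
      by_contra h
      push Not at h
      have := Finset.sum_le_sum fun i (_ : i ∈ Finset.univ) => h i
      omega
    refine ⟨k' + Pi.single i 1, fun j => ?_, ?_⟩
    · rcases eq_or_ne j i with rfl | hj
      · simp; omega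
      · simp [hj, hk' j]
    · simp [Finset.sum_add_distrib, hs]

lemma dyadic_mem {E α : Type*} [AddCommGroup E] [Module ℝ E] [Fintype α] {S : Set E}
    (hS : ∀ x ∈ S, ∀ y ∈ S, (2⁻¹ : ℝ) • (x + y) ∈ S) {pts : α → E} (hp : ∀ i, pts i ∈ S) :
    ∀ (p : ℕ) (k : α → ℕ), ∑ i, k i = 2 ^ p → ∑ i, ((k i : ℝ) / 2 ^ p) • pts i ∈ S := by
  intro p
  induction p with
  | zero =>
    intro k hk
    obtain ⟨i, hi⟩ : ∃ i, k i ≠ 0 := by
      by_contra h
      push Not at h
      simp [h] at hk
    have hk1 : k i = 1 := by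
      have := Finset.single_le_sum (fun j _ => Nat.zero_le (k j)) (Finset.mem_univ i)
      rw [hk] at this
      omega
    have hz : ∀ j, j ≠ i → k j = 0 := fun j hj => by
      have := Finset.add_le_sum (fun j _ => Nat.zero_le (k j)) (Finset.mem_univ i)
        (Finset.mem_univ j) hj.symm
      rw [hk] at this
      omega
    rw [Finset.sum_eq_single i (fun j _ hj => by simp [hz j hj]) (by simp)]
    simp [hk1, hp i]
  | succ p ih =>
    intro k hk
    obtain ⟨k', hle, hk'⟩ := exists_le_sum_eq k (2 ^ p) (by rw [hk, pow_succ]; omega)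
    have h2 : ∑ i, (k i - k' i) = 2 ^ p := by
      rw [Finset.sum_tsub_distrib _ fun i _ => hle i, hk, hk', pow_succ]; omega
    have := hS _ (ih k' hk') _ (ih _ h2)
    convert this using 1
    rw [← Finset.sum_add_distrib, Finset.smul_sum]
    refine Finset.sum_congr rfl fun i _ => ?_
    rw [← add_smul, smul_smul]
    congr 1
    rw [Nat.cast_sub (hle i), pow_succ]
    field_simp
    ring

/-- A midpoint-convex bounded set of positive volume contains the dyadic points of a large box. -/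
theorem exists_box {S : Set (Fin d → ℝ)} (hd : 0 < d)
    (hS : ∀ x ∈ S, ∀ y ∈ S, (2⁻¹ : ℝ) • (x + y) ∈ S) (hb : Bornology.IsBounded S)
    (hpos : volume S ≠ 0) :
    ∃ (x0 : Fin d → ℝ) (T : (Fin d → ℝ) →ₗ[ℝ] (Fin d → ℝ)), LinearMap.det T ≠ 0 ∧
      volume S ≤ ENNReal.ofReal ((8 * (d : ℝ)) ^ d * |LinearMap.det T|) ∧
      ∀ (q : ℕ) (j : Fin d → ℕ), (∀ i, j i ≤ 2 ^ q) →
        x0 + T (fun i => (j i : ℝ) / 2 ^ q) ∈ S := by
  obtain ⟨R, hR⟩ := hb.exists_norm_le
  set mat : (Option (Fin d) → Fin d → ℝ) → Matrix (Fin d) (Fin d) ℝ :=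
    fun x => Matrix.of fun i c => x (some i) c - x none c with hmat
  set D : Set ℝ := (fun x => |(mat x).det|) '' {x | ∀ o, x o ∈ S} with hD
  obtain ⟨s0, hs0⟩ : S.Nonempty := nonempty_of_measure_ne_zero hpos
  have hDbdd : BddAbove D := by
    refine ⟨(Fintype.card (Fin d)).factorial • (2 * R) ^ Fintype.card (Fin d), ?_⟩
    rintro _ ⟨x, hx, rfl⟩
    refine Matrix.det_le (abv := AbsoluteValue.abs) fun i c => ?_
    simp only [AbsoluteValue.abs_apply, hmat, Matrix.of_apply]
    refine (abs_sub _ _).trans ?_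
    have h1 := (norm_le_pi_norm (x (some i)) c).trans (hR _ (hx (some i)))
    have h2 := (norm_le_pi_norm (x none) c).trans (hR _ (hx none))
    rw [Real.norm_eq_abs] at h1 h2
    linarith
  obtain ⟨x1, hx1, hdet1⟩ : ∃ x, (∀ o, x o ∈ S) ∧ (mat x).det ≠ 0 := by
    by_contra hcon
    push Not at hcon
    apply hpos
    set W := Submodule.span ℝ ((fun x => x - s0) '' S) with hW
    have hWtop : W ≠ ⊤ := by
      intro htop
      obtain ⟨b, hbsub, hbspan, hbli⟩ := exists_linearIndependent ℝ ((fun x => x - s0) '' S)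
      have hbasis : Module.Basis b ℝ (Fin d → ℝ) := Module.Basis.mk hbli (by
        rw [Subtype.range_coe, hbspan, ← hW, htop])
      have hfin : Finite b := Module.Finite.finite_basis hbasis
      have : Fintype b := Fintype.ofFinite b
      have hcard : Fintype.card b = d := by
        rw [← Module.finrank_eq_card_basis hbasis, Module.finrank_fin_fun]
      set e : Fin d ≃ b := (Fintype.equivFinOfCardEq hcard).symm with he
      choose g hgS hg using fun i : Fin d => hbsub (e i).2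
      have h0 := hcon (fun o => o.elim s0 g) (fun o => by cases o <;> simp [hs0, hgS])
      have hrows : LinearIndependent ℝ (mat (fun o => o.elim s0 g)).row := by
        have h := hbli.comp e e.injective
        have heq : (mat (fun o => o.elim s0 g)).row = (Subtype.val ∘ e) := by
          funext i c
          simp only [hmat, Matrix.row, Matrix.of_apply, Option.elim, Function.comp_apply]
          rw [← hg i]
          rfl
        rw [heq]
        exact h
      rw [Matrix.linearIndependent_rows_iff_isUnit, Matrix.isUnit_iff_isUnit_det] at hrows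
      exact hrows.ne_zero h0
    have hsub : S ⊆ (fun x => x + -s0) ⁻¹' (W : Set (Fin d → ℝ)) := fun x hx => by
      rw [mem_preimage, ← sub_eq_add_neg]
      exact Submodule.subset_span ⟨x, hx, rfl⟩
    refine measure_mono_null hsub ?_
    rw [measure_preimage_add_right]
    exact Measure.addHaar_submodule _ _ hWtop
  have hsup : 0 < sSup D :=
    lt_of_lt_of_le (abs_pos.2 hdet1) (le_csSup hDbdd ⟨x1, hx1, rfl⟩)
  obtain ⟨_, ⟨x, hx, rfl⟩, hlt⟩ := exists_lt_of_lt_csSup
    (Set.Nonempty.image _ ⟨x1, hx1⟩ : D.Nonempty) (half_lt_self hsup)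
  set E := mat x with hE
  have hdet : E.det ≠ 0 := fun h => by
    simp only [hE] at h
    simp only [h, abs_zero] at hlt
    linarith
  have hcov : S ⊆ (fun c : Fin d → ℝ => x none + c ᵥ* E) '' Icc (fun _ => -2) (fun _ => 2) := by
    intro v hv
    refine ⟨(v - x none) ᵥ* E⁻¹, ?_, ?_⟩
    · set c := (v - x none) ᵥ* E⁻¹ with hc
      have hcE : c ᵥ* E = v - x none := by
        rw [hc, Matrix.vecMul_vecMul, Matrix.nonsing_inv_mul _ (isUnit_iff_ne_zero.2 hdet),
          Matrix.vecMul_one]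
      have key : ∀ i, |c i| ≤ 2 := fun i => by
        have hy : ∀ o, Function.update x (some i) v o ∈ S := fun o => by
          by_cases h : o = some i
          · simp [h, hv]
          · simp [Function.update_of_ne h, hx o]
        have hrow : mat (Function.update x (some i) v) = E.updateRow i (∑ k, c k • E k) := by
          have hsum : ∑ k, c k • E k = v - x none := by
            rw [← hcE]; funext l; simp [Matrix.vecMul, dotProduct, Finset.sum_apply]
          rw [hsum]
          ext a b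
          by_cases ha : a = i
          · subst ha; simp [hmat, Matrix.updateRow_self]
          · simp [hmat, hE, ha]
        have h1 : |(mat (Function.update x (some i) v)).det| ≤ sSup D :=
          le_csSup hDbdd ⟨_, hy, rfl⟩
        rw [hrow, Matrix.det_updateRow_sum, smul_eq_mul, abs_mul] at h1
        have h2 : sSup D / 2 < |E.det| := hlt
        nlinarith [abs_nonneg (c i), abs_nonneg E.det]
      exact ⟨fun i => (abs_le.1 (key i)).1, fun i => (abs_le.1 (key i)).2⟩
    · show x none + ((v - x none) ᵥ* E⁻¹) ᵥ* E = v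
      rw [Matrix.vecMul_vecMul, Matrix.nonsing_inv_mul _ (isUnit_iff_ne_zero.2 hdet),
        Matrix.vecMul_one, add_sub_cancel]
  obtain ⟨p, hp1, hp2⟩ : ∃ p : ℕ, d ≤ 2 ^ p ∧ 2 ^ p ≤ 2 * d :=
    ⟨Nat.log 2 d + 1, (Nat.lt_pow_succ_log_self one_lt_two d).le, by
      rw [pow_succ]; have := Nat.pow_log_le_self 2 hd.ne'; omega⟩
  set T : (Fin d → ℝ) →ₗ[ℝ] (Fin d → ℝ) := ((2 : ℝ) ^ p)⁻¹ • Matrix.toLin' Eᵀ with hT
  have hTdet : LinearMap.det T = ((2 : ℝ) ^ p)⁻¹ ^ d * E.det := by
    rw [hT, LinearMap.det_smul, Module.finrank_fin_fun, LinearMap.det_toLin', Matrix.det_transpose]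
  have hTapp : ∀ w, T w = ((2 : ℝ) ^ p)⁻¹ • (w ᵥ* E) := fun w => by
    rw [hT, LinearMap.smul_apply, Matrix.toLin'_apply, Matrix.mulVec_transpose]
  refine ⟨x none, T, by rw [hTdet]; positivity, ?_, fun q j hj => ?_⟩
  · refine (measure_mono hcov).trans ?_
    have himg : (fun c : Fin d → ℝ => x none + c ᵥ* E) '' Icc (fun _ => -2) (fun _ => 2) =
        (fun v => -(x none) + v) ⁻¹' (Matrix.toLin' Eᵀ '' Icc (fun _ => -2) (fun _ => 2)) := by
      ext v
      simp only [mem_image, mem_preimage, Matrix.toLin'_apply, Matrix.mulVec_transpose]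
      exact exists_congr fun c => and_congr_right fun _ =>
        ⟨fun h => by rw [← h]; abel, fun h => by rw [h]; abel⟩
    rw [himg, measure_preimage_add, Measure.addHaar_image_linearMap, LinearMap.det_toLin',
      Matrix.det_transpose, Real.volume_Icc_pi, Finset.prod_const, Finset.card_univ,
      Fintype.card_fin, ← ENNReal.ofReal_pow (by norm_num), ← ENNReal.ofReal_mul (abs_nonneg _)]
    refine ENNReal.ofReal_le_ofReal ?_
    rw [hTdet, abs_mul, abs_pow, abs_inv, abs_of_pos (by positivity : (0 : ℝ) < 2 ^ p), inv_pow]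
    have h8 : ((4 : ℝ) * 2 ^ p) ^ d ≤ (8 * (d : ℝ)) ^ d := by
      gcongr ?_ ^ d
      have : ((2 ^ p : ℕ) : ℝ) ≤ ((2 * d : ℕ) : ℝ) := by exact_mod_cast hp2
      push_cast at this
      linarith
    calc |E.det| * (2 - (-2 : ℝ)) ^ d
        = ((4 : ℝ) * 2 ^ p) ^ d * ((((2 : ℝ) ^ p) ^ d)⁻¹ * |E.det|) := by
          rw [mul_pow]; field_simp; ring_nf
      _ ≤ _ := mul_le_mul_of_nonneg_right h8 (by positivity)
  · have hsum : ∑ i, j i ≤ 2 ^ (p + q) := by
      calc ∑ i, j i ≤ ∑ _i : Fin d, 2 ^ q := Finset.sum_le_sum fun i _ => hj i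
        _ = d * 2 ^ q := by simp
        _ ≤ 2 ^ p * 2 ^ q := Nat.mul_le_mul_right _ hp1
        _ = _ := (pow_add _ _ _).symm
    set k : Option (Fin d) → ℕ := fun o => o.elim (2 ^ (p + q) - ∑ i, j i) j with hk
    have hks : ∑ o, k o = 2 ^ (p + q) := by
      rw [Fintype.sum_option]
      simp only [hk, Option.elim]
      omega
    have hmem := dyadic_mem hS hx (p + q) k hks
    convert hmem using 1
    rw [Fintype.sum_option, hTapp]
    simp only [hk, Option.elim]
    funext l
    simp only [Pi.add_apply, Pi.smul_apply, smul_eq_mul, Finset.sum_apply, Matrix.vecMul,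
      dotProduct]
    rw [Nat.cast_sub hsum, Nat.cast_sum]
    simp only [hE, hmat, Matrix.of_apply, mul_sub, Finset.sum_sub_distrib, Finset.mul_sum]
    push_cast
    rw [sub_div, div_self (by positivity), sub_mul, one_mul, Finset.sum_div, Finset.sum_mul]
    have e : ∀ i, ((2 : ℝ) ^ p)⁻¹ * ((j i : ℝ) / 2 ^ q * x (some i) l) =
        (j i : ℝ) / 2 ^ (p + q) * x (some i) l := fun i => by rw [pow_add]; field_simp
    have e' : ∀ i, ((2 : ℝ) ^ p)⁻¹ * ((j i : ℝ) / 2 ^ q * x none l) =
        (j i : ℝ) / 2 ^ (p + q) * x none l := fun i => by rw [pow_add]; field_simp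
    simp only [e, e']
    ring

lemma series_bound (hd : 0 < d) : ∑' i : ℕ, ENNReal.ofReal ((1 / 2) ^ (2 ^ i + 1) *
    ((2 : ℝ) ^ d) ^ (i + 1)) ≤ ENNReal.ofReal (3 / 2 * (6 * (d : ℝ)) ^ d) := by
  have hd' : (0 : ℝ) < d := by exact_mod_cast hd
  have hterm : ∀ i : ℕ, (1 / 2 : ℝ) ^ (2 ^ i + 1) * ((2 : ℝ) ^ d) ^ (i + 1) ≤
      1 / 2 * (6 * (d : ℝ)) ^ d * (3 / 4) ^ (i + 1) := by
    intro i
    set y : ℕ := 2 ^ i with hy
    have hyi : i + 1 ≤ y := Nat.lt_two_pow_self
    have hpoly : ((y : ℝ) / (3 * d)) ^ d ≤ (Real.exp (1 / 3)) ^ y := by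
      calc ((y : ℝ) / (3 * d)) ^ d ≤ Real.exp ((y : ℝ) / (3 * d)) ^ d :=
            pow_le_pow_left₀ (by positivity)
              (by linarith [Real.add_one_le_exp ((y : ℝ) / (3 * d))]) d
        _ = _ := by rw [← Real.exp_nat_mul, ← Real.exp_nat_mul]; congr 1; field_simp
    have he : Real.exp (1 / 3 : ℝ) ≤ 3 / 2 := by
      rw [← Real.le_log_iff_exp_le (by norm_num)]
      have h1 := Real.one_sub_inv_le_log_of_pos (show (0 : ℝ) < 3 / 2 by norm_num)
      norm_num at h1 ⊢
      linarith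
    have h2 : ((2 : ℝ) ^ d) ^ (i + 1) = (2 * (y : ℝ)) ^ d := by
      rw [hy, ← pow_mul, mul_comm d, pow_mul, pow_succ']
      push_cast
      ring
    rw [h2, pow_succ']
    calc 1 / 2 * (1 / 2 : ℝ) ^ y * (2 * (y : ℝ)) ^ d
        = 1 / 2 * (6 * (d : ℝ)) ^ d * ((1 / 2 : ℝ) ^ y * ((y : ℝ) / (3 * d)) ^ d) := by
          rw [div_pow (y : ℝ), mul_pow, mul_pow, show (6 : ℝ) = 2 * 3 by norm_num, mul_pow,
            mul_pow (3 : ℝ)]
          field_simp
      _ ≤ 1 / 2 * (6 * (d : ℝ)) ^ d * ((1 / 2 : ℝ) ^ y * (3 / 2 : ℝ) ^ y) := by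
          gcongr
          exact hpoly.trans (pow_le_pow_left₀ (Real.exp_pos _).le he y)
      _ = 1 / 2 * (6 * (d : ℝ)) ^ d * (3 / 4 : ℝ) ^ y := by rw [← mul_pow]; norm_num
      _ ≤ _ := mul_le_mul_of_nonneg_left
          (pow_le_pow_of_le_one (by norm_num) (by norm_num) hyi) (by positivity)
  have hsum : Summable fun i : ℕ => 1 / 2 * (6 * (d : ℝ)) ^ d * (3 / 4 : ℝ) ^ (i + 1) :=
    ((summable_geometric_of_lt_one (by norm_num) (by norm_num)).comp_injective
      (add_left_injective 1)).mul_left _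
  calc _ ≤ ∑' i : ℕ, ENNReal.ofReal (1 / 2 * (6 * (d : ℝ)) ^ d * (3 / 4 : ℝ) ^ (i + 1)) :=
        ENNReal.tsum_le_tsum fun i => ENNReal.ofReal_le_ofReal (hterm i)
    _ = ENNReal.ofReal (∑' i : ℕ, 1 / 2 * (6 * (d : ℝ)) ^ d * (3 / 4 : ℝ) ^ (i + 1)) :=
        (ENNReal.ofReal_tsum_of_nonneg (fun i => by positivity) hsum).symm
    _ = _ := by
        congr 1
        simp only [pow_succ]
        rw [tsum_mul_left, tsum_mul_right, tsum_geometric_of_lt_one (by norm_num) (by norm_num)]
        ring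

/-- Slicing coordinates for a convex body. -/
theorem exists_slicing {K : Set (Fin (m + d) → ℝ)} (hd : 0 < d) (hKc : Convex ℝ K)
    (hKk : IsCompact K) (hKv : volume K ≠ 0) :
    ∃ (x0 : Fin d → ℝ) (T : (Fin d → ℝ) →ₗ[ℝ] (Fin d → ℝ)) (h : ℝ), LinearMap.det T ≠ 0 ∧ 0 < h ∧
      (∀ τ, (volume (sl d K τ)).toReal ≤ 4 * h) ∧
      (∀ (q : ℕ) (j : Fin d → ℕ), (∀ i, j i ≤ 2 ^ q) →
        h ≤ (volume (sl d K (x0 + T (fun i => (j i : ℝ) / 2 ^ q)))).toReal) ∧
      (volume K).toReal ≤ 12 * (48 * (d : ℝ) ^ 2) ^ d * h * |LinearMap.det T| := by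
  set f : (Fin d → ℝ) → ℝ := fun τ => (volume (sl d K τ)).toReal with hf
  have hfm : Measurable f := (measurable_volume_sl hKk.measurableSet).ennreal_toReal
  have hfin : ∀ τ, volume (sl d K τ) ≠ ⊤ := fun τ => (isCompact_sl hKk τ).measure_lt_top.ne
  have hbd : BddAbove (range f) := ⟨(volume (botC d '' K)).toReal, by
    rintro _ ⟨τ, rfl⟩
    exact ENNReal.toReal_mono (hKk.image (continuous_botC d)).measure_lt_top.ne
      (measure_mono (sl_subset_image K τ))⟩
  have hmid : ∀ σ τ, f σ * f τ ≤ f ((2⁻¹ : ℝ) • (σ + τ)) ^ 2 := fun σ τ => by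
    have h := ENNReal.toReal_mono (ENNReal.pow_ne_top (hfin _)) (volume_sl_mid hKc hKk σ τ)
    rwa [ENNReal.toReal_mul, ENNReal.toReal_pow] at h
  set M := ⨆ τ, f τ with hM
  have hfle : ∀ τ, f τ ≤ M := fun τ => le_ciSup hbd τ
  have hVint : volume K = ∫⁻ τ, ENNReal.ofReal (f τ) := by
    rw [volume_eq_sl d hKk.measurableSet]
    exact lintegral_congr fun τ => (ENNReal.ofReal_toReal (hfin τ)).symm
  have hMpos : 0 < M := by
    by_contra hcon
    push Not at hcon
    apply hKv
    rw [hVint]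
    have : ∀ τ, f τ = 0 := fun τ => le_antisymm ((hfle τ).trans hcon) ENNReal.toReal_nonneg
    simp [this]
  obtain ⟨xs, hxs⟩ := exists_lt_of_lt_ciSup (half_lt_self hMpos)
  set lev : ℕ → Set (Fin d → ℝ) := fun i => {τ | M * (1 / 2) ^ (2 ^ i + 1) ≤ f τ} with hlev
  have hlevm : ∀ i, MeasurableSet (lev i) := fun i => measurableSet_le measurable_const hfm
  have hlev0 : ∀ τ, τ ∈ lev 0 ↔ M / 4 ≤ f τ := fun τ => by
    simp only [hlev, mem_ofPred_eq]; norm_num
    constructor <;> intro h <;> linarith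
  have hstep : ∀ i, lev (i + 1) ⊆ hom xs 2 (lev i) := by
    intro i x hx
    refine ⟨(2⁻¹ : ℝ) • (xs + x), ?_, ?_⟩
    · simp only [hlev, mem_ofPred_eq] at hx ⊢
      refine le_of_pow_le_pow_left₀ two_ne_zero ENNReal.toReal_nonneg ?_
      refine le_trans ?_ (hmid xs x)
      have h0 : 0 ≤ f x := ENNReal.toReal_nonneg
      have hpow : (M * (1 / 2 : ℝ) ^ (2 ^ i + 1)) ^ 2 =
          (M / 2) * (M * (1 / 2) ^ (2 ^ (i + 1) + 1)) := by
        rw [mul_pow, ← pow_mul, show (2 ^ i + 1) * 2 = 2 ^ (i + 1) + 1 + 1 by ring, pow_succ _ (2 ^ (i + 1) + 1)]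
        ring
      rw [hpow]
      have hxs' : M / 2 ≤ f xs := hxs.le
      exact mul_le_mul hxs' hx (by positivity) ENNReal.toReal_nonneg
    · rw [AffineMap.homothety_apply, vsub_eq_sub, vadd_eq_add]
      funext l
      simp only [Pi.add_apply, Pi.smul_apply, Pi.sub_apply, smul_eq_mul]
      ring
  have hvol : ∀ i, volume (lev i) ≤ ENNReal.ofReal (((2 : ℝ) ^ d) ^ i) * volume (lev 0) := by
    intro i
    induction i with
    | zero => simp
    | succ i ih =>
      refine (measure_mono (hstep i)).trans ?_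
      rw [volume_hom zero_le_two, pow_succ', ENNReal.ofReal_mul (by positivity), mul_assoc]
      exact mul_le_mul' le_rfl ih
  have hK_le : volume K ≤
      ENNReal.ofReal (M * (1 + 3 / 2 * (6 * (d : ℝ)) ^ d)) * volume (lev 0) := by
    rw [hVint]
    have hpt : ∀ τ, ENNReal.ofReal (f τ) ≤ (lev 0).indicator (fun _ => ENNReal.ofReal M) τ +
        ∑' i : ℕ, (lev (i + 1)).indicator (fun _ => ENNReal.ofReal (M * (1 / 2) ^ (2 ^ i + 1))) τ := by
      intro τ
      by_cases h0 : τ ∈ lev 0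
      · rw [indicator_of_mem h0]
        exact le_add_right (ENNReal.ofReal_le_ofReal (hfle τ))
      rcases (ENNReal.toReal_nonneg : 0 ≤ f τ).eq_or_lt with hz | hp
      · have hf0 : f τ = 0 := hz.symm
        simp [hf0]
      have hex : ∃ i, τ ∈ lev i := by
        obtain ⟨i, hi⟩ := exists_pow_lt_of_lt_one (div_pos hp hMpos) (show (1 / 2 : ℝ) < 1 by norm_num)
        refine ⟨i, ?_⟩
        simp only [hlev, mem_ofPred_eq]
        rw [lt_div_iff₀ hMpos] at hi
        refine le_trans ?_ hi.le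
        rw [mul_comm]
        refine mul_le_mul_of_nonneg_right (pow_le_pow_of_le_one (by norm_num) (by norm_num) ?_)
          hMpos.le
        have : i < 2 ^ i := Nat.lt_two_pow_self
        omega
      obtain ⟨i, hi⟩ : ∃ i, Nat.find hex = i + 1 := ⟨Nat.find hex - 1, by
        have : Nat.find hex ≠ 0 := fun h => h0 (h ▸ Nat.find_spec hex)
        omega⟩
      have hnot : τ ∉ lev i := Nat.find_min hex (by omega)
      have hmem : τ ∈ lev (i + 1) := hi ▸ Nat.find_spec hex
      refine le_add_left (le_trans ?_ (ENNReal.le_tsum i))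
      rw [indicator_of_mem hmem]
      simp only [hlev, mem_ofPred_eq, not_le] at hnot
      exact ENNReal.ofReal_le_ofReal hnot.le
    refine (lintegral_mono hpt).trans ?_
    rw [lintegral_add_left (measurable_const.indicator (hlevm 0)),
      lintegral_indicator_const (hlevm 0), lintegral_tsum fun i =>
        (measurable_const.indicator (hlevm (i + 1))).aemeasurable]
    simp only [lintegral_indicator_const (hlevm _)]
    rw [mul_add, mul_one, ENNReal.ofReal_add hMpos.le (by positivity), add_mul]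
    refine add_le_add le_rfl ?_
    calc ∑' i : ℕ, ENNReal.ofReal (M * (1 / 2) ^ (2 ^ i + 1)) * volume (lev (i + 1))
        ≤ ∑' i : ℕ, ENNReal.ofReal M * ENNReal.ofReal ((1 / 2) ^ (2 ^ i + 1) *
            ((2 : ℝ) ^ d) ^ (i + 1)) * volume (lev 0) := by
          refine ENNReal.tsum_le_tsum fun i => ?_
          rw [ENNReal.ofReal_mul hMpos.le,
            ENNReal.ofReal_mul (by positivity : (0 : ℝ) ≤ (1 / 2) ^ (2 ^ i + 1))]
          refine (mul_le_mul' le_rfl (hvol (i + 1))).trans_eq ?_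
          ring
      _ = ENNReal.ofReal M * (∑' i : ℕ, ENNReal.ofReal ((1 / 2) ^ (2 ^ i + 1) *
            ((2 : ℝ) ^ d) ^ (i + 1))) * volume (lev 0) := by
          rw [ENNReal.tsum_mul_right, ENNReal.tsum_mul_left]
      _ ≤ ENNReal.ofReal M * ENNReal.ofReal (3 / 2 * (6 * (d : ℝ)) ^ d) * volume (lev 0) := by
          gcongr
          exact series_bound hd
      _ = _ := by rw [ENNReal.ofReal_mul hMpos.le]
  have hpos0 : volume (lev 0) ≠ 0 := by
    intro h0
    rw [h0, mul_zero] at hK_le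
    exact hKv (le_antisymm hK_le zero_le)
  have hb0 : Bornology.IsBounded (lev 0) := by
    refine (hKk.image (continuous_topC d)).isBounded.subset fun τ hτ => ?_
    rw [hlev0] at hτ
    have hne : (sl d K τ).Nonempty := by
      by_contra h
      rw [not_nonempty_iff_eq_empty] at h
      simp only [hf, h, measure_empty, ENNReal.toReal_zero] at hτ
      linarith
    obtain ⟨y, hy⟩ := hne
    exact ⟨_, hy, topC_glue d τ y⟩
  have hmidS : ∀ x ∈ lev 0, ∀ y ∈ lev 0, (2⁻¹ : ℝ) • (x + y) ∈ lev 0 := by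
    intro x hx y hy
    rw [hlev0] at hx hy ⊢
    refine le_of_pow_le_pow_left₀ two_ne_zero ENNReal.toReal_nonneg (le_trans ?_ (hmid x y))
    rw [sq]
    exact mul_le_mul hx hy (by linarith) ENNReal.toReal_nonneg
  obtain ⟨x0, T, hT0, hTvol, hTmem⟩ := exists_box hd hmidS hb0 hpos0
  refine ⟨x0, T, M / 4, hT0, by linarith, fun τ => (hfle τ).trans (by linarith),
    fun q j hj => (hlev0 _).1 (hTmem q j hj), ?_⟩
  have h := ENNReal.toReal_mono
    (ENNReal.mul_ne_top ENNReal.ofReal_ne_top ENNReal.ofReal_ne_top)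
    (hK_le.trans (mul_le_mul' le_rfl hTvol))
  rw [ENNReal.toReal_mul, ENNReal.toReal_ofReal (by positivity),
    ENNReal.toReal_ofReal (by positivity)] at h
  refine h.trans ?_
  have h1 : 1 + 3 / 2 * (6 * (d : ℝ)) ^ d ≤ 3 * (6 * (d : ℝ)) ^ d := by
    have : 1 ≤ (6 * (d : ℝ)) ^ d := one_le_pow₀ (by
      have : (1 : ℝ) ≤ d := by exact_mod_cast hd
      linarith)
    linarith
  calc M * (1 + 3 / 2 * (6 * (d : ℝ)) ^ d) * ((8 * (d : ℝ)) ^ d * |LinearMap.det T|)
      ≤ M * (3 * (6 * (d : ℝ)) ^ d) * ((8 * (d : ℝ)) ^ d * |LinearMap.det T|) := by gcongr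
    _ = _ := by
        rw [show (48 : ℝ) * (d : ℝ) ^ 2 = (6 * d) * (8 * d) by ring, mul_pow (6 * (d : ℝ))]
        ring

end

end Vale.Agent.P230.Upper
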