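import Vale.Agent.P230.Upper.RelBounds

/-!
P230 upper bound: the total number of circuits, and of bad pairs, among grid points.
-/

open Finset MeasureTheory

namespace Vale.Agent.P230.Upper

noncomputable section

open scoped Classical

variable {m : ℕ}

/-- Largest absolute coefficient. -/
def height {t : ℕ} (p : Fin t → ℤ) : ℕ := univ.sup fun i => (p i).natAbs

lemma card_height_le {t : ℕ} (Ps : Finset (Fin t → ℤ)) {H : ℕ} (hH : 1 ≤ H) :
    ((Ps.filter fun p => height p = H).card : ℝ) ≤ (3 * (H : ℝ)) ^ t := by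
  have hsub : (Ps.filter fun p => height p = H) ⊆
      Fintype.piFinset fun _ : Fin t => Finset.Icc (-(H : ℤ)) H := by
    intro p hp
    rw [Finset.mem_filter] at hp
    refine Fintype.mem_piFinset.2 fun i => ?_
    have : (p i).natAbs ≤ height p := Finset.le_sup (f := fun i => (p i).natAbs) (mem_univ i)
    rw [Finset.mem_Icc]
    omega
  have h := Finset.card_le_card hsub
  rw [Fintype.card_piFinset, Finset.prod_const, Finset.card_univ, Fintype.card_fin,
    Int.card_Icc] at h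
  calc ((Ps.filter fun p => height p = H).card : ℝ) ≤ ((((H : ℤ) + 1 - -H).toNat ^ t : ℕ) : ℝ) := by
        exact_mod_cast h
    _ ≤ _ := by
        rw [show ((H : ℤ) + 1 - -H).toNat = 2 * H + 1 by omega]
        push_cast
        refine pow_le_pow_left₀ (by positivity) ?_ _
        have : (1 : ℝ) ≤ H := by exact_mod_cast hH
        linarith

/-- Circuits are few. -/
theorem card_circTuples_le {C : Set (Fin m → ℝ)} {z : Fin m → ℝ} {ρ : ℝ} (hC : Fat C z ρ)
    (a : Fin m → ℝ) {L : ℕ} (hL : 1 ≤ L)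
    (hS : ∀ u ∈ gridPts C hC.cpt.isBounded a, ∀ i, (u i).natAbs ≤ L)
    {H0 : ℕ} (hH0 : 2 ≤ H0) {Q A : ℝ} (hA : 1 ≤ A)
    (hN : ((gridPts C hC.cpt.isBounded a).card : ℝ) ≤ Q)
    (hV : (1 + (H0 : ℝ) / ρ) ^ m * (volume C).toReal ≤ Q)
    (hbox : ((2 * ((m + 2) * L) + 1 : ℕ) : ℝ) ^ m ≤ A * Q) {t : ℕ} (htm : t + 2 ≤ m) :
    ((circTuples (gridPts C hC.cpt.isBounded a) t).card : ℝ) ≤
      (5 * 6 ^ t * (kappa : ℝ) ^ m + 3 ^ t * A ^ t / H0) * Q ^ (t - 1) := by
  set S := gridPts C hC.cpt.isBounded a with hSdef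
  have hρ := hC.pos
  have hV0 := ENNReal.toReal_nonneg (a := volume C)
  have hQ0 : 0 ≤ Q := le_trans (Nat.cast_nonneg _) hN
  have hk0 : 0 < (kappa : ℝ) := by exact_mod_cast kappa_pos
  have hk2 : (1 / 2 : ℝ) ≤ kappa := by
    have := NNReal.coe_le_coe.2 half_le_kappa
    simpa using this
  set T := circTuples S t with hT
  have hchoice : ∀ x ∈ T, ∃ p : Fin t → ℤ, 3 ≤ t ∧ ∑ i, p i • liftZ (x i) = 0 ∧
      (∀ i, p i ≠ 0) ∧ ∃ w : Fin t → ℤ, ∑ i, w i * p i = 1 := by
    intro x hx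
    obtain ⟨-, hinj, hcirc⟩ := Finset.mem_filter.1 hx
    obtain ⟨ht, p, h1, h2, h3⟩ := circ_relation hinj hcirc
    exact ⟨p, ht, h1, h2, h3⟩
  choose! pOf hp3 hprel hpne hpprim using hchoice
  rcases T.eq_empty_or_nonempty with hTe | ⟨x00, hx00⟩
  · rw [hTe]
    simp only [Finset.card_empty, Nat.cast_zero]
    positivity
  obtain ⟨s, rfl⟩ : ∃ s, t = s + 1 := ⟨t - 1, by have := hp3 x00 hx00; omega⟩
  set Ps := T.image pOf with hPs
  set w : ℕ → ℝ := fun H => if H = 1 then (kappa : ℝ) ^ m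
    else if H ≤ H0 then 1 / (H : ℝ) ^ m else A ^ (s + 1) / (H : ℝ) ^ m with hw
  have hw0 : ∀ H, 0 ≤ w H := fun H => by
    simp only [hw]; split_ifs <;> positivity
  have hone : ∀ p ∈ Ps, 1 ≤ height p := by
    intro p hp
    obtain ⟨x, hx, rfl⟩ := Finset.mem_image.1 hp
    have h1 : 1 ≤ (pOf x 0).natAbs := by have := hpne x hx 0; omega
    exact h1.trans (Finset.le_sup (f := fun i => (pOf x i).natAbs) (mem_univ 0))
  have hfib : ∀ p ∈ Ps, ((T.filter fun x => pOf x = p).card : ℝ) ≤ w (height p) * Q ^ s := by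
    intro p hp
    have hHp := hone p hp
    obtain ⟨x0, hx0, rfl⟩ := Finset.mem_image.1 hp
    set p := pOf x0 with hpdef
    have hle : ((T.filter fun x => pOf x = p).card : ℝ) ≤ ((relSet S p).card : ℝ) := by
      refine Nat.cast_le.2 (Finset.card_le_card fun x hx => ?_)
      obtain ⟨hxT, hxp⟩ := Finset.mem_filter.1 hx
      refine Finset.mem_filter.2 ⟨(Finset.mem_filter.1 hxT).1, fun l => ?_⟩
      have h := congrFun (hprel x hxT) l.succ
      rw [hxp] at h
      simpa [Finset.sum_apply, liftZ] using h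
    refine hle.trans ?_
    obtain ⟨i0, -, hi0⟩ := Finset.exists_mem_eq_sup (univ : Finset (Fin (s + 1)))
      ⟨0, mem_univ _⟩ (fun i => (p i).natAbs)
    have hi0' : (p i0).natAbs = height p := hi0.symm
    have : NeZero (height p) := ⟨by omega⟩
    by_cases h1 : height p = 1
    · have hpm : ∀ i, p i = 1 ∨ p i = -1 := fun i => by
        have h2 : (p i).natAbs ≤ height p := Finset.le_sup (f := fun i => (p i).natAbs) (mem_univ i)
        have h3 : p i ≠ 0 := hpne x0 hx0 i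
        omega
      have hsum : ∑ i, p i = 0 := by
        have h := congrFun (hprel x0 hx0) 0
        simpa [Finset.sum_apply, liftZ] using h
      obtain ⟨h4, hb⟩ := card_rel_one hC a (hp3 x0 hx0) hpm hsum
      refine hb.trans ?_
      simp only [hw, h1, if_pos]
      have h2V : (1 + 2 / ρ) ^ m * (volume C).toReal ≤ Q := by
        refine le_trans ?_ hV
        gcongr
        exact_mod_cast hH0
      calc (S.card : ℝ) ^ (s + 1 - 4) * ((kappa : ℝ) ^ m * ((1 + 2 / ρ) ^ m * (volume C).toReal) ^ 3)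
          ≤ Q ^ (s + 1 - 4) * ((kappa : ℝ) ^ m * Q ^ 3) := by gcongr
        _ = (kappa : ℝ) ^ m * Q ^ (s + 1 - 4 + 3) := by rw [pow_add]; ring
        _ = _ := by congr 2; omega
    · have hHpos : (0 : ℝ) < height p := by exact_mod_cast hHp
      simp only [hw, if_neg h1]
      by_cases h2 : height p ≤ H0
      · rw [if_pos h2]
        refine (card_rel_mod hC a hi0' (hpprim x0 hx0)).trans ?_
        rw [div_mul_eq_mul_div, one_mul]
        gcongr
        refine le_trans ?_ hV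
        gcongr
      · rw [if_neg h2]
        have h := card_rel_tail hL hS hi0' (hpprim x0 hx0) hx0 (hprel x0 hx0)
        rw [div_mul_eq_mul_div, le_div_iff₀ (pow_pos hHpos m)]
        calc ((relSet S p).card : ℝ) * (height p : ℝ) ^ m
            ≤ (((2 * ((m + 2) * L) + 1 : ℕ) : ℝ) ^ s) ^ m := by exact_mod_cast h
          _ = (((2 * ((m + 2) * L) + 1 : ℕ) : ℝ) ^ m) ^ s := by rw [← pow_mul, ← pow_mul, mul_comm s m]
          _ ≤ (A * Q) ^ s := pow_le_pow_left₀ (by positivity) hbox s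
          _ ≤ A ^ (s + 1) * Q ^ s := by
              rw [mul_pow]
              gcongr
              all_goals first | exact hA | omega
  set Mx := max (Ps.sup height) (H0 + 1) with hMx
  have hmaps : ∀ p ∈ Ps, height p ∈ Finset.Icc 1 Mx := fun p hp =>
    Finset.mem_Icc.2 ⟨hone p hp, (Finset.le_sup hp).trans (le_max_left _ _)⟩
  have hsum : ∑ p ∈ Ps, w (height p) ≤ ∑ H ∈ Finset.Icc 1 Mx, (3 * (H : ℝ)) ^ (s + 1) * w H := by
    rw [← Finset.sum_fiberwise_of_maps_to hmaps]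
    refine Finset.sum_le_sum fun H hH => ?_
    rw [Finset.sum_congr rfl (fun p hp => by rw [(Finset.mem_filter.1 hp).2] :
      ∀ p ∈ Ps.filter (fun p => height p = H), w (height p) = w H),
      Finset.sum_const, nsmul_eq_mul]
    exact mul_le_mul_of_nonneg_right (card_height_le Ps (Finset.mem_Icc.1 hH).1) (hw0 H)
  have hterm : ∀ H ∈ Finset.Ioc 1 Mx, (3 * (H : ℝ)) ^ (s + 1) * w H ≤
      4 * 6 ^ (s + 1) * (kappa : ℝ) ^ m * ((H : ℝ) ^ 2)⁻¹ +
        (if H0 < H then 3 ^ (s + 1) * A ^ (s + 1) * ((H : ℝ) ^ 2)⁻¹ else 0) := by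
    intro H hH
    have hH2 : 2 ≤ H := (Finset.mem_Ioc.1 hH).1
    have hH2' : (2 : ℝ) ≤ H := by exact_mod_cast hH2
    obtain ⟨e, he⟩ := Nat.le.dest htm
    have hbase : (H : ℝ) ^ (s + 1) / (H : ℝ) ^ m ≤ ((H : ℝ) ^ 2)⁻¹ * (1 / 2) ^ e := by
      have : (0 : ℝ) < H := by linarith
      rw [← he, pow_add (H : ℝ) (s + 1 + 2) e, pow_add (H : ℝ) (s + 1) 2, div_pow, one_pow, mul_assoc,
        div_mul_cancel_left₀ (pow_ne_zero _ this.ne'), mul_inv]
      have hpe : (2 : ℝ) ^ e ≤ (H : ℝ) ^ e := pow_le_pow_left₀ zero_le_two hH2' e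
      rw [one_div]
      gcongr
    have hhalf : (1 / 2 : ℝ) ^ e ≤ 4 * 2 ^ (s + 1) * (kappa : ℝ) ^ m := by
      rw [show (1 / 2 : ℝ) ^ e = 4 * 2 ^ (s + 1) * (1 / 2) ^ m by
        rw [← he, pow_add, pow_add, div_pow, one_pow, div_pow, one_pow]; field_simp; ring]
      gcongr
    simp only [hw, if_neg (show H ≠ 1 by omega)]
    by_cases h2 : H ≤ H0
    · rw [if_pos h2, if_neg (by omega), add_zero, mul_one_div, mul_pow, mul_div_assoc]
      calc (3 : ℝ) ^ (s + 1) * ((H : ℝ) ^ (s + 1) / (H : ℝ) ^ m)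
          ≤ 3 ^ (s + 1) * (((H : ℝ) ^ 2)⁻¹ * (4 * 2 ^ (s + 1) * (kappa : ℝ) ^ m)) := by
            gcongr
            exact hbase.trans (mul_le_mul_of_nonneg_left hhalf (by positivity))
        _ = _ := by rw [show (6 : ℝ) = 2 * 3 by norm_num, mul_pow]; ring
    · rw [if_neg h2, if_pos (by omega)]
      refine le_trans ?_ (le_add_of_nonneg_left (by positivity))
      calc (3 * (H : ℝ)) ^ (s + 1) * (A ^ (s + 1) / (H : ℝ) ^ m)
          = 3 ^ (s + 1) * A ^ (s + 1) * ((H : ℝ) ^ (s + 1) / (H : ℝ) ^ m) := by rw [mul_pow]; ring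
        _ ≤ 3 ^ (s + 1) * A ^ (s + 1) * (((H : ℝ) ^ 2)⁻¹ * 1) := by
            gcongr
            exact hbase.trans (mul_le_mul_of_nonneg_left
              (pow_le_one₀ (by norm_num) (by norm_num)) (by positivity))
        _ = _ := by ring
  have hmain : ∑ H ∈ Finset.Icc 1 Mx, (3 * (H : ℝ)) ^ (s + 1) * w H ≤
      5 * 6 ^ (s + 1) * (kappa : ℝ) ^ m + 3 ^ (s + 1) * A ^ (s + 1) / H0 := by
    rw [Finset.Icc_eq_cons_Ioc (by omega : 1 ≤ Mx), Finset.sum_cons]
    have h1 : ∑ H ∈ Finset.Ioc 1 Mx, ((H : ℝ) ^ 2)⁻¹ ≤ 1 := by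
      have := sum_Ioc_inv_sq_le_sub (α := ℝ) (k := 1) (n := Mx) one_ne_zero (by omega)
      have : (0 : ℝ) ≤ (Mx : ℝ)⁻¹ := by positivity
      push_cast at *
      linarith
    have h2 : ∑ H ∈ Finset.Ioc 1 Mx, (if H0 < H then ((H : ℝ) ^ 2)⁻¹ else 0) ≤ 1 / H0 := by
      rw [← Finset.sum_filter,
        show (Finset.Ioc 1 Mx).filter (fun H => H0 < H) = Finset.Ioc H0 Mx by
          ext H; simp only [Finset.mem_filter, Finset.mem_Ioc]; omega]
      have := sum_Ioc_inv_sq_le_sub (α := ℝ) (k := H0) (n := Mx) (by omega) (by omega)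
      have : (0 : ℝ) ≤ (Mx : ℝ)⁻¹ := by positivity
      rw [one_div]
      linarith
    have h3 := Finset.sum_le_sum hterm
    rw [Finset.sum_add_distrib, ← Finset.mul_sum] at h3
    have h4 : ∑ H ∈ Finset.Ioc 1 Mx,
        (if H0 < H then 3 ^ (s + 1) * A ^ (s + 1) * ((H : ℝ) ^ 2)⁻¹ else 0) ≤
        3 ^ (s + 1) * A ^ (s + 1) / H0 := by
      rw [Finset.sum_congr rfl (fun H _ => by split_ifs <;> simp :
        ∀ H ∈ Finset.Ioc 1 Mx, (if H0 < H then 3 ^ (s + 1) * A ^ (s + 1) * ((H : ℝ) ^ 2)⁻¹ else 0) =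
          3 ^ (s + 1) * A ^ (s + 1) * (if H0 < H then ((H : ℝ) ^ 2)⁻¹ else 0)), ← Finset.mul_sum,
        div_eq_mul_one_div]
      exact mul_le_mul_of_nonneg_left h2 (by positivity)
    have h5 : 4 * (6 : ℝ) ^ (s + 1) * (kappa : ℝ) ^ m * ∑ H ∈ Finset.Ioc 1 Mx, ((H : ℝ) ^ 2)⁻¹ ≤
        4 * 6 ^ (s + 1) * (kappa : ℝ) ^ m :=
      mul_le_of_le_one_right (by positivity) h1
    have h6 : (3 * ((1 : ℕ) : ℝ)) ^ (s + 1) * w 1 ≤ 6 ^ (s + 1) * (kappa : ℝ) ^ m := by
      simp only [hw, if_pos, Nat.cast_one, mul_one]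
      gcongr
      norm_num
    exact le_trans (add_le_add h6 (h3.trans (add_le_add h5 h4))) (le_of_eq (by ring))
  calc (T.card : ℝ) = ∑ p ∈ Ps, ((T.filter fun x => pOf x = p).card : ℝ) := by
        rw [Finset.card_eq_sum_card_image pOf, Nat.cast_sum]
    _ ≤ ∑ p ∈ Ps, w (height p) * Q ^ s := Finset.sum_le_sum hfib
    _ = (∑ p ∈ Ps, w (height p)) * Q ^ s := (Finset.sum_mul _ _ _).symm
    _ ≤ _ := mul_le_mul_of_nonneg_right (hsum.trans hmain) (pow_nonneg hQ0 s)

/-- Bad pairs are few. -/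
theorem card_badPairs_le {P : ℕ} [Fact P.Prime] {L K : ℕ} (hL : 1 ≤ L)
    (hP : K.factorial * ((m + 1) * L ^ 2) ^ K < P) {S : Finset (Fin m → ℤ)}
    (hS : ∀ u ∈ S, ∀ i, (u i).natAbs ≤ L) {R : ℕ} (hR : R + 1 ≤ K) {δ Q : ℝ} (hδ : 0 ≤ δ)
    (hN : (S.card : ℝ) ≤ Q)
    (hcirc : ∀ t, t ≤ K → ((circTuples S t).card : ℝ) ≤ δ * Q ^ (t - 1)) :
    ((badPairs (liftP P) S R).card : ℝ) ≤ δ * (2 * Q) ^ R / R.factorial := by
  have hQ0 : 0 ≤ Q := le_trans (Nat.cast_nonneg _) hN
  refine (Nat.cast_le.2 (badPairs_le hL hP hS hR)).trans ?_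
  rw [Nat.cast_sum]
  have hterm : ∀ t ∈ Finset.Icc 3 (R + 1),
      (((circs S t).card * (t * S.card.choose (R + 1 - t)) : ℕ) : ℝ) ≤
        δ * Q ^ R / R.factorial * (R.choose (t - 1) : ℝ) := by
    intro t ht
    obtain ⟨ht3, htR⟩ := Finset.mem_Icc.1 ht
    have h1 : ((t.factorial : ℕ) : ℝ) * (circs S t).card ≤ δ * Q ^ (t - 1) := by
      refine le_trans ?_ (hcirc t (by omega))
      exact_mod_cast factorial_mul_circs_le S t
    have h2 : (S.card.choose (R + 1 - t) : ℝ) ≤ Q ^ (R + 1 - t) / (R + 1 - t).factorial := by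
      refine (Nat.choose_le_pow_div (α := ℝ) _ _).trans ?_
      gcongr
    have hfac : (R.choose (t - 1) : ℝ) * ((t - 1).factorial * (R + 1 - t).factorial : ℝ) =
        R.factorial := by
      have h := Nat.choose_mul_factorial_mul_factorial (show t - 1 ≤ R by omega)
      rw [show R - (t - 1) = R + 1 - t by omega] at h
      rw [← h]
      push_cast
      ring
    have ht1 : ((t.factorial : ℕ) : ℝ) = t * ((t - 1).factorial : ℝ) := by
      obtain ⟨u, rfl⟩ : ∃ u, t = u + 1 := ⟨t - 1, by omega⟩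
      rw [Nat.factorial_succ]
      push_cast
      simp
    have hchoose : (0 : ℝ) < R.choose (t - 1) := by
      exact_mod_cast Nat.choose_pos (show t - 1 ≤ R by omega)
    push_cast
    calc ((circs S t).card : ℝ) * ((t : ℝ) * (S.card.choose (R + 1 - t) : ℝ))
        ≤ ((circs S t).card : ℝ) * ((t : ℝ) * (Q ^ (R + 1 - t) / (R + 1 - t).factorial)) := by
          gcongr
      _ = ((t.factorial : ℕ) : ℝ) * (circs S t).card * Q ^ (R + 1 - t) /
            ((t - 1).factorial * (R + 1 - t).factorial : ℝ) := by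
          rw [ht1]
          have : (0 : ℝ) < ((t - 1).factorial : ℝ) := by exact_mod_cast Nat.factorial_pos _
          have : (0 : ℝ) < ((R + 1 - t).factorial : ℝ) := by exact_mod_cast Nat.factorial_pos _
          field_simp
      _ ≤ δ * Q ^ (t - 1) * Q ^ (R + 1 - t) / ((t - 1).factorial * (R + 1 - t).factorial : ℝ) := by
          gcongr
      _ = _ := by
          rw [mul_assoc δ, ← pow_add, show t - 1 + (R + 1 - t) = R by omega, ← hfac]
          field_simp
  refine (Finset.sum_le_sum hterm).trans ?_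
  rw [← Finset.mul_sum]
  have hsum : ∑ t ∈ Finset.Icc 3 (R + 1), (R.choose (t - 1) : ℝ) ≤ 2 ^ R := by
    have hnat : ∑ t ∈ Finset.Icc 3 (R + 1), R.choose (t - 1) ≤ 2 ^ R := by
      rw [← Nat.sum_range_choose, ← Finset.sum_image (g := fun t => t - 1) (f := fun i => R.choose i)
        (fun a ha b hb h => by
          have := Finset.mem_Icc.1 ha; have := Finset.mem_Icc.1 hb; simp only at h; omega)]
      refine Finset.sum_le_sum_of_subset fun i hi => ?_
      obtain ⟨t, ht, rfl⟩ := Finset.mem_image.1 hi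
      have := Finset.mem_Icc.1 ht
      simp only [Finset.mem_range]
      omega
    exact_mod_cast hnat
  calc _ ≤ δ * Q ^ R / R.factorial * 2 ^ R := by gcongr
    _ = _ := by rw [mul_pow]; ring

end

end Vale.Agent.P230.Upper
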