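import Mathlib

/-!
P230 upper bound: truncated inclusion–exclusion for a uniformly random linear functional
vanishing on none of a finite family of vectors over a finite field.
-/

open Finset

namespace Vale.Agent.P230.Upper

noncomputable section

open scoped Classical

/-- Bonferroni for the empty event. -/
lemma alt_choose_sum (x r : ℕ) :
    (if x = 0 then (1 : ℤ) else 0) ≤ ∑ j ∈ range (2 * r + 1), (-1) ^ j * (x.choose j : ℤ) := by
  rcases Nat.eq_zero_or_pos x with rfl | hx
  · rw [if_pos rfl, Finset.sum_eq_single 0 (fun j _ hj => by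
      simp [Nat.choose_eq_zero_of_lt (Nat.pos_of_ne_zero hj)]) (by simp)]
    simp
  · rw [if_neg hx.ne']
    have key : ∀ M : ℕ, ∑ j ∈ range (M + 1), (-1) ^ j * (x.choose j : ℤ) =
        (-1) ^ M * ((x - 1).choose M : ℤ) := by
      intro M
      obtain ⟨y, rfl⟩ : ∃ y, x = y + 1 := ⟨x - 1, by omega⟩
      simp only [Nat.add_sub_cancel]
      induction M with
      | zero => simp
      | succ M ih =>
        rw [Finset.sum_range_succ, ih, Nat.choose_succ_succ]
        push_cast
        ring
    rw [key, pow_mul]
    simp

variable {F : Type*} [Field F] [Fintype F] [DecidableEq F] {M : ℕ} {α : Type*} [DecidableEq α]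

/-- The selected part of `S` for the functional `φ`. -/
def sel (v : α → Fin M → F) (S : Finset α) (φ : Fin M → F) : Finset α :=
  S.filter fun i => dotProduct φ (v i) = 0

/-- Independent subsets of a given size. -/
def indepSets (v : α → Fin M → F) (S : Finset α) (j : ℕ) : Finset (Finset α) :=
  (S.powersetCard j).filter fun T : Finset α => LinearIndepOn F v (T : Set α)

/-- Pairs of an independent set and a further point in its span. -/
def badPairs (v : α → Fin M → F) (S : Finset α) (R : ℕ) : Finset (Finset α × α) :=
  (indepSets v S R ×ˢ S).filter fun q : Finset α × α =>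
    q.2 ∉ q.1 ∧ v q.2 ∈ Submodule.span F (v '' (q.1 : Set α))

lemma card_vanish (v : α → Fin M → F) (T : Finset α) (h : LinearIndepOn F v (T : Set α)) :
    (univ.filter fun φ : Fin M → F => ∀ i ∈ T, dotProduct φ (v i) = 0).card
      * Fintype.card F ^ T.card = Fintype.card F ^ M := by
  let f : (Fin M → F) →ₗ[F] (↥T → F) :=
    { toFun := fun φ i => dotProduct φ (v i)
      map_add' := fun x y => funext fun i => add_dotProduct _ _ _
      map_smul' := fun c x => funext fun i => smul_dotProduct c x _ }
  have hsurj : Function.Surjective f := by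
    rw [← LinearMap.range_eq_top]
    by_contra hne
    obtain ⟨g, hg0, hg⟩ := Submodule.exists_dual_map_eq_bot_of_lt_top (lt_top_iff_ne_top.2 hne)
      inferInstance
    have hzero : ∀ φ, g (f φ) = 0 := fun φ => by
      have : g (f φ) ∈ (LinearMap.range f).map g := Submodule.mem_map_of_mem ⟨φ, rfl⟩
      rwa [hg, Submodule.mem_bot] at this
    have hlin : LinearIndependent F fun i : ↥T => v i := h
    have hcoef := (Fintype.linearIndependent_iff.1 hlin) (fun i => g (Pi.single i 1)) (by
      ext c
      have h2 := hzero (Pi.single c 1)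
      rw [LinearMap.pi_apply_eq_sum_univ g] at h2
      simp only [f, LinearMap.coe_mk, AddHom.coe_mk, smul_eq_mul, single_dotProduct, one_mul] at h2
      simp only [Finset.sum_apply, Pi.smul_apply, Pi.zero_apply, smul_eq_mul]
      rw [← h2]
      refine Finset.sum_congr rfl fun i _ => ?_
      rw [mul_comm]
      congr 2
      funext j
      simp [Pi.single_apply, eq_comm])
    refine hg0 (LinearMap.pi_ext fun i x => ?_)
    have : (Pi.single i x : ↥T → F) = x • Pi.single i 1 := by
      rw [← Pi.single_smul, smul_eq_mul, mul_one]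
    rw [this, map_smul, hcoef i, smul_zero, LinearMap.zero_apply]
  have hfib : ∀ y : ↥T → F, (univ.filter fun φ => f φ = y).card =
      (univ.filter fun φ => f φ = 0).card := fun y => by
    obtain ⟨φ0, rfl⟩ := hsurj y
    refine Finset.card_bij (fun φ _ => φ - φ0) (fun φ hφ => ?_) (fun a _ b _ hab => by
      simpa using hab) (fun b hb => ⟨b + φ0, ?_, by simp⟩)
    · simp only [mem_filter, mem_univ, true_and] at hφ ⊢
      rw [map_sub, hφ, sub_self]
    · simp only [mem_filter, mem_univ, true_and] at hb ⊢
      rw [map_add, hb, zero_add]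
  have htot := Finset.card_eq_sum_card_fiberwise (f := fun φ => f φ) (s := univ) (t := univ)
    (fun _ _ => mem_univ _)
  simp only [hfib, Finset.sum_const, smul_eq_mul, Finset.card_univ] at htot
  have hker : (univ.filter fun φ : Fin M → F => ∀ i ∈ T, dotProduct φ (v i) = 0) =
      univ.filter fun φ => f φ = 0 := Finset.filter_congr fun φ _ => by
    simp only [funext_iff, Subtype.forall, Pi.zero_apply]
    rfl
  rw [hker, mul_comm]
  simpa using htot.symm

lemma exists_pair (v : α → Fin M → F) (S : Finset α) (φ : Fin M → F) (r : ℕ) {T C : Finset α}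
    (hT : T ⊆ sel v S φ) (hTi : LinearIndepOn F v (T : Set α)) (hTc : T.card ≤ 2 * r)
    (hC : C ⊆ sel v S φ) (hCd : ¬ LinearIndepOn F v (C : Set α)) (hCc : C.card ≤ 2 * r) :
    ∃ R ≤ 4 * r, ∃ q ∈ badPairs v S R, T ⊆ q.1 ∧ ∀ i ∈ q.1, dotProduct φ (v i) = 0 := by
  set Us := (T ∪ C).powerset.filter fun U : Finset α => T ⊆ U ∧ LinearIndepOn F v (U : Set α)
    with hUs
  obtain ⟨U, hU, hUmax⟩ := Us.exists_max_image (fun U => U.card)
    ⟨T, Finset.mem_filter.2 ⟨Finset.mem_powerset.2 Finset.subset_union_left, subset_rfl, hTi⟩⟩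
  simp only [hUs, mem_filter, mem_powerset] at hU hUmax
  obtain ⟨hUTC, hTU, hUi⟩ := hU
  have hnot : ¬ C ⊆ U := fun hsub => hCd (hUi.mono (by exact_mod_cast hsub))
  obtain ⟨z, hzC, hzU⟩ := Finset.not_subset.1 hnot
  have hsub : T ∪ C ⊆ sel v S φ := Finset.union_subset hT hC
  have hspan : v z ∈ Submodule.span F (v '' (U : Set α)) := by
    by_contra hns
    have hins : LinearIndepOn F v ((insert z U : Finset α) : Set α) := by
      rw [Finset.coe_insert]
      exact (linearIndepOn_insert (by simpa using hzU)).2 ⟨hUi, hns⟩
    have h2 := hUmax (insert z U)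
      ⟨Finset.insert_subset (Finset.mem_union_right _ hzC) hUTC,
        hTU.trans (Finset.subset_insert _ _), hins⟩
    rw [Finset.card_insert_of_notMem hzU] at h2
    omega
  refine ⟨U.card, (Finset.card_le_card hUTC).trans ((Finset.card_union_le _ _).trans (by omega)),
    (U, z), ?_, hTU, fun i hi => (Finset.mem_filter.1 (hsub (hUTC hi))).2⟩
  simp only [badPairs, indepSets, mem_filter, mem_product, mem_powersetCard, and_true]
  exact ⟨⟨⟨hUTC.trans (hsub.trans (Finset.filter_subset _ _)), hUi⟩,
    (Finset.mem_filter.1 (hC hzC)).1⟩, hzU, hspan⟩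

/-- The truncated inclusion–exclusion bound. -/
theorem card_none_le (v : α → Fin M → F) (S : Finset α) (r : ℕ) :
    ((univ.filter fun φ : Fin M → F => sel v S φ = ∅).card : ℝ) / (Fintype.card F : ℝ) ^ M ≤
      ∑ j ∈ range (2 * r + 1), (-1) ^ j * ((indepSets v S j).card : ℝ) / (Fintype.card F : ℝ) ^ j +
      ∑ R ∈ range (4 * r + 1), 2 ^ R * ((badPairs v S R).card : ℝ) / (Fintype.card F : ℝ) ^ R := by
  set q : ℝ := (Fintype.card F : ℝ) with hq
  have hq0 : 0 < q := by rw [hq]; exact_mod_cast Fintype.card_pos
  have hvan : ∀ T : Finset α, LinearIndepOn F v (T : Set α) →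
      ∑ φ : Fin M → F, (if ∀ i ∈ T, dotProduct φ (v i) = 0 then (1 : ℝ) else 0) =
        q ^ M / q ^ T.card := fun T hT => by
    rw [Finset.sum_boole, eq_div_iff (pow_ne_zero _ hq0.ne'), hq]
    exact_mod_cast card_vanish v T hT
  set J := fun φ : Fin M → F => fun j => (indepSets v S j).filter fun T => T ⊆ sel v S φ with hJ
  have hsel : ∀ (φ : Fin M → F) (j : ℕ) (T : Finset α), T ∈ indepSets v S j →
      (T ⊆ sel v S φ ↔ ∀ i ∈ T, dotProduct φ (v i) = 0) := fun φ j T hT => by
    simp only [indepSets, mem_filter, mem_powersetCard] at hT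
    exact ⟨fun h i hi => (Finset.mem_filter.1 (h hi)).2,
      fun h i hi => Finset.mem_filter.2 ⟨hT.1.1 hi, h i hi⟩⟩
  set err := fun φ : Fin M → F => ∑ R ∈ range (4 * r + 1), (2 : ℝ) ^ R *
    ((badPairs v S R).filter fun p => ∀ i ∈ p.1, dotProduct φ (v i) = 0).card with herr
  have hpt : ∀ φ : Fin M → F, (if sel v S φ = ∅ then (1 : ℝ) else 0) ≤
      ∑ j ∈ range (2 * r + 1), (-1) ^ j * ((J φ j).card : ℝ) + err φ := by
    intro φ
    have herr0 : 0 ≤ err φ := Finset.sum_nonneg fun R _ => by positivity
    by_cases hok : ∀ C ⊆ sel v S φ, C.card ≤ 2 * r → LinearIndepOn F v (C : Set α)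
    · have hJeq : ∀ j ∈ range (2 * r + 1), J φ j = (sel v S φ).powersetCard j := fun j hj => by
        ext T
        simp only [hJ, indepSets, mem_filter, mem_powersetCard]
        refine ⟨fun h => ⟨h.2, h.1.1.2⟩, fun h => ⟨⟨⟨h.1.trans (Finset.filter_subset _ _), h.2⟩,
          hok T h.1 ?_⟩, h.1⟩⟩
        have := Finset.mem_range.1 hj
        omega
      rw [Finset.sum_congr rfl fun j hj => by rw [hJeq j hj, Finset.card_powersetCard]]
      have h := alt_choose_sum (sel v S φ).card r
      rw [← Int.cast_le (R := ℝ)] at h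
      push_cast at h
      simp only [Finset.card_eq_zero] at h
      linarith
    · push Not at hok
      obtain ⟨C, hC, hCc, hCd⟩ := hok
      have hne : sel v S φ ≠ ∅ := fun h0 => by
        rw [h0, Finset.subset_empty] at hC
        subst hC
        simp at hCd
      rw [if_neg hne]
      have hall : ∑ j ∈ range (2 * r + 1), ((J φ j).card : ℝ) ≤ err φ := by
        have hnat : ∑ j ∈ range (2 * r + 1), (J φ j).card ≤ ∑ R ∈ range (4 * r + 1), 2 ^ R *
            ((badPairs v S R).filter fun p => ∀ i ∈ p.1, dotProduct φ (v i) = 0).card := by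
          set Q := fun R => (badPairs v S R).filter fun p => ∀ i ∈ p.1, dotProduct φ (v i) = 0
            with hQ
          have hcov : (range (2 * r + 1)).biUnion (J φ) ⊆
              (range (4 * r + 1)).biUnion fun R => (Q R).biUnion fun p => p.1.powerset := by
            intro T hT
            simp only [Finset.mem_biUnion, Finset.mem_range] at hT
            obtain ⟨j, hj, hTj⟩ := hT
            simp only [hJ, indepSets, mem_filter, mem_powersetCard] at hTj
            obtain ⟨R, hR, p, hp, hTp, hpv⟩ := exists_pair v S φ r hTj.2 hTj.1.2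
              (by omega) hC hCd hCc
            simp only [Finset.mem_biUnion, Finset.mem_range, Finset.mem_powerset, hQ, mem_filter]
            exact ⟨R, by omega, p, ⟨hp, hpv⟩, hTp⟩
          calc ∑ j ∈ range (2 * r + 1), (J φ j).card = ((range (2 * r + 1)).biUnion (J φ)).card := by
                rw [Finset.card_biUnion]
                intro i _ j _ hij
                refine Finset.disjoint_left.2 fun T hTi hTj => hij ?_
                simp only [hJ, indepSets, mem_filter, mem_powersetCard] at hTi hTj
                exact hTi.1.1.2.symm.trans hTj.1.1.2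
            _ ≤ _ := Finset.card_le_card hcov
            _ ≤ ∑ R ∈ range (4 * r + 1), ((Q R).biUnion fun p => p.1.powerset).card :=
                Finset.card_biUnion_le
            _ ≤ _ := by
                refine Finset.sum_le_sum fun R _ => Finset.card_biUnion_le.trans ?_
                refine (Finset.sum_le_card_nsmul _ _ (2 ^ R) fun p hp => ?_).trans
                  (by rw [smul_eq_mul, mul_comm])
                rw [Finset.card_powerset]
                simp only [hQ, badPairs, indepSets, mem_filter, mem_product,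
                  mem_powersetCard] at hp
                rw [hp.1.1.1.1.2]
        simp only [herr]
        exact_mod_cast hnat
      have hlow : -∑ j ∈ range (2 * r + 1), ((J φ j).card : ℝ) ≤
          ∑ j ∈ range (2 * r + 1), (-1) ^ j * ((J φ j).card : ℝ) := by
        rw [← Finset.sum_neg_distrib]
        refine Finset.sum_le_sum fun j _ => ?_
        rcases neg_one_pow_eq_or ℝ j with h | h <;>
          rw [h] <;> simp
      linarith
  have hsum := Finset.sum_le_sum fun φ (_ : φ ∈ univ) => hpt φ
  rw [Finset.sum_boole, Finset.sum_add_distrib, Finset.sum_comm] at hsum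
  rw [div_le_iff₀ (pow_pos hq0 M), add_mul, Finset.sum_mul, Finset.sum_mul]
  refine hsum.trans_eq ?_
  congr 1
  · refine Finset.sum_congr rfl fun j _ => ?_
    rw [← Finset.mul_sum, div_mul_eq_mul_div, mul_div_assoc, mul_assoc]
    congr 1
    simp only [hJ, Finset.card_filter, Nat.cast_sum]
    rw [Finset.sum_comm, Finset.sum_congr rfl fun T hT => ?_, Finset.sum_const, nsmul_eq_mul]
    have hTj : T.card = j ∧ LinearIndepOn F v (T : Set α) := by
      simp only [indepSets, mem_filter, mem_powersetCard] at hT
      exact ⟨hT.1.2, hT.2⟩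
    rw [← hTj.1, ← hvan T hTj.2]
    refine Finset.sum_congr rfl fun φ _ => ?_
    simp only [hsel φ j T hT, Nat.cast_ite, Nat.cast_one, Nat.cast_zero]
  · rw [herr, Finset.sum_comm]
    refine Finset.sum_congr rfl fun R _ => ?_
    rw [← Finset.mul_sum, div_mul_eq_mul_div, mul_div_assoc, mul_assoc]
    congr 1
    simp only [Finset.card_filter, Nat.cast_sum]
    rw [Finset.sum_comm, Finset.sum_congr rfl fun p hp => ?_, Finset.sum_const, nsmul_eq_mul]
    have hpR : p.1.card = R ∧ LinearIndepOn F v (p.1 : Set α) := by
      simp only [badPairs, indepSets, mem_filter, mem_product, mem_powersetCard] at hp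
      exact ⟨hp.1.1.1.2, hp.1.1.2⟩
    rw [← hpR.1, ← hvan p.1 hpR.2]
    simp only [Nat.cast_ite, Nat.cast_one, Nat.cast_zero]

/-- Dependent sets are few when bad pairs are few. -/
theorem card_dep_le (v : α → Fin M → F) (S : Finset α) (j : ℕ) :
    S.card.choose j ≤ (indepSets v S j).card +
      ∑ R ∈ range j, (badPairs v S R).card * S.card ^ (j - R - 1) := by
  rw [← Finset.card_powersetCard]
  set D := (S.powersetCard j).filter fun T : Finset α => ¬ LinearIndepOn F v (T : Set α) with hD
  rw [← Finset.card_filter_add_card_filter_not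
    (s := S.powersetCard j) (fun T : Finset α => LinearIndepOn F v (T : Set α))]
  refine add_le_add le_rfl ?_
  have hcov : D ⊆ (range j).biUnion fun R => (badPairs v S R).biUnion fun p =>
      (S.powersetCard (j - R - 1)).image fun W => insert p.2 p.1 ∪ W := by
    intro T hT
    simp only [hD, mem_filter, mem_powersetCard] at hT
    obtain ⟨⟨hTS, hTj⟩, hTd⟩ := hT
    set Us := T.powerset.filter fun U : Finset α => LinearIndepOn F v (U : Set α) with hUs
    obtain ⟨U, hU, hUmax⟩ := Us.exists_max_image (fun U => U.card) ⟨∅, by simp [hUs]⟩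
    simp only [hUs, mem_filter, mem_powerset] at hU hUmax
    have hne : ¬ T ⊆ U := fun h => hTd (hU.2.mono (by exact_mod_cast h))
    obtain ⟨z, hzT, hzU⟩ := Finset.not_subset.1 hne
    have hspan : v z ∈ Submodule.span F (v '' (U : Set α)) := by
      by_contra hns
      have hins : LinearIndepOn F v ((insert z U : Finset α) : Set α) := by
        rw [Finset.coe_insert]
        exact (linearIndepOn_insert (by simpa using hzU)).2 ⟨hU.2, hns⟩
      have h2 := hUmax (insert z U) ⟨Finset.insert_subset hzT hU.1, hins⟩
      rw [Finset.card_insert_of_notMem hzU] at h2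
      omega
    have hlt : U.card < j := by
      have h := Finset.card_le_card (Finset.insert_subset hzT hU.1)
      rw [Finset.card_insert_of_notMem hzU] at h
      omega
    simp only [Finset.mem_biUnion, Finset.mem_range, Finset.mem_image, mem_powersetCard]
    refine ⟨U.card, hlt, (U, z), ?_, T \ insert z U,
      ⟨Finset.sdiff_subset.trans hTS, ?_⟩,
      Finset.union_sdiff_of_subset (Finset.insert_subset hzT hU.1)⟩
    · simp only [badPairs, indepSets, mem_filter, mem_product, mem_powersetCard, and_true]
      exact ⟨⟨⟨hU.1.trans hTS, hU.2⟩, hTS hzT⟩, hzU, hspan⟩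
    · rw [Finset.card_sdiff_of_subset (Finset.insert_subset hzT hU.1),
        Finset.card_insert_of_notMem hzU]
      omega
  refine (Finset.card_le_card hcov).trans (Finset.card_biUnion_le.trans ?_)
  refine Finset.sum_le_sum fun R _ => Finset.card_biUnion_le.trans ?_
  refine (Finset.sum_le_card_nsmul _ _ (S.card ^ (j - R - 1)) fun p _ => ?_).trans
    (by rw [smul_eq_mul])
  refine Finset.card_image_le.trans ?_
  rw [Finset.card_powersetCard]
  exact Nat.choose_le_pow _ _

end

end Vale.Agent.P230.Upper
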