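import Mathlib

/-!
P230 upper bound: the four-fold additive energy of functions, Cauchy–Schwarz manipulations.
-/

open MeasureTheory
open scoped ENNReal

namespace Vale.Agent.P230.Upper

noncomputable section

variable {G : Type*} [AddCommGroup G] [MeasurableSpace G] [MeasurableAdd₂ G] [MeasurableNeg G]

/-- Convolution of nonnegative functions. -/
def cv (μ : Measure G) (f g : G → ℝ≥0∞) (x : G) : ℝ≥0∞ := ∫⁻ a, f a * g (x - a) ∂μ

/-- Autocorrelation. -/
def corr (μ : Measure G) (f : G → ℝ≥0∞) (z : G) : ℝ≥0∞ := ∫⁻ a, f a * f (a + z) ∂μ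

/-- Four-function additive energy. -/
def E4 (μ : Measure G) (f g k l : G → ℝ≥0∞) : ℝ≥0∞ := ∫⁻ x, cv μ f g x * cv μ k l x ∂μ

lemma cs_sq {α : Type*} [MeasurableSpace α] (μ : Measure α) {f g : α → ℝ≥0∞}
    (hf : AEMeasurable f μ) (hg : AEMeasurable g μ) :
    (∫⁻ a, f a * g a ∂μ) ^ 2 ≤ (∫⁻ a, f a ^ 2 ∂μ) * ∫⁻ a, g a ^ 2 ∂μ := by
  have h := ENNReal.lintegral_mul_le_Lp_mul_Lq μ Real.HolderConjugate.two_two hf hg
  simp only [Pi.mul_apply, ENNReal.rpow_two] at h
  calc (∫⁻ a, f a * g a ∂μ) ^ 2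
      ≤ ((∫⁻ a, f a ^ 2 ∂μ) ^ (1 / (2:ℝ)) * (∫⁻ a, g a ^ 2 ∂μ) ^ (1 / (2:ℝ))) ^ 2 := by
        gcongr
    _ = _ := by
        rw [mul_pow, ← ENNReal.rpow_natCast, ← ENNReal.rpow_mul, ← ENNReal.rpow_natCast,
          ← ENNReal.rpow_mul]
        norm_num

variable {μ : Measure G} [SFinite μ] [μ.IsAddLeftInvariant] [μ.IsNegInvariant]
variable {f g k l : G → ℝ≥0∞}

lemma measurable_cv (hf : Measurable f) (hg : Measurable g) : Measurable (cv μ f g) := by
  unfold cv
  exact Measurable.lintegral_prod_right' (f := fun p : G × G => f p.2 * g (p.1 - p.2))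
    ((hf.comp measurable_snd).mul (hg.comp (by fun_prop)))

lemma measurable_corr (hf : Measurable f) : Measurable (corr μ f) := by
  unfold corr
  exact Measurable.lintegral_prod_right' (f := fun p : G × G => f p.2 * f (p.2 + p.1))
    ((hf.comp measurable_snd).mul (hf.comp (by fun_prop)))

/-- The energy as a triple integral. -/
lemma E4_eq (hf : Measurable f) (hg : Measurable g) (hk : Measurable k) (hl : Measurable l) :
    E4 μ f g k l = ∫⁻ a, ∫⁻ b, ∫⁻ c, f a * g b * (k c * l (a + b - c)) ∂μ ∂μ ∂μ := by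
  have hm : Measurable fun p : G × G => f p.2 * g (p.1 - p.2) * cv μ k l p.1 :=
    ((hf.comp measurable_snd).mul (hg.comp (by fun_prop))).mul
      ((measurable_cv hk hl).comp measurable_fst)
  calc E4 μ f g k l = ∫⁻ x, ∫⁻ a, f a * g (x - a) * cv μ k l x ∂μ ∂μ := by
        refine lintegral_congr fun x => ?_
        rw [lintegral_mul_const _ (by fun_prop : Measurable fun a => f a * g (x - a))]
        rfl
    _ = ∫⁻ a, ∫⁻ x, f a * g (x - a) * cv μ k l x ∂μ ∂μ := lintegral_lintegral_swap hm.aemeasurable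
    _ = _ := by
        refine lintegral_congr fun a => ?_
        rw [← lintegral_add_left_eq_self _ a]
        refine lintegral_congr fun b => ?_
        rw [add_sub_cancel_left, cv, ← lintegral_const_mul _ (by fun_prop : Measurable fun c => k c * l (a + b - c))]

/-- `∫ (f ∗ g)^2 = ∫ (f ⋆ f) (g ⋆ g)`. -/
lemma E4_self_eq_corr (hf : Measurable f) (hg : Measurable g) :
    E4 μ f g f g = ∫⁻ z, corr μ f z * corr μ g z ∂μ := by
  rw [E4_eq hf hg hf hg]
  calc ∫⁻ a, ∫⁻ b, ∫⁻ c, f a * g b * (f c * g (a + b - c)) ∂μ ∂μ ∂μ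
      = ∫⁻ a, ∫⁻ b, ∫⁻ z, f a * g b * (f (a - z) * g (b + z)) ∂μ ∂μ ∂μ := by
        refine lintegral_congr fun a => lintegral_congr fun b => ?_
        rw [← lintegral_sub_left_eq_self (μ := μ) _ a]
        refine lintegral_congr fun z => ?_
        congr 3
        abel
    _ = ∫⁻ a, ∫⁻ z, ∫⁻ b, f a * g b * (f (a - z) * g (b + z)) ∂μ ∂μ ∂μ := by
        refine lintegral_congr fun a => lintegral_lintegral_swap ?_
        exact (Measurable.mul (by fun_prop) (by fun_prop)).aemeasurable
    _ = ∫⁻ a, ∫⁻ z, f a * f (a - z) * corr μ g z ∂μ ∂μ := by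
        refine lintegral_congr fun a => lintegral_congr fun z => ?_
        rw [corr, ← lintegral_const_mul _ (by fun_prop : Measurable fun b => g b * g (b + z))]
        exact lintegral_congr fun b => by ring
    _ = ∫⁻ z, ∫⁻ a, f a * f (a - z) * corr μ g z ∂μ ∂μ := by
        refine lintegral_lintegral_swap ?_
        exact ((hf.comp measurable_fst).mul (hf.comp (by fun_prop))).mul
          ((measurable_corr hg).comp measurable_snd) |>.aemeasurable
    _ = _ := by
        refine lintegral_congr fun z => ?_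
        rw [lintegral_mul_const _ (by fun_prop : Measurable fun a => f a * f (a - z)), corr,
          ← lintegral_add_left_eq_self _ z]
        congr 1
        exact lintegral_congr fun a => by rw [add_sub_cancel_left, add_comm z a, mul_comm]

/-- Cauchy–Schwarz for the energy. -/
lemma E4_pow_four_le (hf : Measurable f) (hg : Measurable g) (hk : Measurable k)
    (hl : Measurable l) :
    E4 μ f g k l ^ 4 ≤ E4 μ f f f f * E4 μ g g g g * (E4 μ k k k k * E4 μ l l l l) := by
  have h2 : ∀ {p q : G → ℝ≥0∞}, Measurable p → Measurable q →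
      E4 μ p q p q ^ 2 ≤ E4 μ p p p p * E4 μ q q q q := by
    intro p q hp hq
    rw [E4_self_eq_corr hp hq, E4_self_eq_corr hp hp, E4_self_eq_corr hq hq]
    simp only [← sq]
    exact cs_sq μ (measurable_corr hp).aemeasurable (measurable_corr hq).aemeasurable
  have h1 : E4 μ f g k l ^ 2 ≤ E4 μ f g f g * E4 μ k l k l := by
    have := cs_sq μ (measurable_cv (μ := μ) hf hg).aemeasurable
      (measurable_cv (μ := μ) hk hl).aemeasurable
    simpa only [E4, sq] using this
  calc E4 μ f g k l ^ 4 = (E4 μ f g k l ^ 2) ^ 2 := by rw [← pow_mul]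
    _ ≤ (E4 μ f g f g * E4 μ k l k l) ^ 2 := by gcongr
    _ = E4 μ f g f g ^ 2 * E4 μ k l k l ^ 2 := mul_pow _ _ _
    _ ≤ _ := mul_le_mul' (h2 hf hg) (h2 hk hl)

end

end Vale.Agent.P230.Upper
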