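import Vale.Agent.P230.Upper.CircCount

/-!
P230 upper bound: for a large prime, a random affine hyperplane misses all grid points of a
scaled convex body of volume `μ` with probability about `e^{-μ}`.
-/

open Finset MeasureTheory Filter Topology
open scoped Pointwise

namespace Vale.Agent.P230.Upper

noncomputable section

open scoped Classical

variable {m : ℕ}

/-- The scale for a prime `P`. -/
def scl (m P : ℕ) : ℝ := (P : ℝ) ^ ((m : ℝ)⁻¹)

lemma scl_pow {m : ℕ} (hm : m ≠ 0) (P : ℕ) : scl m P ^ m = (P : ℝ) :=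
  Real.rpow_inv_natCast_pow (Nat.cast_nonneg P) hm

lemma scl_pos {m P : ℕ} (hP : 0 < P) : 0 < scl m P :=
  Real.rpow_pos_of_pos (by exact_mod_cast hP) _

lemma tendsto_scl {m : ℕ} (hm : 0 < m) : Tendsto (fun P : ℕ => scl m P) atTop atTop :=
  (tendsto_rpow_atTop (by positivity)).comp tendsto_natCast_atTop_atTop

lemma fat_smul {B : Set (Fin m → ℝ)} {z : Fin m → ℝ} {ρ : ℝ} (hB : Fat B z ρ) {c : ℝ}
    (hc : 0 < c) : Fat (c • B) (c • z) (c * ρ) := by
  refine ⟨hB.conv.smul _, hB.cpt.smul _, mul_pos hc hB.pos, fun x hx => ?_⟩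
  rw [Set.mem_smul_set_iff_inv_smul_mem₀ hc.ne']
  refine hB.ball ?_
  rw [Metric.mem_closedBall, dist_eq_norm] at hx ⊢
  rw [show c⁻¹ • x - z = c⁻¹ • (x - c • z) by
      rw [smul_sub, smul_smul, inv_mul_cancel₀ hc.ne', one_smul],
    norm_smul, Real.norm_of_nonneg (inv_nonneg.2 hc.le)]
  calc c⁻¹ * ‖x - c • z‖ ≤ c⁻¹ * (c * ρ) := by gcongr
    _ = ρ := by field_simp

/-- The grid points in the scaled translate. -/
def bodyPts {B : Set (Fin m → ℝ)} (hB : IsCompact B) (P : ℕ) (a : Fin m → ℝ) :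
    Finset (Fin m → ℤ) :=
  gridPts (scl m P • B) (hB.smul (scl m P)).isBounded a

lemma exists_fat {B : Set (Fin m → ℝ)} (hc : Convex ℝ B) (hk : IsCompact B)
    (hV : 0 < (volume B).toReal) : ∃ z ρ, Fat B z ρ := by
  have hne : (interior B).Nonempty := by
    by_contra h
    rw [Set.not_nonempty_iff_eq_empty] at h
    have h2 := hc.addHaar_frontier volume
    rw [hk.isClosed.frontier_eq, h, Set.sdiff_empty] at h2
    rw [h2] at hV
    simp at hV
  obtain ⟨z, hz⟩ := hne
  obtain ⟨ρ, hρ, hball⟩ := Metric.isOpen_iff.1 isOpen_interior z hz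
  exact ⟨z, ρ / 2, hc, hk, half_pos hρ, (Metric.closedBall_subset_ball (half_lt_self hρ)).trans
    (hball.trans interior_subset)⟩

lemma volume_scl_smul {B : Set (Fin m → ℝ)} (hm : m ≠ 0) (P : ℕ) :
    (volume (scl m P • B)).toReal = (P : ℝ) * (volume B).toReal := by
  rw [Measure.addHaar_smul, Module.finrank_fin_fun, scl_pow hm, ENNReal.toReal_mul,
    ENNReal.toReal_ofReal (abs_nonneg _), Nat.abs_cast]

/-- The main counting estimate. -/
theorem eventually_none_le {B : Set (Fin m → ℝ)} (hBc : Convex ℝ B) (hBk : IsCompact B) {μ : ℝ}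
    (hμ : 0 < μ) (hBV : (volume B).toReal = μ) (r : ℕ) (hrm : 8 * r + 6 ≤ m) {ε : ℝ}
    (hε : 0 < ε) :
    ∀ᶠ P : ℕ in atTop, ∀ (_ : Fact P.Prime), ∀ a ∈ cell (0 : Fin m → ℝ),
      ((univ.filter fun φ : Fin (m + 1) → ZMod P =>
          sel (liftP P) (bodyPts hBk P a) φ = ∅).card : ℝ) ≤
        (∑ j ∈ range (2 * r + 1), (-μ) ^ j / j.factorial +
          6 * 6 ^ (4 * r + 1) * (kappa : ℝ) ^ m * Real.exp (4 * μ) + ε) * (P : ℝ) ^ (m + 1) := by
  have hm0 : 0 < m := by omega
  obtain ⟨z0, r0, hfat⟩ := exists_fat hBc hBk (hBV ▸ hμ)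
  have hr0 := hfat.pos
  obtain ⟨R0, hR0⟩ := hBk.isBounded.exists_norm_le
  set R1 := max R0 0 + 2 with hR1
  have hR1pos : 0 < R1 := by rw [hR1]; positivity
  set Cb : ℝ := 2 * ((m : ℝ) + 2) * R1 + 1 with hCb
  set A : ℝ := max 1 (Cb ^ m / μ) with hA
  set K := 4 * r + 1 with hK
  have hk0 : 0 < (kappa : ℝ) := by exact_mod_cast kappa_pos
  obtain ⟨H0, hH0, hH02⟩ : ∃ H0 : ℕ, 3 ^ K * A ^ K / (kappa : ℝ) ^ m ≤ H0 ∧ 2 ≤ H0 :=
    ⟨max 2 ⌈3 ^ K * A ^ K / (kappa : ℝ) ^ m⌉₊,
      (Nat.le_ceil _).trans (by exact_mod_cast le_max_right _ _), le_max_left _ _⟩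
  set δ : ℝ := 6 * 6 ^ K * (kappa : ℝ) ^ m with hδ
  have hδ0 : 0 ≤ δ := by positivity
  set l : Filter (ℕ × (Fin m → ℝ)) := atTop ×ˢ 𝓟 (cell 0) with hl
  have hfst : Tendsto Prod.fst l atTop := tendsto_fst
  set ρ : ℕ × (Fin m → ℝ) → ℝ := fun q => scl m q.1 * r0 with hρ
  have hρtop : Tendsto ρ l atTop :=
    Tendsto.atTop_mul_const hr0 ((tendsto_scl hm0).comp hfst)
  set Qr : ℕ × (Fin m → ℝ) → ℝ := fun q => (1 + (H0 : ℝ) / ρ q) ^ m * μ with hQr
  have hQlim : Tendsto Qr l (𝓝 μ) := by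
    have h1 : Tendsto (fun q => (H0 : ℝ) / ρ q) l (𝓝 0) := tendsto_const_nhds.div_atTop hρtop
    simpa [hQr] using ((h1.const_add 1).pow m).mul_const μ
  set Nr : ℕ × (Fin m → ℝ) → ℝ := fun q => ((bodyPts hBk q.1 q.2).card : ℝ) / (q.1 : ℝ) with hNr
  have hev : ∀ᶠ q in l, 0 < q.1 ∧ 1 ≤ ρ q := by
    filter_upwards [hfst.eventually (eventually_gt_atTop 0),
      hρtop.eventually (eventually_ge_atTop 1)] with q h1 h2 using ⟨h1, h2⟩
  have hbounds : ∀ q : ℕ × (Fin m → ℝ), 0 < q.1 → 1 ≤ ρ q →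
      (1 - 1 / ρ q) ^ m * μ ≤ Nr q ∧ Nr q ≤ Qr q := by
    intro q hq hρ1
    have hP : (0 : ℝ) < q.1 := by exact_mod_cast hq
    have hF := fat_smul hfat (scl_pos (m := m) hq)
    have hV := volume_scl_smul (B := B) hm0.ne' q.1
    rw [hBV] at hV
    have hup := hF.card_le q.2 (bodyPts hBk q.1 q.2) fun u hu => mem_gridPts.1 hu
    have hlo : (1 - 1 / (scl m q.1 * r0)) ^ m * (volume (scl m q.1 • B)).toReal ≤
        ((bodyPts hBk q.1 q.2).card : ℝ) := hF.le_card hρ1 q.2
    rw [hV] at hup hlo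
    constructor
    · rw [hNr, le_div_iff₀ hP]
      calc (1 - 1 / ρ q) ^ m * μ * (q.1 : ℝ) = (1 - 1 / ρ q) ^ m * ((q.1 : ℝ) * μ) := by ring
        _ ≤ _ := hlo
    · rw [hNr, div_le_iff₀ hP]
      refine hup.trans ?_
      rw [hQr]
      have : (1 : ℝ) ≤ H0 := by exact_mod_cast (by omega : 1 ≤ H0)
      calc (1 + 1 / ρ q) ^ m * ((q.1 : ℝ) * μ) ≤ (1 + (H0 : ℝ) / ρ q) ^ m * ((q.1 : ℝ) * μ) := by
            gcongr
        _ = _ := by ring
  have hNlim : Tendsto Nr l (𝓝 μ) := by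
    refine tendsto_of_tendsto_of_tendsto_of_le_of_le' (g := fun q => (1 - 1 / ρ q) ^ m * μ) ?_
      hQlim (hev.mono fun q hq => (hbounds q hq.1 hq.2).1)
      (hev.mono fun q hq => (hbounds q hq.1 hq.2).2)
    have h1 : Tendsto (fun q => 1 / ρ q) l (𝓝 0) := tendsto_const_nhds.div_atTop hρtop
    simpa using ((h1.const_sub 1).pow m).mul_const μ
  have hPinv : Tendsto (fun q : ℕ × (Fin m → ℝ) => ((q.1 : ℝ))⁻¹) l (𝓝 0) :=
    tendsto_inv_atTop_zero.comp (tendsto_natCast_atTop_atTop.comp hfst)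
  set Ch : ℕ → ℕ × (Fin m → ℝ) → ℝ :=
    fun j q => ((bodyPts hBk q.1 q.2).card.choose j : ℝ) / (q.1 : ℝ) ^ j with hCh
  have hChlim : ∀ j, Tendsto (Ch j) l (𝓝 (μ ^ j / j.factorial)) := by
    intro j
    have hlo : Tendsto (fun q => (Nr q - (j : ℝ) * ((q.1 : ℝ))⁻¹) ^ j / j.factorial) l
        (𝓝 (μ ^ j / j.factorial)) := by
      simpa using ((hNlim.sub (hPinv.const_mul (j : ℝ))).pow j).div_const (j.factorial : ℝ)
    refine tendsto_of_tendsto_of_tendsto_of_le_of_le' hlo
      ((hNlim.pow j).div_const (j.factorial : ℝ)) ?_ ?_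
    · have hpos : ∀ᶠ q in l, 0 < Nr q - (j : ℝ) * ((q.1 : ℝ))⁻¹ :=
        (by simpa using hNlim.sub (hPinv.const_mul (j : ℝ)) :
          Tendsto (fun q => Nr q - (j : ℝ) * ((q.1 : ℝ))⁻¹) l (𝓝 μ)).eventually (lt_mem_nhds hμ)
      filter_upwards [hev, hpos] with q hq hq2
      have hP : (0 : ℝ) < q.1 := by exact_mod_cast hq.1
      set N := (bodyPts hBk q.1 q.2).card with hN
      rw [hNr] at hq2 ⊢
      simp only at hq2 ⊢
      rw [← hN, div_sub' hP.ne'] at *
      · have h1 : (0 : ℝ) < (N : ℝ) - j := by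
          have := (div_pos_iff_of_pos_right hP).1 hq2
          rw [mul_comm, mul_assoc, inv_mul_cancel₀ hP.ne', mul_one] at this
          exact this
        have h2 : ((N : ℝ) - j) ^ j / j.factorial ≤ (N.choose j : ℝ) := by
          refine le_trans ?_ (Nat.pow_le_choose (α := ℝ) j N)
          have hjN : j ≤ N := by
            have : (j : ℝ) < N := by linarith
            exact_mod_cast this.le
          rw [Nat.cast_sub (by omega : j ≤ N + 1)]
          gcongr
          push_cast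
          linarith
        rw [mul_comm (q.1 : ℝ), mul_assoc, inv_mul_cancel₀ hP.ne', mul_one, div_pow,
          div_right_comm]
        simp only [hCh]
        exact div_le_div_of_nonneg_right h2 (pow_pos hP j).le
    · filter_upwards [hev] with q hq
      simp only [hCh, hNr]
      rw [div_pow, div_right_comm]
      exact div_le_div_of_nonneg_right (Nat.choose_le_pow_div _ _) (by positivity)
  -- the bound as a function of `(P, a)`
  set E : ℕ → ℕ × (Fin m → ℝ) → ℝ :=
    fun j q => ∑ R ∈ range j, δ * 2 ^ R / R.factorial * Qr q ^ (j - 1) * ((q.1 : ℝ))⁻¹ with hE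
  set G : ℕ × (Fin m → ℝ) → ℝ := fun q =>
    ∑ j ∈ range (2 * r + 1), ((-1) ^ j * Ch j q + E j q) +
      ∑ R ∈ range (4 * r + 1), δ * ((4 * Qr q) ^ R / R.factorial) with hG
  set Glim : ℝ := ∑ j ∈ range (2 * r + 1), (-μ) ^ j / j.factorial +
    ∑ R ∈ range (4 * r + 1), δ * ((4 * μ) ^ R / R.factorial) with hGlim
  have hGl : Tendsto G l (𝓝 Glim) := by
    refine Tendsto.add (tendsto_finsetSum _ fun j _ => ?_) (tendsto_finsetSum _ fun R _ =>
      (((hQlim.const_mul 4).pow R).div_const _).const_mul δ)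
    have hE0 : Tendsto (E j) l (𝓝 0) := by
      rw [show (0 : ℝ) = ∑ R ∈ range j, δ * 2 ^ R / R.factorial * μ ^ (j - 1) * 0 by simp]
      exact tendsto_finsetSum _ fun R _ => ((hQlim.pow _).const_mul _).mul hPinv
    have := ((hChlim j).const_mul ((-1 : ℝ) ^ j)).add hE0
    rw [add_zero, ← mul_div_assoc, ← mul_pow, neg_one_mul] at this
    exact this
  have hexp : ∑ R ∈ range (4 * r + 1), δ * ((4 * μ) ^ R / R.factorial) ≤ δ * Real.exp (4 * μ) := by
    rw [← Finset.mul_sum]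
    exact mul_le_mul_of_nonneg_left (Real.sum_le_exp_of_nonneg (by positivity) _) hδ0
  set c0 : ℝ := (K.factorial : ℝ) * (((m : ℝ) + 1) * R1 ^ 2) ^ K with hc0
  have hfinal : ∀ᶠ q in l, G q ≤ ∑ j ∈ range (2 * r + 1), (-μ) ^ j / j.factorial +
      δ * Real.exp (4 * μ) + ε ∧ 1 ≤ scl m q.1 ∧ c0 < scl m q.1 := by
    filter_upwards [hGl.eventually (ge_mem_nhds (show Glim < ∑ j ∈ range (2 * r + 1),
        (-μ) ^ j / j.factorial + δ * Real.exp (4 * μ) + ε by rw [hGlim]; linarith)),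
      ((tendsto_scl hm0).comp hfst).eventually (eventually_ge_atTop 1),
      ((tendsto_scl hm0).comp hfst).eventually (eventually_gt_atTop c0)] with q h1 h2 h3
    exact ⟨h1, h2, h3⟩
  rw [hl, eventually_prod_principal_iff] at hfinal hev
  filter_upwards [hfinal, hev] with P hfin hev hPp a ha
  obtain ⟨hGle, hs1, hsc0⟩ := hfin a ha
  obtain ⟨hP0, hρ1⟩ := hev a ha
  have hP : (0 : ℝ) < P := by exact_mod_cast hP0
  obtain ⟨hNlo, hNup⟩ := hbounds (P, a) hP0 hρ1
  set S := bodyPts hBk P a with hS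
  set Q : ℝ := Qr (P, a) * P with hQ
  have hQ0 : 0 ≤ Qr (P, a) := by simp only [hQr, hρ]; have := scl_pos (m := m) hP0; positivity
  have hNQ : (S.card : ℝ) ≤ Q := by
    rw [hNr, div_le_iff₀ hP] at hNup
    exact hNup
  set L := ⌈scl m P * max R0 0⌉₊ + 1 with hL
  have hLub : (L : ℝ) ≤ scl m P * R1 := by
    rw [hL, hR1, mul_add]
    push_cast
    linarith [Nat.ceil_lt_add_one (show 0 ≤ scl m P * max R0 0 by positivity)]
  have hSL : ∀ u ∈ S, ∀ i, (u i).natAbs ≤ L := by
    intro u hu i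
    have hmem := mem_gridPts.1 hu
    rw [Set.mem_smul_set] at hmem
    obtain ⟨b, hb, hbu⟩ := hmem
    have hbi : |b i| ≤ max R0 0 := by
      rw [← Real.norm_eq_abs]
      exact (norm_le_pi_norm b i).trans ((hR0 b hb).trans (le_max_left _ _))
    have hai := ha i (Set.mem_univ i)
    have hi := congrFun hbu i
    simp only [Pi.smul_apply, smul_eq_mul, Pi.add_apply, zr] at hi
    simp only [Pi.zero_apply, Set.mem_Ico, zero_add] at hai
    have h1 : |((u i : ℤ) : ℝ)| ≤ scl m P * max R0 0 + 1 := by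
      rw [show ((u i : ℤ) : ℝ) = scl m P * b i - a i by linarith]
      refine (abs_sub _ _).trans ?_
      rw [abs_mul, abs_of_nonneg (scl_pos (m := m) hP0).le, abs_of_nonneg hai.1]
      gcongr
      linarith
    have h2 : (((u i).natAbs : ℕ) : ℝ) ≤ (L : ℝ) := by
      rw [Nat.cast_natAbs, Int.cast_abs, hL]
      push_cast
      linarith [Nat.le_ceil (scl m P * max R0 0)]
    exact_mod_cast h2
  have hgram : K.factorial * ((m + 1) * L ^ 2) ^ K < P := by
    have h : ((K.factorial * ((m + 1) * L ^ 2) ^ K : ℕ) : ℝ) < (P : ℝ) := by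
      push_cast
      calc (K.factorial : ℝ) * (((m : ℝ) + 1) * (L : ℝ) ^ 2) ^ K
          ≤ (K.factorial : ℝ) * (((m : ℝ) + 1) * (scl m P * R1) ^ 2) ^ K := by gcongr
        _ = c0 * scl m P ^ (2 * K) := by rw [hc0, pow_mul, mul_pow, mul_pow, mul_pow, mul_pow]; ring
        _ < scl m P * scl m P ^ (2 * K) := by
            have := scl_pos (m := m) hP0
            gcongr
        _ = scl m P ^ (2 * K + 1) := by ring
        _ ≤ scl m P ^ m := pow_le_pow_right₀ hs1 (by omega)
        _ = P := scl_pow hm0.ne' P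
    exact_mod_cast h
  have hV := volume_scl_smul (B := B) hm0.ne' P
  rw [hBV] at hV
  have hF := fat_smul hfat (scl_pos (m := m) hP0)
  have hA1 : 1 ≤ A := le_max_left _ _
  have hAQ : ((2 * ((m + 2) * L) + 1 : ℕ) : ℝ) ^ m ≤ A * Q := by
    calc ((2 * ((m + 2) * L) + 1 : ℕ) : ℝ) ^ m ≤ (scl m P * Cb) ^ m := by
          gcongr
          rw [hCb]
          push_cast
          have : ((m : ℝ) + 2) * L ≤ ((m : ℝ) + 2) * (scl m P * R1) := by gcongr
          linarith
      _ = (Cb ^ m / μ) * (μ * P) := by rw [mul_pow, scl_pow hm0.ne']; field_simp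
      _ ≤ A * Q := by
          refine mul_le_mul (le_max_right _ _) ?_ (by positivity) (by linarith)
          rw [hQ]
          refine mul_le_mul_of_nonneg_right ?_ hP.le
          rw [hQr]
          refine le_mul_of_one_le_left hμ.le (one_le_pow₀ ?_)
          have : 0 ≤ (H0 : ℝ) / ρ (P, a) :=
            div_nonneg (Nat.cast_nonneg _) (by linarith)
          linarith
  have hcirc : ∀ t, t ≤ K → ((circTuples S t).card : ℝ) ≤ δ * Q ^ (t - 1) := by
    intro t ht
    have hQ' : 0 ≤ Q := by positivity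
    refine (card_circTuples_le hF a (L := L) (by omega) hSL hH02 hA1 hNQ ?_ hAQ
      (t := t) (by omega)).trans ?_
    · rw [hV, hQ, hQr]
      exact le_of_eq (by simp only [hρ]; ring)
    refine mul_le_mul_of_nonneg_right ?_ (pow_nonneg hQ' _)
    have h1 : (5 : ℝ) * 6 ^ t * (kappa : ℝ) ^ m ≤ 5 * 6 ^ K * (kappa : ℝ) ^ m := by
      gcongr
      norm_num
    have h2 : 3 ^ t * A ^ t / (H0 : ℝ) ≤ 6 ^ K * (kappa : ℝ) ^ m := by
      rw [div_le_iff₀ (by exact_mod_cast (by omega : 0 < H0))]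
      calc 3 ^ t * A ^ t ≤ 3 ^ K * A ^ K := by gcongr; norm_num
        _ ≤ (kappa : ℝ) ^ m * H0 := by
            rw [div_le_iff₀ (pow_pos hk0 m)] at hH0
            linarith
        _ ≤ 6 ^ K * (kappa : ℝ) ^ m * H0 := by
            gcongr
            exact le_mul_of_one_le_left (by positivity) (one_le_pow₀ (by norm_num))
    rw [hδ]
    linarith
  have hbad : ∀ R, R + 1 ≤ K →
      ((badPairs (liftP P) S R).card : ℝ) ≤ δ * (2 * Q) ^ R / R.factorial := fun R hR =>
    card_badPairs_le (by omega) hgram hSL hR hδ0 hNQ hcirc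
  have hmain := card_none_le (F := ZMod P) (liftP P) S r
  rw [ZMod.card, div_le_iff₀ (pow_pos hP _)] at hmain
  refine hmain.trans (mul_le_mul_of_nonneg_right (le_trans ?_ hGle) (by positivity))
  rw [hG]
  refine add_le_add (Finset.sum_le_sum fun j hj => ?_) (Finset.sum_le_sum fun R hR => ?_)
  · have hjr := Finset.mem_range.1 hj
    have hdep := card_dep_le (F := ZMod P) (liftP P) S j
    have hIle : (indepSets (liftP P) S j).card ≤ S.card.choose j := by
      rw [← Finset.card_powersetCard]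
      exact Finset.card_filter_le _ _
    set I : ℝ := ((indepSets (liftP P) S j).card : ℝ) with hI
    have hD : (S.card.choose j : ℝ) - I ≤
        ∑ R ∈ range j, δ * 2 ^ R / R.factorial * Q ^ (j - 1) := by
      have h1 : (S.card.choose j : ℝ) ≤ I +
          ∑ R ∈ range j, ((badPairs (liftP P) S R).card : ℝ) * (S.card : ℝ) ^ (j - R - 1) := by
        rw [hI]
        exact_mod_cast hdep
      have h2 : ∑ R ∈ range j, ((badPairs (liftP P) S R).card : ℝ) * (S.card : ℝ) ^ (j - R - 1) ≤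
          ∑ R ∈ range j, δ * 2 ^ R / R.factorial * Q ^ (j - 1) := by
        refine Finset.sum_le_sum fun R hR => ?_
        have hRj := Finset.mem_range.1 hR
        calc ((badPairs (liftP P) S R).card : ℝ) * (S.card : ℝ) ^ (j - R - 1)
            ≤ δ * (2 * Q) ^ R / R.factorial * Q ^ (j - R - 1) :=
              mul_le_mul (hbad R (by omega)) (pow_le_pow_left₀ (Nat.cast_nonneg _) hNQ _)
                (by positivity) (by positivity)
          _ = _ := by
              rw [show j - 1 = R + (j - R - 1) by omega, pow_add, mul_pow]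
              ring
      linarith
    have hI1 : I ≤ (S.card.choose j : ℝ) := by rw [hI]; exact_mod_cast hIle
    have hE' : ((S.card.choose j : ℝ) - I) / (P : ℝ) ^ j ≤ E j (P, a) := by
      rw [div_le_iff₀ (pow_pos hP j), hE]
      refine hD.trans_eq ?_
      rw [Finset.sum_mul]
      refine Finset.sum_congr rfl fun R hR => ?_
      have hj1 : 1 ≤ j := by have := Finset.mem_range.1 hR; omega
      rw [hQ, mul_pow, show (P : ℝ) ^ j = (P : ℝ) ^ (j - 1) * P by
        rw [← pow_succ]; congr 1; omega]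
      field_simp
    have hpow : 0 < (P : ℝ) ^ j := pow_pos hP j
    rcases neg_one_pow_eq_or ℝ j with h | h <;> rw [h, hCh] <;> simp only [← hS]
    · rw [one_mul, one_mul]
      have : I / (P : ℝ) ^ j ≤ (S.card.choose j : ℝ) / (P : ℝ) ^ j := by gcongr
      have : 0 ≤ E j (P, a) := le_trans (div_nonneg (by linarith) hpow.le) hE'
      linarith
    · rw [sub_div] at hE'
      rw [neg_one_mul, neg_one_mul, neg_div]
      linarith
  · have hRr := Finset.mem_range.1 hR
    rw [div_le_iff₀ (pow_pos hP R)]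
    calc (2 : ℝ) ^ R * ((badPairs (liftP P) S R).card : ℝ)
        ≤ 2 ^ R * (δ * (2 * Q) ^ R / R.factorial) := by gcongr; exact hbad R (by omega)
      _ = _ := by
          rw [hQ, show (4 : ℝ) = 2 * 2 by norm_num]
          simp only [mul_pow]
          ring

end

end Vale.Agent.P230.Upper
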