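import Vale.Agent.P230.Upper.Lift

/-!
P230 upper bound: from a tiny uncovered fraction to a covering by a slightly larger body.
-/

open MeasureTheory Set
open scoped ENNReal Pointwise

namespace Vale.Agent.P230.Upper

noncomputable section

variable {m : ℕ}

lemma topC_add (d : ℕ) (x y : Fin (m + d) → ℝ) : topC d (x + y) = topC d x + topC d y := by
  conv_lhs => rw [← glue_top_bot d x, ← glue_top_bot d y, ← glue_add, topC_glue]

lemma botC_add (d : ℕ) (x y : Fin (m + d) → ℝ) : botC d (x + y) = botC d x + botC d y := by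
  conv_lhs => rw [← glue_top_bot d x, ← glue_top_bot d y, ← glue_add, botC_glue]

lemma topC_smul (d : ℕ) (c : ℝ) (x : Fin (m + d) → ℝ) : topC d (c • x) = c • topC d x := by
  conv_lhs => rw [← glue_top_bot d x, ← glue_smul, topC_glue]

lemma botC_smul (d : ℕ) (c : ℝ) (x : Fin (m + d) → ℝ) : botC d (c • x) = c • botC d x := by
  conv_lhs => rw [← glue_top_bot d x, ← glue_smul, botC_glue]

/-- A convex body has a large symmetric part. -/
lemma exists_sym {B : Set (Fin m → ℝ)} (hc : Convex ℝ B) (hk : IsCompact B)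
    (hV : 0 < (volume B).toReal) :
    ∃ (a : Fin m → ℝ) (W : Set (Fin m → ℝ)), Convex ℝ W ∧ IsCompact W ∧ (0 : Fin m → ℝ) ∈ W ∧
      (∀ w ∈ W, -w ∈ W) ∧ (∀ w ∈ W, a + w ∈ B) ∧
      (1 / 2) ^ m * (volume B).toReal ≤ (volume W).toReal ∧
      (volume W).toReal ≤ (volume B).toReal := by
  set W : (Fin m → ℝ) → Set (Fin m → ℝ) := fun a => {x | a + x ∈ B ∧ a - x ∈ B} with hW
  have hBm := hk.measurableSet
  set f : (Fin m → ℝ) → ℝ≥0∞ := B.indicator 1 with hf
  have hfm : Measurable f := measurable_one.indicator hBm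
  have hWvol : ∀ a, volume (W a) = ∫⁻ u, f u * f ((2 : ℝ) • a - u) := by
    intro a
    have hWm : MeasurableSet (W a) :=
      (hBm.preimage (measurable_const_add a)).inter (hBm.preimage (measurable_const.sub measurable_id))
    rw [← lintegral_indicator_one hWm, ← lintegral_sub_right_eq_self _ a]
    refine lintegral_congr fun u => ?_
    have e1 : a + (u - a) = u := by abel
    have e2 : a - (u - a) = (2 : ℝ) • a - u := by rw [two_smul]; abel
    by_cases h : u - a ∈ W a
    · rw [indicator_of_mem h, hf, indicator_of_mem (e1 ▸ h.1), indicator_of_mem (e2 ▸ h.2)]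
      simp
    · rw [indicator_of_notMem h, eq_comm, mul_eq_zero]
      by_contra hcon
      simp only [hf, indicator_apply_eq_zero, not_or, not_forall, exists_prop] at hcon
      exact h ⟨e1.symm ▸ hcon.1.1, e2.symm ▸ hcon.2.1⟩
  have hjm : Measurable fun q : (Fin m → ℝ) × (Fin m → ℝ) => f q.2 * f ((2 : ℝ) • q.1 - q.2) := by
    fun_prop
  have hint : ∫⁻ a, volume (W a) = ENNReal.ofReal ((1 / 2) ^ m) * volume B * volume B := by
    simp only [hWvol]
    rw [lintegral_lintegral_swap hjm.aemeasurable]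
    have hinner : ∀ u, ∫⁻ a, f u * f ((2 : ℝ) • a - u) =
        f u * (ENNReal.ofReal ((1 / 2) ^ m) * volume B) := fun u => by
      rw [lintegral_const_mul _ (by fun_prop : Measurable fun a => f ((2 : ℝ) • a - u))]
      congr 1
      have he : (fun a => f ((2 : ℝ) • a - u)) =
          ((fun a : Fin m → ℝ => (2 : ℝ) • a) ⁻¹' ((fun x => x + -u) ⁻¹' B)).indicator 1 := by
        funext a
        simp only [hf, ← sub_eq_add_neg]
        rfl
      rw [he, lintegral_indicator_one
          ((hBm.preimage (measurable_add_const _)).preimage (measurable_const_smul _)),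
        Measure.addHaar_preimage_smul _ (two_ne_zero), measure_preimage_add_right,
        Module.finrank_fin_fun, abs_of_nonneg (by positivity), one_div, inv_pow]
    simp only [hinner]
    rw [lintegral_mul_const _ hfm, hf, lintegral_indicator_one hBm]
    ring
  have hsupp : ∀ a, a ∉ B → volume (W a) = 0 := fun a ha => by
    have : W a = ∅ := eq_empty_of_forall_notMem fun x hx => ha (by
      have := hc hx.1 hx.2 (a := 1 / 2) (b := 1 / 2) (by norm_num) (by norm_num) (by norm_num)
      convert this using 1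
      funext l
      simp
      ring)
    simp [this]
  have hset : ∫⁻ a in B, volume (W a) = ∫⁻ a, volume (W a) := by
    rw [← lintegral_indicator hBm]
    refine lintegral_congr fun a => ?_
    by_cases ha : a ∈ B
    · rw [indicator_of_mem ha]
    · rw [indicator_of_notMem ha, hsupp a ha]
  have hBpos : volume B ≠ 0 := fun h => by simp [h] at hV
  have hWmeas : Measurable fun a => volume (W a) := by
    simp only [hWvol]
    exact hjm.lintegral_prod_right'
  obtain ⟨a, ha, hle⟩ := exists_setLAverage_le (f := fun a => volume (W a)) hBpos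
    hBm.nullMeasurableSet (by
      rw [hset, hint]
      exact ENNReal.mul_ne_top (ENNReal.mul_ne_top ENNReal.ofReal_ne_top hk.measure_lt_top.ne)
        hk.measure_lt_top.ne)
  rw [setLAverage_eq, hset, hint, ENNReal.mul_div_cancel_right hBpos hk.measure_lt_top.ne] at hle
  have hsub : W a ⊆ (fun x => a + x) ⁻¹' B := fun x hx => hx.1
  have hfinW : volume (W a) ≤ volume B := by
    refine (measure_mono hsub).trans_eq ?_
    rw [measure_preimage_add]
  refine ⟨a, W a, ?_, ?_, ⟨by simpa using ha, by simpa using ha⟩,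
    fun w hw => ⟨by simpa [sub_eq_add_neg] using hw.2, by simpa [sub_eq_add_neg] using hw.1⟩,
    fun w hw => hw.1, ?_, ENNReal.toReal_mono hk.measure_lt_top.ne hfinW⟩
  · intro x hx y hy s t hs ht hst
    constructor
    · have h := hc hx.1 hy.1 hs ht hst
      convert h using 1
      rw [smul_add, smul_add, add_add_add_comm, ← add_smul, hst, one_smul]
    · have h := hc hx.2 hy.2 hs ht hst
      convert h using 1
      rw [smul_sub, smul_sub, sub_add_sub_comm, ← add_smul, hst, one_smul]
  · have hcl : IsClosed (W a) := (hk.isClosed.preimage (continuous_const_add a)).inter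
      (hk.isClosed.preimage (continuous_const.sub continuous_id))
    exact ((Homeomorph.addLeft a).isCompact_preimage.2 hk).of_isClosed_subset hcl hsub
  · have h := ENNReal.toReal_mono (ne_top_of_le_ne_top hk.measure_lt_top.ne hfinW) hle
    rwa [ENNReal.toReal_mul, ENNReal.toReal_ofReal (by positivity)] at h

/-- A big subset of `K` around a point of the bottom slice, with thin differences. -/
theorem exists_inner {W : Set (Fin m → ℝ)} (hWk : IsCompact W) (hW0 : (0 : Fin m → ℝ) ∈ W)
    (hWc : Convex ℝ W) (a : Fin m → ℝ) (q : ℕ) :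
    ∀ (d : ℕ) (K : Set (Fin (m + d) → ℝ)), Convex ℝ K →
      (∀ w ∈ W, glue d 0 (a + w) ∈ K) →
      (∀ j : Fin d → ℕ, (∀ k, j k ≤ 2 ^ q) → (sl d K fun k => gp q (j k)).Nonempty) →
      ∃ T : Set (Fin (m + d) → ℝ), IsCompact T ∧ (∀ x ∈ T, glue d 0 a + x ∈ K) ∧
        (∀ x ∈ T, ∀ k, |topC d x k| ≤ 1 / 2) ∧
        (∀ x ∈ T, ∀ y ∈ T, topC d x = topC d y → ∃ w1 ∈ W, ∃ w2 ∈ W,
          botC d x - botC d y = w1 - w2) ∧
        ENNReal.ofReal ((1 / 2) ^ ((m + d) * d)) * volume W ≤ volume T := by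
  intro d
  induction d with
  | zero =>
    intro K _ hW _
    refine ⟨W, hWk, fun x hx => hW x hx, fun x _ k => k.elim0,
      fun x hx y hy _ => ⟨x, hx, y, hy, rfl⟩, ?_⟩
    simp
  | succ d ih =>
    intro K hK hW hne
    have h0 : ∀ j : Fin d → ℕ, sl d (fsl K 0) (fun k => gp q (j k)) =
        sl (d + 1) K (fun k => gp q (Fin.cons (α := fun _ => ℕ) 0 j k)) := fun j => by
      rw [← sl_cons]
      congr 1
      funext k
      refine Fin.cases ?_ (fun k => ?_) k <;> simp [gp_zero]
    have hglue : ∀ (τ : ℝ) (y : Fin m → ℝ),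
        glue (d + 1) (Fin.cons τ 0 : Fin (d + 1) → ℝ) y =
          (Fin.cons τ (glue d 0 y) : Fin (m + d + 1) → ℝ) := fun τ y => by
      show (Fin.cons ((Fin.cons τ 0 : Fin (d + 1) → ℝ) 0)
        (glue d (Fin.tail (Fin.cons τ 0 : Fin (d + 1) → ℝ)) y) : Fin (m + d + 1) → ℝ) = _
      rw [Fin.cons_zero, Fin.tail_cons]
    have hzero : (0 : Fin (d + 1) → ℝ) = Fin.cons 0 0 := by
      funext k; refine Fin.cases ?_ (fun k => ?_) k <;> simp
    obtain ⟨T, hTk, hTK, hTtop, hTdiff, hTvol⟩ := ih (fsl K 0)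
      (fun x hx y hy s t hs ht hst => by
        show (Fin.cons (0 : ℝ) (s • x + t • y) : Fin (m + d + 1) → ℝ) ∈ K
        have h := hK hx hy hs ht hst
        rwa [smul_cons, smul_cons, cons_add_cons, mul_zero, mul_zero, add_zero] at h)
      (fun w hw => by
        have h := hW w hw
        rw [hzero, hglue] at h
        exact h)
      (fun j hj => by
        rw [h0]
        exact hne _ fun k => by refine Fin.cases ?_ (fun k => ?_) k <;> simp [hj])
    obtain ⟨y0, hy0⟩ := hne (Fin.cons (α := fun _ => ℕ) (2 ^ q) fun _ => 0)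
      (fun k => by refine Fin.cases ?_ (fun k => ?_) k <;> simp)
    have hy1 : (Fin.cons (1 : ℝ) (glue d 0 y0) : Fin (m + d + 1) → ℝ) ∈ K := by
      have h : glue (d + 1) (fun k => gp q (Fin.cons (α := fun _ => ℕ) (2 ^ q) (fun _ => 0) k)) y0
          ∈ K := hy0
      have e : (fun k => gp q (Fin.cons (α := fun _ => ℕ) (2 ^ q) (fun _ => 0) k)) =
          (Fin.cons 1 0 : Fin (d + 1) → ℝ) := by
        funext k; refine Fin.cases ?_ (fun k => ?_) k <;> simp [gp_top, gp_zero]
      rw [e, hglue] at h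
      exact h
    set v : Fin (m + d) → ℝ := glue d 0 (y0 - a) with hv
    have hvtop : topC d v = 0 := topC_glue d 0 _
    set Φ : ℝ × (Fin (m + d) → ℝ) → (Fin (m + d + 1) → ℝ) :=
      fun p => Fin.cons p.1 (p.1 • v + (1 / 2 : ℝ) • p.2) with hΦ
    have hΦc : Continuous Φ := by
      have h2 : Continuous fun p : ℝ × (Fin (m + d) → ℝ) => p.1 • v + (1 / 2 : ℝ) • p.2 :=
        (continuous_fst.smul continuous_const).add (continuous_snd.const_smul (1 / 2 : ℝ))
      exact Continuous.finCons continuous_fst h2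
    set T' : Set (Fin (m + d + 1) → ℝ) := Φ '' (Icc 0 (1 / 2) ×ˢ T) with hT'
    refine ⟨T', (isCompact_Icc.prod hTk).image hΦc, ?_, ?_, ?_, ?_⟩
    · rintro _ ⟨⟨θ, t⟩, ⟨hθ, ht⟩, rfl⟩
      have h1 : (0 : ℝ) < 1 - θ := by linarith [hθ.2]
      set s : ℝ := 1 / (2 * (1 - θ)) with hs
      have hs0 : 0 ≤ s := by positivity
      have hs1 : s ≤ 1 := by rw [hs, div_le_one (by positivity)]; linarith [hθ.2]
      have hp : (Fin.cons (0 : ℝ) (glue d 0 a + s • t) : Fin (m + d + 1) → ℝ) ∈ K := by
        have ha0 : (Fin.cons (0 : ℝ) (glue d 0 a) : Fin (m + d + 1) → ℝ) ∈ K := by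
          have h := hW 0 hW0
          rw [add_zero, hzero, hglue] at h
          exact h
        have e : (Fin.cons (0 : ℝ) (glue d 0 a + s • t) : Fin (m + d + 1) → ℝ) =
            (1 - s) • (Fin.cons (0 : ℝ) (glue d 0 a) : Fin (m + d + 1) → ℝ) +
              s • (Fin.cons (0 : ℝ) (glue d 0 a + t) : Fin (m + d + 1) → ℝ) := by
          funext i
          refine Fin.cases ?_ (fun j => ?_) i
          · simp
          · simp; ring
        rw [e]
        exact hK ha0 (hTK t ht) (by linarith) hs0 (by ring)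
      have h := hK hp hy1 (a := 1 - θ) (b := θ) h1.le hθ.1 (by ring)
      have hgl : glue (d + 1) (0 : Fin (d + 1) → ℝ) a =
          (Fin.cons (0 : ℝ) (glue d 0 a) : Fin (m + d + 1) → ℝ) := by rw [hzero, hglue]
      show glue (d + 1) 0 a + Φ (θ, t) ∈ K
      rw [hgl]
      have e : (Fin.cons (0 : ℝ) (glue d 0 a) : Fin (m + d + 1) → ℝ) + Φ (θ, t) =
          (1 - θ) • (Fin.cons (0 : ℝ) (glue d 0 a + s • t) : Fin (m + d + 1) → ℝ) +
            θ • (Fin.cons (1 : ℝ) (glue d 0 y0) : Fin (m + d + 1) → ℝ) := by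
        have hy : glue d 0 y0 = glue d 0 a + v := by
          rw [hv, ← glue_add, add_zero, add_sub_cancel]
        rw [hy]
        funext i
        refine Fin.cases ?_ (fun j => ?_) i
        · simp [hΦ]
        · simp only [hΦ, hs, Pi.add_apply, Fin.cons_succ, Pi.smul_apply, smul_eq_mul]
          field_simp
          ring
      exact e ▸ h
    · rintro _ ⟨⟨θ, t⟩, ⟨hθ, ht⟩, rfl⟩ k
      show |(Fin.cons (Φ (θ, t) 0) (topC d (Fin.tail (Φ (θ, t)))) : Fin (d + 1) → ℝ) k| ≤ 1 / 2
      simp only [hΦ, Fin.cons_zero, Fin.tail_cons, topC_add, topC_smul, hvtop, smul_zero, zero_add]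
      refine Fin.cases ?_ (fun k => ?_) k
      · rw [Fin.cons_zero, abs_of_nonneg hθ.1]; exact hθ.2
      · rw [Fin.cons_succ, Pi.smul_apply, smul_eq_mul, abs_mul, abs_of_pos (by norm_num : (0 : ℝ) < 1 / 2)]
        have := hTtop t ht k
        linarith [abs_nonneg (topC d t k)]
    · rintro _ ⟨⟨θ, t⟩, ⟨hθ, ht⟩, rfl⟩ _ ⟨⟨θ', t'⟩, ⟨hθ', ht'⟩, rfl⟩ htop
      have htop' : (Fin.cons θ (topC d (θ • v + (1 / 2 : ℝ) • t)) : Fin (d + 1) → ℝ) =
          Fin.cons θ' (topC d (θ' • v + (1 / 2 : ℝ) • t')) := htop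
      obtain ⟨e1, e2⟩ := Fin.cons_inj.1 htop'
      subst e1
      rw [topC_add, topC_add, topC_smul d (1 / 2 : ℝ), topC_smul d (1 / 2 : ℝ) t'] at e2
      have e3 : topC d t = topC d t' := smul_right_injective _ (by norm_num : (1 / 2 : ℝ) ≠ 0)
        (add_left_cancel e2)
      obtain ⟨w1, hw1, w2, hw2, hw⟩ := hTdiff t ht t' ht' e3
      refine ⟨(1 / 2 : ℝ) • w1, ?_, (1 / 2 : ℝ) • w2, ?_, ?_⟩
      · exact hWc.smul_mem_of_zero_mem hW0 hw1 ⟨by norm_num, by norm_num⟩
      · exact hWc.smul_mem_of_zero_mem hW0 hw2 ⟨by norm_num, by norm_num⟩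
      · show botC d (θ • v + (1 / 2 : ℝ) • t) - botC d (θ • v + (1 / 2 : ℝ) • t') = _
        rw [botC_add, botC_add, botC_smul d (1 / 2 : ℝ), botC_smul d (1 / 2 : ℝ) t', ← smul_sub,
          ← hw, smul_sub]
        abel
    · have hT'm : MeasurableSet T' := ((isCompact_Icc.prod hTk).image hΦc).measurableSet
      show _ ≤ volume T'
      rw [volume_eq_fsl hT'm]
      calc ENNReal.ofReal ((1 / 2) ^ ((m + (d + 1)) * (d + 1))) * volume W
          ≤ ENNReal.ofReal (1 / 2) * (ENNReal.ofReal ((1 / 2) ^ (m + d)) * volume T) := by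
            refine le_trans ?_ (mul_le_mul' le_rfl (mul_le_mul' le_rfl hTvol))
            rw [← mul_assoc, ← mul_assoc, ← ENNReal.ofReal_mul (by norm_num),
              ← ENNReal.ofReal_mul (by positivity), ← pow_succ', ← pow_add]
            refine mul_le_mul' (ENNReal.ofReal_le_ofReal
              (pow_le_pow_of_le_one (by norm_num) (by norm_num) ?_)) le_rfl
            ring_nf
            omega
        _ = ∫⁻ _θ in Icc (0 : ℝ) (1 / 2), ENNReal.ofReal ((1 / 2) ^ (m + d)) * volume T := by
            rw [setLIntegral_const, Real.volume_Icc, sub_zero, mul_comm]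
        _ ≤ ∫⁻ θ in Icc (0 : ℝ) (1 / 2), volume (fsl T' θ) := by
            refine setLIntegral_mono' measurableSet_Icc fun θ hθ => ?_
            calc ENNReal.ofReal ((1 / 2) ^ (m + d)) * volume T
                = volume ((1 / 2 : ℝ) • T) := by
                  rw [Measure.addHaar_smul, Module.finrank_fin_fun, abs_of_nonneg (by positivity)]
              _ = volume ((fun y => -(θ • v) + y) ⁻¹' ((1 / 2 : ℝ) • T)) := by
                  rw [measure_preimage_add]
              _ ≤ _ := by
                  refine measure_mono fun y hy => ?_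
                  obtain ⟨t, ht, he⟩ := Set.mem_smul_set.1 hy
                  refine ⟨(θ, t), ⟨hθ, ht⟩, ?_⟩
                  show (Fin.cons θ (θ • v + (1 / 2 : ℝ) • t) : Fin (m + d + 1) → ℝ) = Fin.cons θ y
                  rw [he, add_neg_cancel_left]
        _ ≤ _ := setLIntegral_le_lintegral _ _

/-- An injectively projected subset of the uncovered set bounds the uncovered fraction. -/
lemma volume_le_miss {N : ℕ} {B U : Set (Fin N → ℝ)} (A : (Fin N → ℝ) →ₗ[ℝ] (Fin N → ℝ))
    (hB : MeasurableSet B) (hU : MeasurableSet U) (hsub : U ⊆ uncov B A)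
    (hinj : ∀ u ∈ U, ∀ z : Fin N → ℤ, u + zr z ∈ U → z = 0) : volume U ≤ miss B A := by
  set V : (Fin N → ℤ) → Set (Fin N → ℝ) := fun z => (fun x => x + zr z) ⁻¹' U ∩ cell 0 with hV
  have hVm : ∀ z, MeasurableSet (V z) := fun z =>
    (hU.preimage (measurable_add_const _)).inter (measurableSet_cell _)
  have hdis : Pairwise (Function.onFun Disjoint V) := fun z z' hne =>
    Set.disjoint_left.2 fun x hx hx' => hne (by
      have h1 : x + zr z + zr (z' - z) ∈ U := by
        rw [add_assoc, ← zr_add, add_sub_cancel]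
        exact hx'.1
      exact (sub_eq_zero.1 (hinj _ hx.1 _ h1)).symm)
  have hsum : volume U = ∑' z, volume (V z) := by
    calc volume U = ∫⁻ _x in U, 1 := (setLIntegral_one U).symm
      _ = ∑' z, ∫⁻ _x in cell (0 + zr z), 1 ∂(volume.restrict U) := lintegral_eq_tsum_cells 0 U _
      _ = _ := tsum_congr fun z => by
        rw [Measure.restrict_restrict (measurableSet_cell _), setLIntegral_one, zero_add, hV,
          ← measure_preimage_add_right volume (zr z) (cell (zr z) ∩ U), preimage_inter,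
          preimage_add_cell, sub_self, inter_comm]
  rw [hsum, ← measure_iUnion hdis hVm]
  calc volume (⋃ z, V z) ≤ volume (uncov B A ∩ cell 0) := measure_mono (iUnion_subset fun z x hx =>
        ⟨(uncov_periodic B A x z).1 (hsub hx.1), hx.2⟩)
    _ = _ := by
        rw [miss, lintegral_indicator_one (measurableSet_uncov hB A),
          Measure.restrict_apply (measurableSet_uncov hB A)]

/-- From a tiny uncovered fraction to a covering. -/
theorem covering_of_small_miss {d : ℕ} {K T : Set (Fin (m + d) → ℝ)} {W : Set (Fin m → ℝ)}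
    {η : ℝ} {b : Fin (m + d) → ℝ} (hKc : Convex ℝ K) (hKk : IsCompact K) (hη : 0 < η)
    (hη1 : η < 1 / 4)
    (hTk : IsCompact T) (hTK : ∀ x ∈ T, b + x ∈ K) (hTtop : ∀ x ∈ T, ∀ k, |topC d x k| ≤ 1 / 2)
    (hTdiff : ∀ x ∈ T, ∀ y ∈ T, topC d x = topC d y → ∃ w1 ∈ W, ∃ w2 ∈ W,
      botC d x - botC d y = w1 - w2)
    (hWc : Convex ℝ W) (hWsym : ∀ w ∈ W, -w ∈ W)
    {A : (Fin (m + d) → ℝ) →ₗ[ℝ] (Fin (m + d) → ℝ)} (hA : LinearMap.det A ≠ 0)
    (hsep : ∀ z : Fin (m + d) → ℤ, (∀ k, |topC d (A (zr z)) k| < 1 / 4) →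
      topC d (A (zr z)) = 0 ∧ (botC d (A (zr z)) ∈ (2 * η) • W → z = 0))
    (hsmall : miss K A < ENNReal.ofReal (η ^ (m + d) / |LinearMap.det A|) * volume T) :
    ∀ y, ∃ k ∈ K, ∃ z : Fin (m + d) → ℤ, y = (1 + η) • k + A (zr z) := by
  intro y
  by_contra hcon
  push Not at hcon
  apply not_le.2 hsmall
  set S : Set (Fin (m + d) → ℝ) := (fun x => -(y - η • b) + x) ⁻¹' ((-η) • T) with hS
  set U : Set (Fin (m + d) → ℝ) := A ⁻¹' S with hU
  have hSm : MeasurableSet S :=
    ((hTk.smul (-η)).measurableSet).preimage (measurable_const_add _)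
  have hUm : MeasurableSet U := hSm.preimage (measurable_linearMap A)
  have hmem : ∀ u ∈ U, ∃ t ∈ T, A u = y - η • (b + t) := by
    intro u hu
    obtain ⟨t, ht, he⟩ := Set.mem_smul_set.1 hu
    refine ⟨t, ht, ?_⟩
    have he' : A u = (y - η • b) + (-η) • t := by rw [he, add_neg_cancel_left]
    rw [he', neg_smul, smul_add]
    abel
  have hsub : U ⊆ uncov K A := by
    intro u hu z hz
    obtain ⟨t, ht, hAu⟩ := hmem u hu
    rw [map_add, hAu] at hz
    have hk := hKc (hTK t ht) hz (a := η / (1 + η)) (b := 1 / (1 + η)) (by positivity)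
      (by positivity) (by field_simp; ring)
    refine hcon _ hk (-z) ?_
    rw [zr_neg, map_neg, smul_add, smul_smul, smul_smul]
    have e1 : (1 + η) * (η / (1 + η)) = η := by field_simp
    have e2 : (1 + η) * (1 / (1 + η)) = 1 := by field_simp
    rw [e1, e2, one_smul]
    abel
  have hinj : ∀ u ∈ U, ∀ z : Fin (m + d) → ℤ, u + zr z ∈ U → z = 0 := by
    intro u hu z hz
    obtain ⟨t, ht, hAu⟩ := hmem u hu
    obtain ⟨t', ht', hAu'⟩ := hmem _ hz
    have hAz : A (zr z) = η • (t - t') := by
      rw [map_add, hAu] at hAu'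
      rw [smul_sub]
      have : A (zr z) = y - η • (b + t') - (y - η • (b + t)) := by rw [← hAu']; abel
      rw [this, smul_add, smul_add]
      abel
    have htsub : topC d (t - t') = topC d t - topC d t' := by
      rw [eq_sub_iff_add_eq, ← topC_add, sub_add_cancel]
    obtain ⟨htop, hbot⟩ := hsep z fun k => by
      rw [hAz, topC_smul, htsub, Pi.smul_apply, Pi.sub_apply, smul_eq_mul, abs_mul, abs_of_pos hη]
      have h1 : |topC d t k - topC d t' k| ≤ 1 :=
        (abs_sub _ _).trans (by linarith [hTtop t ht k, hTtop t' ht' k])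
      nlinarith
    have heq : topC d t = topC d t' := by
      rw [hAz, topC_smul, htsub, smul_eq_zero, sub_eq_zero] at htop
      exact htop.resolve_left hη.ne'
    obtain ⟨w1, hw1, w2, hw2, hw⟩ := hTdiff t ht t' ht' heq
    refine hbot (Set.mem_smul_set.2 ⟨(1 / 2 : ℝ) • w1 + (1 / 2 : ℝ) • (-w2),
      hWc hw1 (hWsym _ hw2) (by norm_num) (by norm_num) (by norm_num), ?_⟩)
    have hbsub : botC d (t - t') = botC d t - botC d t' := by
      rw [eq_sub_iff_add_eq, ← botC_add, sub_add_cancel]
    rw [hAz, botC_smul, hbsub, hw]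
    funext l
    simp only [Pi.smul_apply, Pi.add_apply, Pi.neg_apply, Pi.sub_apply, smul_eq_mul]
    ring
  refine le_trans ?_ (volume_le_miss A hKk.measurableSet hUm hsub hinj)
  rw [hU, Measure.addHaar_preimage_linearMap _ hA, hS, measure_preimage_add, Measure.addHaar_smul,
    Module.finrank_fin_fun, abs_pow, abs_neg, abs_of_pos hη, ← mul_assoc,
    ← ENNReal.ofReal_mul (abs_nonneg _), abs_inv, inv_mul_eq_div]

end

end Vale.Agent.P230.Upper
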