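import Mathlib

/-!
P230 upper bound: integrating over `Fin (n+1) → ℝ` along the first coordinate.
-/

open MeasureTheory
open scoped ENNReal

namespace Vale.Agent.P230.Upper

noncomputable section

/-- Slice of a set at a value of the first coordinate. -/
def fsl {n : ℕ} (A : Set (Fin (n + 1) → ℝ)) (t : ℝ) : Set (Fin n → ℝ) :=
  {y | Fin.cons t y ∈ A}

lemma measurable_cons {n : ℕ} :
    Measurable fun p : ℝ × (Fin n → ℝ) => (Fin.cons p.1 p.2 : Fin (n + 1) → ℝ) := by
  refine measurable_pi_lambda _ (Fin.cases ?_ fun j => ?_)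
  · simpa using measurable_fst
  · simp only [Fin.cons_succ]; exact (measurable_pi_apply j).comp measurable_snd

lemma continuous_consR {n : ℕ} (t : ℝ) :
    Continuous fun y : Fin n → ℝ => (Fin.cons t y : Fin (n + 1) → ℝ) :=
  continuous_const.finCons continuous_id

lemma lintegral_cons {n : ℕ} {F : (Fin (n + 1) → ℝ) → ℝ≥0∞} (hF : Measurable F) :
    ∫⁻ x, F x = ∫⁻ t, ∫⁻ y : Fin n → ℝ, F (Fin.cons t y) := by
  let e := MeasurableEquiv.piFinSuccAbove (fun _ : Fin (n + 1) => ℝ) 0
  have he : MeasurePreserving e volume (volume.prod volume) :=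
    volume_preserving_piFinSuccAbove (fun _ : Fin (n + 1) => ℝ) 0
  have hesymm : ∀ t y, e.symm (t, y) = Fin.cons t y := fun t y => by
    simp [e, MeasurableEquiv.piFinSuccAbove, Fin.insertNthEquiv, Fin.insertNth_zero]
  rw [← (he.symm e).lintegral_comp hF,
    lintegral_prod (fun p => F (e.symm p)) (hF.comp e.symm.measurable).aemeasurable]
  exact lintegral_congr fun t => lintegral_congr fun y => by rw [hesymm]

lemma measurableSet_fsl {n : ℕ} {A : Set (Fin (n + 1) → ℝ)} (hA : MeasurableSet A) (t : ℝ) :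
    MeasurableSet (fsl A t) :=
  hA.preimage (continuous_consR t).measurable

lemma volume_eq_fsl {n : ℕ} {A : Set (Fin (n + 1) → ℝ)} (hA : MeasurableSet A) :
    volume A = ∫⁻ t, volume (fsl A t) := by
  rw [← lintegral_indicator_one hA, lintegral_cons (measurable_one.indicator hA)]
  refine lintegral_congr fun t => ?_
  rw [← lintegral_indicator_one (measurableSet_fsl hA t)]
  exact lintegral_congr fun y => rfl

lemma measurable_volume_fsl {n : ℕ} {A : Set (Fin (n + 1) → ℝ)} (hA : MeasurableSet A) :
    Measurable fun t => volume (fsl A t) :=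
  measurable_measure_prodMk_left (ν := (volume : Measure (Fin n → ℝ)))
    (hA.preimage measurable_cons)

lemma isBounded_fsl {n : ℕ} {A : Set (Fin (n + 1) → ℝ)} (hA : Bornology.IsBounded A) (t : ℝ) :
    Bornology.IsBounded (fsl A t) := by
  obtain ⟨R, hR⟩ := hA.exists_norm_le
  refine (isBounded_iff_forall_norm_le).2 ⟨max R 0, fun y hy => ?_⟩
  refine (pi_norm_le_iff_of_nonneg (le_max_right _ _)).2 fun i => ?_
  have h := (norm_le_pi_norm (Fin.cons t y : Fin (n + 1) → ℝ) i.succ).trans (hR _ hy)
  simpa using h.trans (le_max_left R 0)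

lemma isCompact_fsl {n : ℕ} {A : Set (Fin (n + 1) → ℝ)} (hA : IsCompact A) (t : ℝ) :
    IsCompact (fsl A t) :=
  Metric.isCompact_of_isClosed_isBounded (hA.isClosed.preimage (continuous_consR t))
    (isBounded_fsl hA.isBounded t)

end

end Vale.Agent.P230.Upper
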