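import Vale.Agent.P230.Upper.EnergyLine
import Vale.Agent.P230.Upper.Fubini

/-!
P230 upper bound: additive energy of sets in `ℝ^n` is at most `κ^n vol^3` with `κ < 1` absolute.
-/

open MeasureTheory Set
open scoped ENNReal NNReal

namespace Vale.Agent.P230.Upper

noncomputable section

lemma E4_sets_le_of_self {n : ℕ}
    (ih : ∀ A : Set (Fin n → ℝ), MeasurableSet A → Bornology.IsBounded A →
      E4 volume (A.indicator 1) (A.indicator 1) (A.indicator 1) (A.indicator 1) ≤
        (kappa : ℝ≥0∞) ^ n * volume A ^ 3)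
    {A B C D : Set (Fin n → ℝ)} (hA : MeasurableSet A) (hB : MeasurableSet B)
    (hC : MeasurableSet C) (hD : MeasurableSet D) (hA' : Bornology.IsBounded A)
    (hB' : Bornology.IsBounded B) (hC' : Bornology.IsBounded C) (hD' : Bornology.IsBounded D) :
    E4 volume (A.indicator 1) (B.indicator 1) (C.indicator 1) (D.indicator 1) ≤
      (kappa : ℝ≥0∞) ^ n * (volume A ^ (3 / 4 : ℝ) * volume B ^ (3 / 4 : ℝ) *
        (volume C ^ (3 / 4 : ℝ) * volume D ^ (3 / 4 : ℝ))) := by
  refine (ENNReal.pow_le_pow_left_iff (n := 4) (by norm_num)).1 ?_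
  refine (E4_pow_four_le (measurable_one.indicator hA) (measurable_one.indicator hB)
    (measurable_one.indicator hC) (measurable_one.indicator hD)).trans ?_
  have h4 : ∀ t : ℝ≥0∞, (t ^ (3 / 4 : ℝ)) ^ 4 = t ^ 3 := fun t => by
    rw [← ENNReal.rpow_natCast, ← ENNReal.rpow_mul, ← ENNReal.rpow_natCast]
    norm_num
  simp only [mul_pow, h4]
  calc _ ≤ ((kappa : ℝ≥0∞) ^ n * volume A ^ 3) * ((kappa : ℝ≥0∞) ^ n * volume B ^ 3) *
        (((kappa : ℝ≥0∞) ^ n * volume C ^ 3) * ((kappa : ℝ≥0∞) ^ n * volume D ^ 3)) :=
        mul_le_mul' (mul_le_mul' (ih A hA hA') (ih B hB hB'))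
          (mul_le_mul' (ih C hC hC') (ih D hD hD'))
    _ = _ := by ring

theorem energy_self : ∀ {n : ℕ} (A : Set (Fin n → ℝ)), MeasurableSet A →
    Bornology.IsBounded A →
    E4 volume (A.indicator 1) (A.indicator 1) (A.indicator 1) (A.indicator 1) ≤
      (kappa : ℝ≥0∞) ^ n * volume A ^ 3 := by
  intro n
  induction n with
  | zero =>
    intro A _ _
    rcases A.eq_empty_or_nonempty with rfl | ⟨a, ha⟩
    · simp [E4, cv]
    · have : A = univ := eq_univ_of_forall fun x => Subsingleton.elim a x ▸ ha
      subst this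
      simp [E4, cv, MeasureTheory.volume_pi]
  | succ n ih =>
    intro A hA hAb
    set f : (Fin (n + 1) → ℝ) → ℝ≥0∞ := A.indicator 1 with hf
    have hfm : Measurable f := measurable_one.indicator hA
    set w : ℝ → ℝ := fun t => (volume (fsl A t)).toReal ^ (3 / 4 : ℝ) with hw
    set W : ℝ → ℝ≥0∞ := fun t => ENNReal.ofReal (w t) with hW
    have hWm : Measurable W :=
      (((measurable_volume_fsl hA).ennreal_toReal).pow_const _).ennreal_ofReal
    have hfin : ∀ t, volume (fsl A t) ≠ ⊤ := fun t => (isBounded_fsl hAb t).measure_lt_top.ne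
    have hWeq : ∀ t, W t = volume (fsl A t) ^ (3 / 4 : ℝ) := fun t => by
      rw [hW, hw]
      dsimp only
      rw [← ENNReal.ofReal_rpow_of_nonneg ENNReal.toReal_nonneg (by norm_num),
        ENNReal.ofReal_toReal (hfin t)]
    set g : ℝ → ℝ → (Fin n → ℝ) → ℝ≥0∞ :=
      fun s r => cv volume ((fsl A r).indicator 1) ((fsl A (s - r)).indicator 1) with hg
    have hcv : ∀ s y, cv volume f f (Fin.cons s y) = ∫⁻ r, g s r y := fun s y => by
      rw [cv, lintegral_cons (by fun_prop)]
      refine lintegral_congr fun r => lintegral_congr fun a => ?_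
      have he : (Fin.cons s y : Fin (n + 1) → ℝ) - Fin.cons r a = Fin.cons (s - r) (y - a) := by
        funext i; refine Fin.cases ?_ (fun j => ?_) i <;> simp
      rw [he]
      rfl
    have hgm : ∀ s, Measurable fun p : (Fin n → ℝ) × ℝ => g s p.2 p.1 := fun s => by
      have : Measurable fun q : ((Fin n → ℝ) × ℝ) × (Fin n → ℝ) =>
          f (Fin.cons q.1.2 q.2) * f (Fin.cons (s - q.1.2) (q.1.1 - q.2)) := by
        refine Measurable.mul ?_ ?_
        · exact hfm.comp (measurable_cons.comp
            ((measurable_snd.comp measurable_fst).prodMk measurable_snd))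
        · exact hfm.comp (measurable_cons.comp
            (((measurable_snd.comp measurable_fst).const_sub s).prodMk
              ((measurable_fst.comp measurable_fst).sub measurable_snd)))
      exact Measurable.lintegral_prod_right' this
    have hinner : ∀ s r r', ∫⁻ y, g s r y * g s r' y ≤
        (kappa : ℝ≥0∞) ^ n * (W r * W (s - r) * (W r' * W (s - r'))) := fun s r r' => by
      simp only [hWeq]
      exact E4_sets_le_of_self ih (measurableSet_fsl hA _) (measurableSet_fsl hA _)
        (measurableSet_fsl hA _) (measurableSet_fsl hA _) (isBounded_fsl hAb _)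
        (isBounded_fsl hAb _) (isBounded_fsl hAb _) (isBounded_fsl hAb _)
    have hs : ∀ s, ∫⁻ y, cv volume f f (Fin.cons s y) * cv volume f f (Fin.cons s y) ≤
        (kappa : ℝ≥0∞) ^ n * (cv volume W W s * cv volume W W s) := fun s => by
      have hgr : ∀ r, Measurable (g s r) := fun r => (hgm s).comp measurable_prodMk_right
      simp only [hcv]
      calc ∫⁻ y, (∫⁻ r, g s r y) * ∫⁻ r, g s r y
          = ∫⁻ y, ∫⁻ r, g s r y * ∫⁻ r', g s r' y := by
            refine lintegral_congr fun y => ?_
            have hy : Measurable fun r => g s r y := (hgm s).comp measurable_prodMk_left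
            rw [lintegral_mul_const _ hy]
        _ = ∫⁻ r, ∫⁻ y, g s r y * ∫⁻ r', g s r' y :=
            lintegral_lintegral_swap ((hgm s).mul
              ((hgm s).lintegral_prod_right'.comp measurable_fst)).aemeasurable
        _ = ∫⁻ r, ∫⁻ r', ∫⁻ y, g s r y * g s r' y := by
            refine lintegral_congr fun r => ?_
            rw [← lintegral_lintegral_swap
              (((hgr r).comp measurable_fst).mul (hgm s)).aemeasurable]
            refine lintegral_congr fun y => ?_
            exact (lintegral_const_mul _ ((hgm s).comp measurable_prodMk_left)).symm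
        _ ≤ ∫⁻ r, ∫⁻ r', (kappa : ℝ≥0∞) ^ n * (W r * W (s - r) * (W r' * W (s - r'))) :=
            lintegral_mono fun r => lintegral_mono fun r' => hinner s r r'
        _ = _ := by
            have h1 : ∀ r, ∫⁻ r', (kappa : ℝ≥0∞) ^ n * (W r * W (s - r) * (W r' * W (s - r'))) =
                (kappa : ℝ≥0∞) ^ n * (W r * W (s - r) * cv volume W W s) := fun r => by
              rw [lintegral_const_mul _ (by fun_prop), lintegral_const_mul _ (by fun_prop)]
              rfl
            simp only [h1]
            rw [lintegral_const_mul _ (by fun_prop), lintegral_mul_const _ (by fun_prop)]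
            rfl
    have hV : ∫⁻ t, ENNReal.ofReal (w t ^ (4 / 3 : ℝ)) = volume A := by
      rw [volume_eq_fsl hA]
      refine lintegral_congr fun t => ?_
      rw [hw]
      dsimp only
      rw [← Real.rpow_mul ENNReal.toReal_nonneg, show (3 / 4 : ℝ) * (4 / 3) = 1 by norm_num,
        Real.rpow_one, ENNReal.ofReal_toReal (hfin t)]
    calc E4 volume f f f f
        = ∫⁻ s, ∫⁻ y, cv volume f f (Fin.cons s y) * cv volume f f (Fin.cons s y) :=
          lintegral_cons ((measurable_cv hfm hfm).mul (measurable_cv hfm hfm))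
      _ ≤ ∫⁻ s, (kappa : ℝ≥0∞) ^ n * (cv volume W W s * cv volume W W s) := lintegral_mono hs
      _ = (kappa : ℝ≥0∞) ^ n * E4 volume W W W W := by
          have hm : Measurable fun s => cv volume W W s * cv volume W W s :=
            (measurable_cv hWm hWm).mul (measurable_cv hWm hWm)
          rw [lintegral_const_mul _ hm]; rfl
      _ ≤ (kappa : ℝ≥0∞) ^ n * (kappa * volume A ^ 3) := by
          gcongr
          rw [← hV]
          exact line_energy w (((measurable_volume_fsl hA).ennreal_toReal).pow_const _)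
            fun t => Real.rpow_nonneg ENNReal.toReal_nonneg _
      _ = _ := by rw [pow_succ]; ring

/-- Four sets of volume at most `V`. -/
theorem energy_four {n : ℕ} {A B C D : Set (Fin n → ℝ)} (hA : MeasurableSet A)
    (hB : MeasurableSet B) (hC : MeasurableSet C) (hD : MeasurableSet D)
    (hA' : Bornology.IsBounded A) (hB' : Bornology.IsBounded B) (hC' : Bornology.IsBounded C)
    (hD' : Bornology.IsBounded D) {V : ℝ≥0∞} (h1 : volume A ≤ V) (h2 : volume B ≤ V)
    (h3 : volume C ≤ V) (h4 : volume D ≤ V) :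
    ∫⁻ a, ∫⁻ b, ∫⁻ c, A.indicator 1 a * B.indicator 1 b *
      (C.indicator 1 c * D.indicator 1 (a + b - c)) ≤ (kappa : ℝ≥0∞) ^ n * V ^ 3 := by
  rw [← E4_eq (measurable_one.indicator hA) (measurable_one.indicator hB)
    (measurable_one.indicator hC) (measurable_one.indicator hD)]
  refine (E4_sets_le_of_self energy_self hA hB hC hD hA' hB' hC' hD').trans ?_
  calc _ ≤ (kappa : ℝ≥0∞) ^ n * (V ^ (3 / 4 : ℝ) * V ^ (3 / 4 : ℝ) *
        (V ^ (3 / 4 : ℝ) * V ^ (3 / 4 : ℝ))) := by gcongr
    _ = _ := by
      congr 1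
      rw [← ENNReal.rpow_add_of_nonneg _ _ (by norm_num) (by norm_num),
        ← ENNReal.rpow_add_of_nonneg _ _ (by norm_num) (by norm_num), ← ENNReal.rpow_natCast]
      norm_num

end

end Vale.Agent.P230.Upper
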