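import Vale.Agent.P230.Upper.Conv

/-!
P230 upper bound: a strict Young inequality `‖w ∗ w‖₂² ≤ κ ‖w‖_{4/3}^4` on the line, `κ < 1`.
-/

open MeasureTheory Filter Topology Set
open scoped ENNReal NNReal

namespace Vale.Agent.P230.Upper

noncomputable section

/-- The absolute constant `1 - 2^(-23)`. -/
def kappa : ℝ≥0 := 1 - (2 : ℝ≥0)⁻¹ ^ 23

lemma kappa_lt_one : kappa < 1 :=
  tsub_lt_self one_pos (by positivity)

lemma half_le_kappa : (2 : ℝ≥0)⁻¹ ≤ kappa := by
  rw [kappa, le_tsub_iff_right (pow_le_one₀ zero_le (by norm_num))]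
  rw [← NNReal.coe_le_coe]
  push_cast
  norm_num

lemma kappa_pos : 0 < kappa := lt_of_lt_of_le (by positivity) half_le_kappa

/-- Quantiles of a probability measure on the line. -/
lemma exists_quantile (ν : Measure ℝ) [IsProbabilityMeasure ν] {e : ℝ≥0∞} (he0 : 0 < e)
    (he1 : e < 1) : ∃ q : ℝ, e ≤ ν (Iic q) ∧ ν (Iio q) ≤ e := by
  set S := {t : ℝ | e ≤ ν (Iic t)} with hS
  have hne : S.Nonempty := by
    have h := tendsto_measure_Iic_atTop ν
    rw [measure_univ] at h
    obtain ⟨t, ht⟩ := (h.eventually (lt_mem_nhds he1)).exists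
    exact ⟨t, ht.le⟩
  have hbd : BddBelow S := by
    have h : Tendsto (fun t => ν (Iic t)) atBot (𝓝 0) := by
      simp_rw [← ProbabilityTheory.ofReal_cdf]
      simpa using ENNReal.tendsto_ofReal (ProbabilityTheory.tendsto_cdf_atBot ν)
    obtain ⟨t, ht⟩ := eventually_atBot.1 (h.eventually (gt_mem_nhds he0))
    exact ⟨t, fun s hs => le_of_not_gt fun hst => absurd hs (not_le.2 (ht s hst.le))⟩
  refine ⟨sInf S, ?_, ?_⟩
  · set q := sInf S
    have hmem : ∀ n : ℕ, e ≤ ν (Iic (q + 1 / (n + 1))) := fun n => by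
      obtain ⟨s, hs, hsq⟩ := exists_lt_of_csInf_lt hne
        (show q < q + 1 / ((n : ℝ) + 1) by simp; positivity)
      exact le_trans hs (measure_mono (Iic_subset_Iic.2 hsq.le))
    have heq : Iic q = ⋂ n : ℕ, Iic (q + 1 / ((n : ℝ) + 1)) := by
      ext x
      simp only [mem_Iic, mem_iInter]
      refine ⟨fun h n => h.trans (by simp; positivity), fun h => le_of_forall_pos_lt_add ?_⟩
      intro d hd
      obtain ⟨n, hn⟩ := exists_nat_one_div_lt hd
      linarith [h n]
    rw [heq, Antitone.measure_iInter (fun a b hab => Iic_subset_Iic.2 (by gcongr))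
      (fun n => measurableSet_Iic.nullMeasurableSet) ⟨0, measure_ne_top _ _⟩]
    exact le_iInf hmem
  · set q := sInf S
    have heq : Iio q = ⋃ n : ℕ, Iic (q - 1 / ((n : ℝ) + 1)) := by
      ext x
      simp only [mem_Iio, mem_iUnion, mem_Iic]
      refine ⟨fun h => ?_, fun ⟨n, hn⟩ => lt_of_le_of_lt hn (by simp; positivity)⟩
      obtain ⟨n, hn⟩ := exists_nat_one_div_lt (sub_pos.2 h)
      exact ⟨n, by linarith⟩
    rw [heq, Monotone.measure_iUnion fun a b hab => Iic_subset_Iic.2 (by gcongr)]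
    refine iSup_le fun n => le_of_not_gt fun hlt => ?_
    have := csInf_le hbd (show q - 1 / ((n : ℝ) + 1) ∈ S from hlt.le)
    have : (0 : ℝ) < 1 / ((n : ℝ) + 1) := by positivity
    linarith

lemma ofReal_sq_eq {x : ℝ} (hx : 0 ≤ x) : ENNReal.ofReal x ^ 2 = ENNReal.ofReal (x ^ 2) :=
  (ENNReal.ofReal_pow hx 2).symm

lemma sq_sub_identity {p q : ℝ} (hp : 0 ≤ p) (hq : 0 ≤ q) :
    ENNReal.ofReal ((p - q) ^ 2) + 2 * (ENNReal.ofReal p * ENNReal.ofReal q) =
      ENNReal.ofReal (p ^ 2) + ENNReal.ofReal (q ^ 2) := by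
  rw [← ENNReal.ofReal_mul hp, ← ENNReal.ofReal_ofNat 2, ← ENNReal.ofReal_mul zero_le_two,
    ← ENNReal.ofReal_add (sq_nonneg _) (by positivity),
    ← ENNReal.ofReal_add (sq_nonneg _) (sq_nonneg _)]
  congr 1
  ring

lemma cross_le {h : ℝ → ℝ≥0∞} (hh : Measurable h) (h1 : ∫⁻ a, h a ^ 2 = 1) (D : ℝ) {T : Set ℝ}
    (hTe : ∫⁻ a in T, h a ^ 2 ≤ 16⁻¹) :
    ∫⁻ a in T, h a * h (a + D) ≤ 4⁻¹ := by
  have h2 := cs_sq (volume.restrict T) (f := h) (g := fun a => h (a + D)) hh.aemeasurable
    (hh.comp (measurable_add_const D)).aemeasurable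
  have h3 : ∫⁻ a in T, h (a + D) ^ 2 ≤ 1 := by
    refine (setLIntegral_le_lintegral _ _).trans_eq ?_
    rw [lintegral_add_right_eq_self (fun a => h a ^ 2) D, h1]
  have h4 : (∫⁻ a in T, h a * h (a + D)) ^ 2 ≤ (4⁻¹ : ℝ≥0∞) ^ 2 :=
    calc _ ≤ _ := h2
      _ ≤ 16⁻¹ * 1 := mul_le_mul' hTe h3
      _ = _ := by rw [mul_one, sq, ← ENNReal.mul_inv (by simp) (by simp)]; norm_num
  exact (ENNReal.pow_le_pow_left_iff two_ne_zero).1 h4

/-- The normalised line inequality. -/
lemma line_energy_normalised {h : ℝ → ℝ} (hh : Measurable h) (h0 : ∀ a, 0 ≤ h a)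
    (h1 : ∫⁻ a, ENNReal.ofReal (h a ^ 2) = 1) :
    ∫⁻ a, ∫⁻ b, ENNReal.ofReal (h a ^ 2) * ENNReal.ofReal (h b ^ 2) *
      (∫⁻ c, ENNReal.ofReal (h c) * ENNReal.ofReal (h (a + b - c))) ≤ kappa := by
  set H : ℝ → ℝ≥0∞ := fun a => ENNReal.ofReal (h a) with hH
  set v : ℝ → ℝ≥0∞ := fun a => ENNReal.ofReal (h a ^ 2) with hv
  have hHm : Measurable H := hh.ennreal_ofReal
  have hvm : Measurable v := (hh.pow_const 2).ennreal_ofReal
  have hHv : ∀ a, H a ^ 2 = v a := fun a => ofReal_sq_eq (h0 a)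
  set A : ℝ → ℝ≥0∞ := fun x => ∫⁻ c, H c * H (x - c) with hA
  set Q : ℝ → ℝ≥0∞ := fun x => ∫⁻ c, ENNReal.ofReal ((h c - h (x - c)) ^ 2) with hQ
  have hAm : Measurable A := measurable_cv (μ := volume) hHm hHm
  have hQm : Measurable Q := Measurable.lintegral_prod_right'
    (f := fun p : ℝ × ℝ => ENNReal.ofReal ((h p.2 - h (p.1 - p.2)) ^ 2)) (by fun_prop)
  have hQA : ∀ x, Q x + 2 * A x = 2 := fun x => by
    rw [hQ, hA]
    dsimp only
    rw [← lintegral_const_mul _ (by fun_prop : Measurable fun c => H c * H (x - c)),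
      ← lintegral_add_left (by fun_prop),
      lintegral_congr fun c => sq_sub_identity (h0 c) (h0 (x - c)),
      lintegral_add_left (by fun_prop),
      lintegral_sub_left_eq_self (fun c => ENNReal.ofReal (h c ^ 2)) x, h1]
    norm_num
  -- the probability measure with density `h²`
  set ν : Measure ℝ := volume.withDensity v with hν
  have : IsProbabilityMeasure ν := ⟨by rw [hν, withDensity_apply _ MeasurableSet.univ,
    Measure.restrict_univ, h1]⟩
  have : NullSingletonClass ν := by rw [hν]; infer_instance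
  obtain ⟨lo, hlo, hlo'⟩ := exists_quantile ν (e := 32⁻¹) (by simp) (by norm_num)
  obtain ⟨hi, hhi, hhi'⟩ := exists_quantile ν (e := 1 - 32⁻¹) (by norm_num)
    (ENNReal.sub_lt_self (by simp) (by simp) (by simp))
  have hIci : (32 : ℝ≥0∞)⁻¹ ≤ ν (Ici hi) := by
    have h2 : ν (Iio hi) + ν (Ici hi) = 1 := by
      rw [← compl_Iio, measure_add_measure_compl measurableSet_Iio, measure_univ]
    by_contra hcon
    push Not at hcon
    have : ν (Iio hi) + ν (Ici hi) < 1 := by
      calc ν (Iio hi) + ν (Ici hi) < (1 - 32⁻¹) + 32⁻¹ :=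
            ENNReal.add_lt_add_of_le_of_lt (measure_ne_top _ _) hhi' hcon
        _ = 1 := tsub_add_cancel_of_le (by norm_num)
    exact this.ne h2
  have hIoi : ν (Ioi hi) ≤ 32⁻¹ := by
    rw [← compl_Iic, measure_compl measurableSet_Iic (measure_ne_top _ _), measure_univ]
    calc 1 - ν (Iic hi) ≤ 1 - (1 - 32⁻¹) := tsub_le_tsub_left hhi _
      _ = _ := ENNReal.sub_sub_cancel ENNReal.one_ne_top (by norm_num)
  set T := (Icc lo hi)ᶜ with hT
  have hTle : ∫⁻ a in T, H a ^ 2 ≤ 16⁻¹ := by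
    simp only [hHv]
    rw [← withDensity_apply v measurableSet_Icc.compl, ← hν]
    calc ν T ≤ ν (Iio lo ∪ Ioi hi) := measure_mono fun a ha => by
          simp only [hT, mem_compl_iff, mem_Icc, not_and_or, not_le] at ha
          exact ha
      _ ≤ ν (Iio lo) + ν (Ioi hi) := measure_union_le _ _
      _ ≤ 32⁻¹ + 32⁻¹ := add_le_add hlo' hIoi
      _ = _ := by
        rw [← two_mul, show (32 : ℝ≥0∞) = 2 * 16 by norm_num,
          ENNReal.mul_inv (by simp) (by simp), ← mul_assoc,
          ENNReal.mul_inv_cancel (by simp) (by simp), one_mul]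
  have hlt : lo < hi := by
    by_contra hcon
    push Not at hcon
    have h2 : ν univ ≤ ν (Iio lo ∪ Ioi hi ∪ {lo}) := measure_mono fun a _ => by
      rcases lt_trichotomy a lo with h | h | h
      · exact Or.inl (Or.inl h)
      · exact Or.inr h
      · exact Or.inl (Or.inr (lt_of_le_of_lt hcon h))
    have h3 : ν univ ≤ 32⁻¹ + 32⁻¹ + 0 :=
      h2.trans ((measure_union_le _ _).trans (add_le_add ((measure_union_le _ _).trans
        (add_le_add hlo' hIoi)) (measure_singleton lo).le))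
    rw [measure_univ] at h3
    exact absurd h3 (by
      rw [not_le, add_zero, ← ENNReal.toReal_lt_toReal (by simp) ENNReal.one_ne_top,
        ENNReal.toReal_add (by simp) (by simp)]
      norm_num)
  set Q0 : ℝ → ℝ → ℝ≥0∞ :=
    fun x x' => ∫⁻ c, ENNReal.ofReal ((h (x - c) - h (x' - c)) ^ 2) with hQ0
  have hQ0le : ∀ x x', Q0 x x' ≤ 2 * Q x + 2 * Q x' := fun x x' => by
    rw [hQ0, hQ]
    dsimp only
    rw [← lintegral_const_mul _ (by fun_prop), ← lintegral_const_mul _ (by fun_prop),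
      ← lintegral_add_left (by fun_prop)]
    refine lintegral_mono fun c => ?_
    rw [← ENNReal.ofReal_ofNat 2, ← ENNReal.ofReal_mul zero_le_two,
      ← ENNReal.ofReal_mul zero_le_two, ← ENNReal.ofReal_add (by positivity) (by positivity)]
    exact ENNReal.ofReal_le_ofReal
      (by nlinarith [sq_nonneg (h c - h (x - c) + (h c - h (x' - c)))])
  have hQ0ge : ∀ x x', 2 * (hi - lo) ≤ x - x' → 1 ≤ Q0 x x' := fun x x' hD => by
    have hsum : Q0 x x' + 2 * ∫⁻ c, H (x - c) * H (x' - c) = 2 := by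
      rw [hQ0]
      dsimp only
      rw [← lintegral_const_mul _ (by fun_prop : Measurable fun c => H (x - c) * H (x' - c)),
        ← lintegral_add_left (by fun_prop),
        lintegral_congr fun c => sq_sub_identity (h0 (x - c)) (h0 (x' - c)),
        lintegral_add_left (by fun_prop),
        lintegral_sub_left_eq_self (fun c => ENNReal.ofReal (h c ^ 2)) x,
        lintegral_sub_left_eq_self (fun c => ENNReal.ofReal (h c ^ 2)) x', h1]
      norm_num
    set D := x - x' with hDdef
    have hA0 : ∫⁻ c, H (x - c) * H (x' - c) = ∫⁻ a, H a * H (a + D) := by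
      rw [← lintegral_sub_left_eq_self _ x']
      refine lintegral_congr fun a => ?_
      rw [mul_comm]
      congr 2
      · ring
      · rw [hDdef]; ring
    have hhalf : ∫⁻ a, H a * H (a + D) ≤ 2⁻¹ := by
      have hsh : ∫⁻ a in (fun a => a + D) ⁻¹' T, H a * H (a + D) =
          ∫⁻ a in T, H a * H (a + (-D)) := by
        rw [← (measurePreserving_add_right volume D).setLIntegral_comp_preimage
          (s := T) measurableSet_Icc.compl
          (by fun_prop : Measurable fun a => H a * H (a + (-D)))]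
        refine lintegral_congr fun a => ?_
        simp only [add_neg_cancel_right]
        exact mul_comm _ _
      calc ∫⁻ a, H a * H (a + D) = ∫⁻ a in T ∪ (fun a => a + D) ⁻¹' T, H a * H (a + D) := by
            rw [show T ∪ (fun a => a + D) ⁻¹' T = univ from eq_univ_of_forall fun a => by
              simp only [hT, mem_union, mem_compl_iff, mem_Icc, mem_preimage]
              by_contra hcon
              push Not at hcon
              obtain ⟨⟨p, q⟩, r, s⟩ := hcon
              linarith, setLIntegral_univ]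
        _ ≤ _ + _ := lintegral_union_le _ _ _
        _ ≤ 4⁻¹ + 4⁻¹ := by
            refine add_le_add ?_ ?_
            · exact cross_le hHm (by simpa only [hHv] using h1) D hTle
            · rw [hsh]
              exact cross_le hHm (by simpa only [hHv] using h1) (-D) hTle
        _ = _ := by
          rw [← two_mul, show (4 : ℝ≥0∞) = 2 * 2 by norm_num,
            ENNReal.mul_inv (by simp) (by simp), ← mul_assoc,
            ENNReal.mul_inv_cancel (by simp) (by simp), one_mul]
    rw [hA0] at hsum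
    by_contra hcon
    push Not at hcon
    have h2 : Q0 x x' + 2 * ∫⁻ a, H a * H (a + D) < 1 + 1 :=
      ENNReal.add_lt_add_of_lt_of_le (ne_top_of_le_ne_top ENNReal.one_ne_top
        ((mul_le_mul' le_rfl hhalf).trans (by rw [ENNReal.mul_inv_cancel (by simp) (by simp)])))
        hcon ((mul_le_mul' le_rfl hhalf).trans
          (by rw [ENNReal.mul_inv_cancel (by simp) (by simp)]))
    rw [hsum] at h2
    norm_num at h2
  -- expectations
  set EQ := ∫⁻ a, ∫⁻ b, Q (a + b) ∂ν ∂ν with hEQ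
  set EA := ∫⁻ a, ∫⁻ b, A (a + b) ∂ν ∂ν with hEA
  have hEsum : EQ + 2 * EA = 2 := by
    rw [hEQ, hEA, ← lintegral_const_mul _
      (Measurable.lintegral_prod_right' (f := fun p : ℝ × ℝ => A (p.1 + p.2)) (by fun_prop)),
      ← lintegral_add_left
      (Measurable.lintegral_prod_right' (f := fun p : ℝ × ℝ => Q (p.1 + p.2)) (by fun_prop))]
    have hin : ∀ a, (∫⁻ b, Q (a + b) ∂ν) + 2 * ∫⁻ b, A (a + b) ∂ν = 2 := fun a => by
      rw [← lintegral_const_mul _ (by fun_prop : Measurable fun b => A (a + b)),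
        ← lintegral_add_left (by fun_prop : Measurable fun b => Q (a + b))]
      simp [hQA]
    simp [hin]
  have hlow : (32⁻¹ : ℝ≥0∞) ^ 4 ≤ 4 * EQ := by
    set F : ℝ → ℝ → ℝ≥0∞ := fun a b => ∫⁻ c, ∫⁻ d, Q0 (a + b) (c + d) ∂ν ∂ν with hF
    have hub : ∀ a b, F a b ≤ 2 * Q (a + b) + 2 * EQ := fun a b => by
      refine (lintegral_mono fun c => lintegral_mono fun d => hQ0le _ _).trans_eq ?_
      have : ∀ c, ∫⁻ d, (2 * Q (a + b) + 2 * Q (c + d)) ∂ν =
          2 * Q (a + b) + 2 * ∫⁻ d, Q (c + d) ∂ν := fun c => by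
        rw [lintegral_add_left measurable_const, lintegral_const, measure_univ, mul_one,
          lintegral_const_mul _ (by fun_prop : Measurable fun d => Q (c + d))]
      simp only [this]
      rw [lintegral_add_left measurable_const, lintegral_const, measure_univ, mul_one,
        lintegral_const_mul _
          (Measurable.lintegral_prod_right' (f := fun p : ℝ × ℝ => Q (p.1 + p.2)) (by fun_prop))]
    have hlb : ∀ a ∈ Ici hi, ∀ b ∈ Ici hi, (32⁻¹ : ℝ≥0∞) ^ 2 ≤ F a b := fun a ha b hb => by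
      calc (32⁻¹ : ℝ≥0∞) ^ 2 ≤ ν (Iic lo) * ν (Iic lo) := by rw [sq]; exact mul_le_mul' hlo hlo
        _ = ∫⁻ c in Iic lo, ν (Iic lo) ∂ν := by rw [setLIntegral_const, mul_comm]
        _ ≤ ∫⁻ c in Iic lo, ∫⁻ d, Q0 (a + b) (c + d) ∂ν ∂ν := by
            refine setLIntegral_mono' measurableSet_Iic fun c hc => ?_
            calc ν (Iic lo) = ∫⁻ d in Iic lo, 1 ∂ν := (setLIntegral_one _).symm
              _ ≤ ∫⁻ d in Iic lo, Q0 (a + b) (c + d) ∂ν := by
                refine setLIntegral_mono' measurableSet_Iic fun d hd => hQ0ge _ _ ?_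
                simp only [mem_Ici, mem_Iic] at ha hb hc hd
                linarith
              _ ≤ _ := setLIntegral_le_lintegral _ _
        _ ≤ _ := setLIntegral_le_lintegral _ _
    calc (32⁻¹ : ℝ≥0∞) ^ 4 = 32⁻¹ * 32⁻¹ * 32⁻¹ ^ 2 := by ring
      _ ≤ ν (Ici hi) * ν (Ici hi) * 32⁻¹ ^ 2 := by gcongr
      _ = ∫⁻ a in Ici hi, ν (Ici hi) * 32⁻¹ ^ 2 ∂ν := by rw [setLIntegral_const]; ring
      _ ≤ ∫⁻ a in Ici hi, ∫⁻ b, F a b ∂ν ∂ν := by
          refine setLIntegral_mono' measurableSet_Ici fun a ha => ?_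
          calc ν (Ici hi) * 32⁻¹ ^ 2 = ∫⁻ b in Ici hi, 32⁻¹ ^ 2 ∂ν := by
                rw [setLIntegral_const, mul_comm]
            _ ≤ ∫⁻ b in Ici hi, F a b ∂ν :=
                setLIntegral_mono' measurableSet_Ici fun b hb => hlb a ha b hb
            _ ≤ _ := setLIntegral_le_lintegral _ _
      _ ≤ ∫⁻ a, ∫⁻ b, F a b ∂ν ∂ν := setLIntegral_le_lintegral _ _
      _ ≤ ∫⁻ a, ∫⁻ b, (2 * Q (a + b) + 2 * EQ) ∂ν ∂ν :=
          lintegral_mono fun a => lintegral_mono fun b => hub a b
      _ = 4 * EQ := by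
          have : ∀ a, ∫⁻ b, (2 * Q (a + b) + 2 * EQ) ∂ν =
              2 * ∫⁻ b, Q (a + b) ∂ν + 2 * EQ := fun a => by
            rw [lintegral_add_right _ measurable_const, lintegral_const, measure_univ, mul_one,
              lintegral_const_mul _ (by fun_prop : Measurable fun b => Q (a + b))]
          simp only [this]
          rw [lintegral_add_right _ measurable_const, lintegral_const, measure_univ, mul_one,
            lintegral_const_mul _
              (Measurable.lintegral_prod_right' (f := fun p : ℝ × ℝ => Q (p.1 + p.2)) (by fun_prop)),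
            ← hEQ]
          ring
  have hgoal : EA = ∫⁻ a, ∫⁻ b, v a * v b * A (a + b) := by
    rw [hEA, hν, lintegral_withDensity_eq_lintegral_mul _ hvm
      (Measurable.lintegral_prod_right' (f := fun p : ℝ × ℝ => A (p.1 + p.2)) (by fun_prop))]
    refine lintegral_congr fun a => ?_
    simp only [Pi.mul_apply]
    rw [lintegral_withDensity_eq_lintegral_mul _ hvm (by fun_prop : Measurable fun b => A (a + b))]
    simp only [Pi.mul_apply]
    rw [
      ← lintegral_const_mul _ (by fun_prop : Measurable fun b => v b * A (a + b))]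
    exact lintegral_congr fun b => by simp [mul_assoc]
  rw [← hgoal]
  have hEA2 : EA ≠ ⊤ := by
    intro htop
    rw [htop] at hEsum
    simp at hEsum
  have hEQ2 : EQ ≠ ⊤ := by
    intro htop
    rw [htop] at hEsum
    simp at hEsum
  have h2 := congrArg ENNReal.toReal hEsum
  have h3 := ENNReal.toReal_mono (by simp [hEQ2, ENNReal.mul_eq_top]) hlow
  rw [ENNReal.toReal_add hEQ2 (by simp [hEA2, ENNReal.mul_eq_top]), ENNReal.toReal_mul] at h2
  simp only [ENNReal.toReal_mul, ENNReal.toReal_pow, ENNReal.toReal_inv,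
    ENNReal.toReal_ofNat] at h2 h3
  rw [← ENNReal.ofReal_toReal hEA2, ← ENNReal.ofReal_coe_nnreal]
  apply ENNReal.ofReal_le_ofReal
  rw [kappa, NNReal.coe_sub (pow_le_one₀ zero_le (by norm_num))]
  push_cast
  norm_num at h3 ⊢
  linarith

/-- The line inequality. -/
theorem line_energy (w : ℝ → ℝ) (hw : Measurable w) (hw0 : ∀ a, 0 ≤ w a) :
    E4 volume (fun a => ENNReal.ofReal (w a)) (fun a => ENNReal.ofReal (w a))
      (fun a => ENNReal.ofReal (w a)) (fun a => ENNReal.ofReal (w a)) ≤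
      kappa * (∫⁻ a, ENNReal.ofReal (w a ^ (4 / 3 : ℝ))) ^ 3 := by
  set N := ∫⁻ a, ENNReal.ofReal (w a ^ (4 / 3 : ℝ)) with hN
  rcases eq_or_ne N ⊤ with hNt | hNt
  · rw [hNt]
    simp [kappa_pos.ne']
  set W : ℝ → ℝ≥0∞ := fun a => ENNReal.ofReal (w a) with hW
  have hWm : Measurable W := hw.ennreal_ofReal
  rcases eq_or_ne N 0 with hN0 | hN0
  · have h2 : W =ᵐ[volume] 0 := by
      have := (lintegral_eq_zero_iff (by fun_prop)).1 hN0
      filter_upwards [this] with a ha
      simp only [Pi.zero_apply, ENNReal.ofReal_eq_zero] at ha ⊢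
      simp only [hW, ENNReal.ofReal_eq_zero]
      by_contra hcon
      push Not at hcon
      linarith [Real.rpow_pos_of_pos hcon (4 / 3 : ℝ)]
    have h3 : ∀ x, cv volume W W x = 0 := fun x => by
      rw [cv]
      exact (lintegral_congr_ae (h2.mono fun a ha => by rw [ha]; simp)).trans lintegral_zero
    simp [E4, h3]
  set r := N.toReal with hr
  have hr0 : 0 < r := ENNReal.toReal_pos hN0 hNt
  set h : ℝ → ℝ := fun a => Real.sqrt (w a ^ (4 / 3 : ℝ) / r) with hh
  have hhm : Measurable h := ((hw.pow_const _).div_const _).sqrt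
  have hsq : ∀ a, h a ^ 2 = w a ^ (4 / 3 : ℝ) / r := fun a =>
    Real.sq_sqrt (div_nonneg (Real.rpow_nonneg (hw0 a) _) hr0.le)
  have h1 : ∫⁻ a, ENNReal.ofReal (h a ^ 2) = 1 := by
    simp only [hsq, ENNReal.ofReal_div_of_pos hr0]
    simp only [div_eq_mul_inv (G := ℝ≥0∞)]
    rw [lintegral_mul_const _ (by fun_prop), ← hN, hr, ENNReal.ofReal_toReal hNt,
      ENNReal.mul_inv_cancel hN0 hNt]
  have key := line_energy_normalised hhm (fun a => Real.sqrt_nonneg _) h1
  set V : ℝ → ℝ≥0∞ := fun a => ENNReal.ofReal (w a ^ (4 / 3 : ℝ)) with hV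
  set B : ℝ → ℝ≥0∞ := fun a => ENNReal.ofReal (w a ^ (2 / 3 : ℝ)) with hB
  have hVm : Measurable V := by fun_prop
  have hBm : Measurable B := by fun_prop
  have hpt : ∀ a b, (W a * W b) ^ 2 = (V a * V b) * (B a * B b) := fun a b => by
    have : ∀ a, W a ^ 2 = V a * B a := fun a => by
      rw [hW, hV, hB]
      dsimp only
      rw [ofReal_sq_eq (hw0 a), ← ENNReal.ofReal_mul (Real.rpow_nonneg (hw0 a) _),
        ← Real.rpow_add' (hw0 a) (by norm_num), show (4 / 3 + 2 / 3 : ℝ) = ((2 : ℕ) : ℝ) by norm_num,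
        Real.rpow_natCast]
    rw [mul_pow, this, this]
    ring
  have hcs : ∀ x, cv volume W W x * cv volume W W x ≤ cv volume V V x * cv volume B B x := by
    intro x
    have h2 := cs_sq volume (f := fun a => (V a * V (x - a)) ^ (1 / 2 : ℝ))
      (g := fun a => (B a * B (x - a)) ^ (1 / 2 : ℝ)) (by fun_prop) (by fun_prop)
    have e1 : ∀ t : ℝ≥0∞, (t ^ (1 / 2 : ℝ)) ^ 2 = t := fun t => by
      rw [← ENNReal.rpow_natCast, ← ENNReal.rpow_mul]; norm_num
    simp only [e1] at h2
    rw [← sq]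
    refine le_of_eq_of_le ?_ h2
    congr 1
    refine lintegral_congr fun a => ?_
    rw [← ENNReal.mul_rpow_of_nonneg _ _ (by norm_num : (0 : ℝ) ≤ 1 / 2), ← hpt,
      ← ENNReal.rpow_natCast, ← ENNReal.rpow_mul]
    norm_num
  calc E4 volume W W W W ≤ E4 volume V V B B := lintegral_mono hcs
    _ = ENNReal.ofReal (r ^ 3) * ∫⁻ a, ∫⁻ b, ENNReal.ofReal (h a ^ 2) * ENNReal.ofReal (h b ^ 2) *
        ∫⁻ c, ENNReal.ofReal (h c) * ENNReal.ofReal (h (a + b - c)) := by
        rw [E4_eq hVm hVm hBm hBm, ← lintegral_const_mul' _ _ ENNReal.ofReal_ne_top]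
        refine lintegral_congr fun a => ?_
        rw [← lintegral_const_mul' _ _ ENNReal.ofReal_ne_top]
        refine lintegral_congr fun b => ?_
        rw [← lintegral_const_mul' _ _ (by simp [ENNReal.mul_eq_top]),
          ← lintegral_const_mul' _ _ ENNReal.ofReal_ne_top]
        refine lintegral_congr fun c => ?_
        have hv : ∀ a, V a = ENNReal.ofReal r * ENNReal.ofReal (h a ^ 2) := fun a => by
          rw [hsq, ← ENNReal.ofReal_mul hr0.le, mul_div_cancel₀ _ hr0.ne']
        have hb : ∀ a, B a = ENNReal.ofReal (Real.sqrt r) * ENNReal.ofReal (h a) := fun a => by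
          rw [hh, ← ENNReal.ofReal_mul (Real.sqrt_nonneg _), ← Real.sqrt_mul hr0.le,
            mul_div_cancel₀ _ hr0.ne', Real.sqrt_eq_rpow, ← Real.rpow_mul (hw0 a)]
          norm_num [hB]
        rw [hv a, hv b, hb c, hb (a + b - c), show r ^ 3 = r * r * (Real.sqrt r * Real.sqrt r) by
            rw [Real.mul_self_sqrt hr0.le]; ring,
          ENNReal.ofReal_mul (by positivity), ENNReal.ofReal_mul hr0.le,
          ENNReal.ofReal_mul (Real.sqrt_nonneg _)]
        ring
    _ ≤ ENNReal.ofReal (r ^ 3) * kappa := mul_le_mul' le_rfl key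
    _ = _ := by rw [ENNReal.ofReal_pow hr0.le, hr, ENNReal.ofReal_toReal hNt, mul_comm]

end

end Vale.Agent.P230.Upper
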