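import Vale.Agent.P230.Upper.Fubini
import Vale.Agent.P074.BrunnMinkowski

/-!
P230 upper bound: `ℝ^(m+d)` seen as `ℝ^d × ℝ^m`, the first `d` coordinates being the slicing ones.
-/

open MeasureTheory Set
open scoped ENNReal

namespace Vale.Agent.P230.Upper

noncomputable section

variable {m : ℕ}

/-- Put `d` slicing coordinates in front. -/
def glue : (d : ℕ) → (Fin d → ℝ) → (Fin m → ℝ) → (Fin (m + d) → ℝ)
  | 0, _, y => y
  | d + 1, τ, y => Fin.cons (τ 0) (glue d (Fin.tail τ) y)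

/-- The slicing coordinates. -/
def topC : (d : ℕ) → (Fin (m + d) → ℝ) → (Fin d → ℝ)
  | 0, _ => Fin.elim0
  | d + 1, x => Fin.cons (x 0) (topC d (Fin.tail x))

/-- The remaining coordinates. -/
def botC : (d : ℕ) → (Fin (m + d) → ℝ) → (Fin m → ℝ)
  | 0, x => x
  | d + 1, x => botC d (Fin.tail x)

lemma glue_top_bot : ∀ (d : ℕ) (x : Fin (m + d) → ℝ), glue d (topC d x) (botC d x) = x
  | 0, _ => rfl
  | d + 1, x => by
    show (Fin.cons ((Fin.cons (x 0) (topC d (Fin.tail x)) : Fin (d + 1) → ℝ) 0)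
      (glue d (Fin.tail (Fin.cons (x 0) (topC d (Fin.tail x)) : Fin (d + 1) → ℝ))
        (botC d (Fin.tail x))) : Fin (m + d + 1) → ℝ) = x
    rw [Fin.tail_cons, Fin.cons_zero]
    rw [glue_top_bot d]
    exact Fin.cons_self_tail x

lemma topC_glue : ∀ (d : ℕ) (τ : Fin d → ℝ) (y : Fin m → ℝ), topC d (glue d τ y) = τ
  | 0, τ, _ => funext fun i => i.elim0
  | d + 1, τ, y => by
    show Fin.cons ((Fin.cons (τ 0) (glue d (Fin.tail τ) y) : Fin (m + d + 1) → ℝ) 0)
      (topC d (Fin.tail (Fin.cons (τ 0) (glue d (Fin.tail τ) y) : Fin (m + d + 1) → ℝ))) = τ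
    rw [Fin.cons_zero, Fin.tail_cons, topC_glue d]
    exact Fin.cons_self_tail τ

lemma botC_glue : ∀ (d : ℕ) (τ : Fin d → ℝ) (y : Fin m → ℝ), botC d (glue d τ y) = y
  | 0, _, _ => rfl
  | d + 1, τ, y => by
    show botC d (Fin.tail (Fin.cons (τ 0) (glue d (Fin.tail τ) y) : Fin (m + d + 1) → ℝ)) = y
    rw [Fin.tail_cons, botC_glue d]

lemma cons_add_cons {n : ℕ} (a b : ℝ) (x y : Fin n → ℝ) :
    (Fin.cons a x : Fin (n + 1) → ℝ) + Fin.cons b y = Fin.cons (a + b) (x + y) := by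
  funext i; refine Fin.cases ?_ (fun j => ?_) i <;> simp

lemma smul_cons {n : ℕ} (c a : ℝ) (x : Fin n → ℝ) :
    c • (Fin.cons a x : Fin (n + 1) → ℝ) = Fin.cons (c * a) (c • x) := by
  funext i; refine Fin.cases ?_ (fun j => ?_) i <;> simp

lemma glue_add : ∀ (d : ℕ) (σ τ : Fin d → ℝ) (y z : Fin m → ℝ),
    glue d (σ + τ) (y + z) = glue d σ y + glue d τ z
  | 0, _, _, _, _ => rfl
  | d + 1, σ, τ, y, z => by
    show (Fin.cons ((σ + τ) 0) (glue d (Fin.tail (σ + τ)) (y + z)) : Fin (m + d + 1) → ℝ) = _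
    rw [show Fin.tail (σ + τ) = Fin.tail σ + Fin.tail τ from rfl, glue_add d]
    exact (cons_add_cons _ _ _ _).symm

lemma glue_smul : ∀ (d : ℕ) (c : ℝ) (τ : Fin d → ℝ) (y : Fin m → ℝ),
    glue d (c • τ) (c • y) = c • glue d τ y
  | 0, _, _, _ => rfl
  | d + 1, c, τ, y => by
    show (Fin.cons ((c • τ) 0) (glue d (Fin.tail (c • τ)) (c • y)) : Fin (m + d + 1) → ℝ) = _
    rw [show Fin.tail (c • τ) = c • Fin.tail τ from rfl, glue_smul d]
    exact (smul_cons _ _ _).symm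

lemma glue_zero (d : ℕ) : glue d (0 : Fin d → ℝ) (0 : Fin m → ℝ) = 0 := by
  have := glue_smul (m := m) d 0 0 0
  simpa using this

/-- `glue` as a linear map. -/
def glueL (d : ℕ) : ((Fin d → ℝ) × (Fin m → ℝ)) →ₗ[ℝ] (Fin (m + d) → ℝ) where
  toFun p := glue d p.1 p.2
  map_add' p q := glue_add d _ _ _ _
  map_smul' c p := glue_smul d c _ _

lemma continuous_glue (d : ℕ) :
    Continuous fun p : (Fin d → ℝ) × (Fin m → ℝ) => glue d p.1 p.2 :=
  (glueL (m := m) d).continuous_of_finiteDimensional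

lemma continuous_topC : ∀ d : ℕ, Continuous (topC (m := m) d)
  | 0 => continuous_const
  | d + 1 => by
    show Continuous fun x : Fin (m + d + 1) → ℝ =>
      (Fin.cons (x 0) (topC d (Fin.tail x)) : Fin (d + 1) → ℝ)
    have h2 : Continuous fun x : Fin (m + d + 1) → ℝ => topC d (Fin.tail x) :=
      (continuous_topC d).comp (continuous_pi fun _ => continuous_apply _)
    exact Continuous.finCons (continuous_apply (0 : Fin (m + d + 1))) h2

lemma continuous_botC : ∀ d : ℕ, Continuous (botC (m := m) d)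
  | 0 => continuous_id
  | d + 1 => (continuous_botC d).comp (continuous_pi fun i => continuous_apply _)

/-- Slice over a point of the slicing coordinates. -/
def sl (d : ℕ) (K : Set (Fin (m + d) → ℝ)) (τ : Fin d → ℝ) : Set (Fin m → ℝ) :=
  {y | glue d τ y ∈ K}

lemma sl_cons (d : ℕ) (K : Set (Fin (m + (d + 1)) → ℝ)) (t : ℝ) (τ : Fin d → ℝ) :
    sl (d + 1) K (Fin.cons t τ) = sl d (fsl K t) τ := by
  ext y
  show (Fin.cons ((Fin.cons t τ : Fin (d + 1) → ℝ) 0)
    (glue d (Fin.tail (Fin.cons t τ : Fin (d + 1) → ℝ)) y) : Fin (m + d + 1) → ℝ) ∈ K ↔ _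
  rw [Fin.cons_zero, Fin.tail_cons]
  rfl

lemma isCompact_sl {d : ℕ} {K : Set (Fin (m + d) → ℝ)} (hK : IsCompact K) (τ : Fin d → ℝ) :
    IsCompact (sl d K τ) :=
  (hK.image (continuous_botC d)).of_isClosed_subset
    (hK.isClosed.preimage ((continuous_glue d).comp (continuous_const.prodMk continuous_id)))
    fun y hy => ⟨_, hy, botC_glue d τ y⟩

lemma sl_subset_image {d : ℕ} (K : Set (Fin (m + d) → ℝ)) (τ : Fin d → ℝ) :
    sl d K τ ⊆ botC d '' K :=
  fun y hy => ⟨_, hy, botC_glue d τ y⟩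

lemma convex_sl {d : ℕ} {K : Set (Fin (m + d) → ℝ)} (hK : Convex ℝ K) (τ : Fin d → ℝ) :
    Convex ℝ (sl d K τ) := by
  intro x hx y hy a b ha hb hab
  show glue d τ (a • x + b • y) ∈ K
  have h : glue d τ (a • x + b • y) = a • glue d τ x + b • glue d τ y := by
    rw [← glue_smul, ← glue_smul, ← glue_add, ← add_smul, hab, one_smul]
  rw [h]
  exact hK hx hy ha hb hab

lemma measurable_volume_sl {d : ℕ} {K : Set (Fin (m + d) → ℝ)} (hK : MeasurableSet K) :
    Measurable fun τ => volume (sl d K τ) :=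
  measurable_measure_prodMk_left (ν := (volume : Measure (Fin m → ℝ)))
    (hK.preimage (continuous_glue (m := m) d).measurable)

lemma volume_eq_sl : ∀ (d : ℕ) {K : Set (Fin (m + d) → ℝ)}, MeasurableSet K →
    volume K = ∫⁻ τ : Fin d → ℝ, volume (sl d K τ)
  | 0, K, _ => by
    have : ∀ τ, sl 0 K τ = K := fun τ => rfl
    simp only [this, lintegral_const]
    simp [MeasureTheory.volume_pi]
  | d + 1, K, hK => by
    have hm : Measurable fun τ => volume (sl (d + 1) K τ) := measurable_volume_sl hK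
    rw [lintegral_cons hm]
    calc volume K = ∫⁻ t, volume (fsl K t) := volume_eq_fsl hK
      _ = ∫⁻ t, ∫⁻ τ : Fin d → ℝ, volume (sl d (fsl K t) τ) :=
          lintegral_congr fun t => volume_eq_sl d (measurableSet_fsl hK t)
      _ = _ := by simp only [sl_cons]

/-- Multiplicative Brunn–Minkowski for slices. -/
lemma volume_sl_mid {d : ℕ} {K : Set (Fin (m + d) → ℝ)} (hKc : Convex ℝ K) (hKk : IsCompact K)
    (σ τ : Fin d → ℝ) :
    volume (sl d K σ) * volume (sl d K τ) ≤ volume (sl d K ((2⁻¹ : ℝ) • (σ + τ))) ^ 2 := by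
  refine (P074.brunn_minkowski_pi _ _ (isCompact_sl hKk σ) (isCompact_sl hKk τ)).trans ?_
  refine pow_le_pow_left₀ zero_le (measure_mono ?_) 2
  rintro _ ⟨⟨x, y⟩, ⟨hx, hy⟩, rfl⟩
  show glue d ((2⁻¹ : ℝ) • (σ + τ)) ((2⁻¹ : ℝ) • (x + y)) ∈ K
  rw [glue_smul, glue_add, smul_add]
  exact hKc hx hy (by norm_num) (by norm_num) (by norm_num)

end

end Vale.Agent.P230.Upper
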