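import Vale.Agent.P230.Upper.Periodic
import Vale.Agent.P230.Upper.Fubini

/-!
P230 upper bound, slicing step: one more coordinate squares the uncovered fraction.
-/

open MeasureTheory Set
open scoped ENNReal

namespace Vale.Agent.P230.Upper

noncomputable section

variable {p : ℕ}

lemma cell_cons (t : ℝ) (y : Fin p → ℝ) :
    (Fin.cons t y : Fin (p + 1) → ℝ) ∈ cell 0 ↔ t ∈ Ico (0 : ℝ) 1 ∧ y ∈ cell 0 := by
  simp only [cell, mem_pi, mem_univ, true_implies, Pi.zero_apply, zero_add]
  exact ⟨fun h => ⟨by simpa using h 0, fun i => by simpa using h i.succ⟩,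
    fun h => Fin.cases (by simpa using h.1) fun i => by simpa using h.2 i⟩

lemma setLIntegral_cell_cons {F : (Fin (p + 1) → ℝ) → ℝ≥0∞} (hF : Measurable F) :
    ∫⁻ x in cell 0, F x = ∫⁻ t in Ico (0 : ℝ) 1, ∫⁻ y in cell 0, F (Fin.cons t y) := by
  rw [← lintegral_indicator (measurableSet_cell _),
    lintegral_cons (hF.indicator (measurableSet_cell _)), ← lintegral_indicator measurableSet_Ico]
  refine lintegral_congr fun t => ?_
  by_cases ht : t ∈ Ico (0 : ℝ) 1
  · rw [indicator_of_mem ht, ← lintegral_indicator (measurableSet_cell _)]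
    refine lintegral_congr fun y => ?_
    by_cases hy : y ∈ cell 0
    · rw [indicator_of_mem hy, indicator_of_mem ((cell_cons t y).2 ⟨ht, hy⟩)]
    · rw [indicator_of_notMem hy, indicator_of_notMem fun h => hy ((cell_cons t y).1 h).2]
  · rw [indicator_of_notMem ht]
    refine (lintegral_congr fun y => ?_).trans lintegral_zero
    exact indicator_of_notMem (fun h => ht ((cell_cons t y).1 h).1) _

/-- Add a layer coordinate with gap `1/4` and shift vector `v`. -/
def stepMap (A : (Fin p → ℝ) →ₗ[ℝ] (Fin p → ℝ)) (v : Fin p → ℝ) :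
    (Fin (p + 1) → ℝ) →ₗ[ℝ] (Fin (p + 1) → ℝ) where
  toFun x := Fin.cons (x 0 / 4) (A (Fin.tail x) + x 0 • A v)
  map_add' x y := by
    funext i
    refine Fin.cases ?_ (fun j => ?_) i
    · simp only [Fin.cons_zero, Pi.add_apply]; ring
    · simp only [Fin.cons_succ, Pi.add_apply, show Fin.tail (x + y) = Fin.tail x + Fin.tail y from rfl,
        map_add, Pi.smul_apply, smul_eq_mul]
      ring
  map_smul' c x := by
    funext i
    refine Fin.cases ?_ (fun j => ?_) i
    · simp only [Fin.cons_zero, Pi.smul_apply, smul_eq_mul, RingHom.id_apply]; ring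
    · simp only [Fin.cons_succ, show Fin.tail (c • x) = c • Fin.tail x from rfl, map_smul,
        Pi.smul_apply, Pi.add_apply, smul_eq_mul, RingHom.id_apply]
      ring

lemma stepMap_apply (A : (Fin p → ℝ) →ₗ[ℝ] (Fin p → ℝ)) (v : Fin p → ℝ) (x : Fin (p + 1) → ℝ) :
    stepMap A v x = Fin.cons (x 0 / 4) (A (Fin.tail x) + x 0 • A v) := rfl

lemma det_stepMap (A : (Fin p → ℝ) →ₗ[ℝ] (Fin p → ℝ)) (v : Fin p → ℝ) :
    LinearMap.det (stepMap A v) = LinearMap.det A / 4 := by
  rw [← LinearMap.det_toMatrix', ← LinearMap.det_toMatrix', Matrix.det_succ_row_zero,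
    Finset.sum_eq_single (0 : Fin (p + 1))]
  · have h1 : LinearMap.toMatrix' (stepMap A v) 0 0 = 1 / 4 := by
      simp [LinearMap.toMatrix'_apply, stepMap_apply]
    have h2 : (LinearMap.toMatrix' (stepMap A v)).submatrix Fin.succ (Fin.succAbove 0) =
        LinearMap.toMatrix' A := by
      ext i j
      simp only [Matrix.submatrix_apply, LinearMap.toMatrix'_apply, Fin.zero_succAbove,
        stepMap_apply, Fin.cons_succ, Pi.add_apply]
      rw [show Fin.tail (Pi.single j.succ (1 : ℝ) : Fin (p + 1) → ℝ) = Pi.single j 1 from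
        funext fun k => by simp [Fin.tail, Pi.single_apply]]
      simp [(Fin.succ_ne_zero j).symm]
    rw [h1, h2]
    simp; ring
  · intro j _ hj
    have : LinearMap.toMatrix' (stepMap A v) 0 j = 0 := by
      simp [LinearMap.toMatrix'_apply, stepMap_apply, Ne.symm hj]
    rw [this]; ring
  · simp

lemma measurableSet_joint {B : Set (Fin (p + 1) → ℝ)} (hB : MeasurableSet B)
    (A : (Fin p → ℝ) →ₗ[ℝ] (Fin p → ℝ)) :
    MeasurableSet {q : (Fin p → ℝ) × (Fin (p + 1) → ℝ) | q.2 ∈ uncov B (stepMap A q.1)} := by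
  have : {q : (Fin p → ℝ) × (Fin (p + 1) → ℝ) | q.2 ∈ uncov B (stepMap A q.1)} =
      ⋂ z : Fin (p + 1) → ℤ, (fun q : (Fin p → ℝ) × (Fin (p + 1) → ℝ) =>
        stepMap A q.1 (q.2 + zr z)) ⁻¹' Bᶜ := by
    ext q; simp [uncov]
  rw [this]
  refine MeasurableSet.iInter fun z => hB.compl.preimage ?_
  have hA := A.continuous_of_finiteDimensional
  simp only [stepMap_apply]
  refine Continuous.measurable (Continuous.finCons
    (((continuous_apply 0).comp (continuous_snd.add continuous_const)).div_const _)
    (Continuous.add ?_ ?_))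
  · exact hA.comp (continuous_pi fun i => by simp only [Fin.tail]; fun_prop)
  · exact Continuous.smul ((continuous_apply 0).comp (continuous_snd.add continuous_const))
      (hA.comp continuous_fst)

lemma measurable_joint {B : Set (Fin (p + 1) → ℝ)} (hB : MeasurableSet B)
    (A : (Fin p → ℝ) →ₗ[ℝ] (Fin p → ℝ)) :
    Measurable fun q : (Fin p → ℝ) × (Fin (p + 1) → ℝ) =>
      (uncov B (stepMap A q.1)).indicator (1 : (Fin (p + 1) → ℝ) → ℝ≥0∞) q.2 := by
  have e : (fun q : (Fin p → ℝ) × (Fin (p + 1) → ℝ) =>
      (uncov B (stepMap A q.1)).indicator (1 : (Fin (p + 1) → ℝ) → ℝ≥0∞) q.2) =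
      {q : (Fin p → ℝ) × (Fin (p + 1) → ℝ) | q.2 ∈ uncov B (stepMap A q.1)}.indicator
        (fun _ => (1 : ℝ≥0∞)) := by
    funext q
    classical
    simp only [indicator_apply, mem_ofPred_eq, Pi.one_apply]
  rw [e]
  exact measurable_const.indicator (measurableSet_joint hB A)

lemma step_one {B : Set (Fin (p + 1) → ℝ)} (hB : MeasurableSet B)
    {A : (Fin p → ℝ) →ₗ[ℝ] (Fin p → ℝ)} {δ : ℝ≥0∞}
    (h : ∀ σ ∈ Icc (0 : ℝ) (1 / 2), miss (fsl B σ) A ≤ δ) :
    ∫⁻ v in cell 0, miss B (stepMap A v) ≤ δ ^ 2 := by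
  have hm := measurable_joint hB A
  set F : (Fin p → ℝ) → ℝ → ℝ≥0∞ :=
    fun v s => ∫⁻ u in cell 0, (uncov B (stepMap A v)).indicator 1 (Fin.cons s u) with hF
  have hFm : Measurable (Function.uncurry F) := by
    have hg : Measurable fun r : ((Fin p → ℝ) × ℝ) × (Fin p → ℝ) =>
        ((r.1.1, (Fin.cons r.1.2 r.2 : Fin (p + 1) → ℝ)) : (Fin p → ℝ) × (Fin (p + 1) → ℝ)) :=
      (measurable_fst.comp measurable_fst).prodMk
        (measurable_cons.comp ((measurable_snd.comp measurable_fst).prodMk measurable_snd))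
    have h4 : ∀ G : (Fin p → ℝ) × (Fin (p + 1) → ℝ) → ℝ≥0∞, Measurable G →
        Measurable fun r : ((Fin p → ℝ) × ℝ) × (Fin p → ℝ) =>
          G (r.1.1, (Fin.cons r.1.2 r.2 : Fin (p + 1) → ℝ)) := fun G hG => hG.comp hg
    have h3 := h4 _ hm
    exact h3.lintegral_prod_right'
  calc ∫⁻ v in cell 0, miss B (stepMap A v) = ∫⁻ v in cell 0, ∫⁻ s in Ico (0 : ℝ) 1, F v s := by
        refine lintegral_congr fun v => ?_
        exact setLIntegral_cell_cons
          (measurable_one.indicator (measurableSet_uncov hB _))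
    _ = ∫⁻ s in Ico (0 : ℝ) 1, ∫⁻ v in cell 0, F v s :=
        lintegral_lintegral_swap hFm.aemeasurable
    _ ≤ ∫⁻ _s in Ico (0 : ℝ) 1, δ ^ 2 := by
        refine lintegral_mono fun s => ?_
        set t1 : ℤ := ⌈-s⌉ with ht1
        set c : ℝ := s + t1 with hc
        have hc0 : 0 ≤ c := by rw [hc]; linarith [Int.le_ceil (-s)]
        have hc1 : c < 1 := by rw [hc]; linarith [Int.ceil_lt_add_one (-s)]
        set f1 : (Fin p → ℝ) → ℝ≥0∞ := (uncov (fsl B (c / 4)) A).indicator 1 with hf1
        set f2 : (Fin p → ℝ) → ℝ≥0∞ := (uncov (fsl B ((c + 1) / 4)) A).indicator 1 with hf2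
        have hf1m : Measurable f1 :=
          measurable_one.indicator (measurableSet_uncov (measurableSet_fsl hB _) A)
        have hf2m : Measurable f2 :=
          measurable_one.indicator (measurableSet_uncov (measurableSet_fsl hB _) A)
        have hper : ∀ (C : Set (Fin p → ℝ)) x z,
            (uncov C A).indicator (1 : (Fin p → ℝ) → ℝ≥0∞) (x + zr z) =
              (uncov C A).indicator 1 x := fun C x z => by
          by_cases hx : x ∈ uncov C A
          · rw [indicator_of_mem hx, indicator_of_mem ((uncov_periodic C A x z).2 hx)]; rfl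
          · rw [indicator_of_notMem hx,
              indicator_of_notMem fun h => hx ((uncov_periodic C A x z).1 h)]
        have hpt : ∀ v u, (uncov B (stepMap A v)).indicator (1 : (Fin (p + 1) → ℝ) → ℝ≥0∞)
            (Fin.cons s u) ≤ f1 (u + c • v) * f2 (u + c • v + v) := by
          intro v u
          by_cases hu : (Fin.cons s u : Fin (p + 1) → ℝ) ∈ uncov B (stepMap A v)
          · have key : ∀ t : ℤ, u + (s + (t : ℝ)) • v ∈ uncov (fsl B ((s + t) / 4)) A := by
              intro t z hz
              refine hu (Fin.cons t z) ?_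
              have e : (Fin.cons s u : Fin (p + 1) → ℝ) + zr (Fin.cons t z) =
                  Fin.cons (s + t) (u + zr z) := by
                funext i; refine Fin.cases ?_ (fun j => ?_) i <;> simp [zr]
              rw [e, stepMap_apply, Fin.cons_zero, Fin.tail_cons]
              simp only [fsl, mem_ofPred_eq] at hz
              convert hz using 2
              rw [show u + (s + (t : ℝ)) • v + zr z = (u + zr z) + (s + (t : ℝ)) • v by abel,
                map_add A (u + zr z), map_smul]
            have h1 := key t1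
            have h2 := key (t1 + 1)
            rw [← hc] at h1
            push_cast at h2
            rw [show s + ((t1 : ℝ) + 1) = c + 1 by rw [hc]; ring, add_smul, one_smul,
              ← add_assoc] at h2
            rw [indicator_of_mem hu, hf1, hf2, indicator_of_mem h1, indicator_of_mem h2]
            simp
          · rw [indicator_of_notMem hu]; exact zero_le
        calc ∫⁻ v in cell 0, F v s
            ≤ ∫⁻ v in cell 0, ∫⁻ u in cell 0, f1 (u + c • v) * f2 (u + c • v + v) :=
              lintegral_mono fun v => lintegral_mono fun u => hpt v u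
          _ = ∫⁻ v in cell 0, ∫⁻ w in cell 0, f1 w * f2 (w + v) := by
              refine lintegral_congr fun v => ?_
              exact lintegral_periodic_shift (f := fun w => f1 w * f2 (w + v)) (by fun_prop)
                (fun x z => by simp only [hf1, hf2, add_right_comm x, hper]) (c • v)
          _ = ∫⁻ w in cell 0, ∫⁻ v in cell 0, f1 w * f2 (w + v) := by
              refine lintegral_lintegral_swap ?_
              exact ((hf1m.comp measurable_snd).mul
                (hf2m.comp (measurable_snd.add measurable_fst))).aemeasurable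
          _ = ∫⁻ w in cell 0, f1 w * miss (fsl B ((c + 1) / 4)) A := by
              refine lintegral_congr fun w => ?_
              rw [lintegral_const_mul _ (by fun_prop : Measurable fun v => f2 (w + v))]
              congr 1
              rw [← miss_shift (measurableSet_fsl hB _) A w]
              simp only [hf2, add_comm w]
          _ = miss (fsl B (c / 4)) A * miss (fsl B ((c + 1) / 4)) A :=
              lintegral_mul_const _ hf1m
          _ ≤ δ * δ := mul_le_mul' (h _ ⟨by linarith, by linarith⟩) (h _ ⟨by linarith, by linarith⟩)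
          _ = _ := (sq δ).symm
    _ = δ ^ 2 := by rw [setLIntegral_const, Real.volume_Ico]; simp

/-- The squaring step for finitely many bodies. -/
theorem step_lattice {ι : Type} [Fintype ι] (B : ι → Set (Fin (p + 1) → ℝ))
    (hB : ∀ i, MeasurableSet (B i)) (A : (Fin p → ℝ) →ₗ[ℝ] (Fin p → ℝ)) {δ : ℝ≥0∞}
    (h : ∀ i, ∀ σ ∈ Icc (0 : ℝ) (1 / 2), miss (fsl (B i) σ) A ≤ δ) :
    ∃ v, ∀ i, miss (B i) (stepMap A v) ≤ (Fintype.card ι : ℝ≥0∞) * δ ^ 2 := by
  have : IsProbabilityMeasure (volume.restrict (cell (0 : Fin p → ℝ))) :=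
    ⟨by rw [Measure.restrict_apply_univ, volume_cell]⟩
  have hm : ∀ i, Measurable fun v => miss (B i) (stepMap A v) := fun i => by
    unfold miss
    exact Measurable.lintegral_prod_right' (f := fun q : (Fin p → ℝ) × (Fin (p + 1) → ℝ) =>
      (uncov (B i) (stepMap A q.1)).indicator 1 q.2)
      (measurable_joint (hB i) A)
  obtain ⟨v, hv⟩ := exists_le_lintegral (μ := volume.restrict (cell (0 : Fin p → ℝ)))
    (f := fun v => ∑ i, miss (B i) (stepMap A v))
    (Finset.measurable_sum _ fun i _ => hm i).aemeasurable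
  refine ⟨v, fun i => (Finset.single_le_sum (f := fun i => miss (B i) (stepMap A v))
    (fun i _ => zero_le) (Finset.mem_univ i)).trans (hv.trans ?_)⟩
  rw [lintegral_finsetSum _ fun i _ => hm i]
  refine (Finset.sum_le_sum fun i _ => step_one (hB i) (h i)).trans ?_
  simp

end

end Vale.Agent.P230.Upper
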