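import Vale.Agent.P230.Upper.Base
import Vale.Agent.P230.Upper.Step
import Vale.Agent.P230.Upper.Slices

/-!
P230 upper bound: iterating the slicing step.
-/

open MeasureTheory Set
open scoped ENNReal Pointwise

namespace Vale.Agent.P230.Upper

noncomputable section

variable {m : ℕ}

/-- The uncovered fraction after `d` steps with at most `G` bodies per level. -/
def bd (G μ : ℝ) (d : ℕ) : ℝ := (4 * G ^ 2 * Real.exp (-μ)) ^ (2 ^ d) / G

lemma bd_zero {G μ : ℝ} (hG : G ≠ 0) : bd G μ 0 = 4 * G * Real.exp (-μ) := by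
  rw [bd, pow_zero, pow_one]; field_simp

lemma bd_succ {G μ : ℝ} (hG : G ≠ 0) (d : ℕ) : bd G μ (d + 1) = G * bd G μ d ^ 2 := by
  rw [bd, bd, show (2 : ℕ) ^ (d + 1) = 2 ^ d * 2 from pow_succ 2 d, pow_mul, div_pow]; field_simp

lemma bd_nonneg {G μ : ℝ} (hG : 0 < G) (d : ℕ) : 0 ≤ bd G μ d := by
  rw [bd]; positivity

lemma surj_stepMap {p : ℕ} {A : (Fin p → ℝ) →ₗ[ℝ] (Fin p → ℝ)} (hA : LinearMap.det A ≠ 0)
    (v : Fin p → ℝ) : LinearMap.det (stepMap A v) ≠ 0 := by
  rw [det_stepMap]; exact div_ne_zero hA (by norm_num)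

/-- The dyadic grid point `g / 2^q`. -/
def gp (q g : ℕ) : ℝ := (g : ℝ) / 2 ^ q

lemma gp_zero (q : ℕ) : gp q 0 = 0 := by simp [gp]

lemma gp_top (q : ℕ) : gp q (2 ^ q) = 1 := by simp [gp]

/-- Slices at nearby parameters contain slightly shrunk copies of grid slices. -/
lemma slice_near {p : ℕ} {K : Set (Fin (p + 1) → ℝ)} (hK : Convex ℝ K) {q : ℕ} {η : ℝ}
    (hη : 2 / (2 : ℝ) ^ q ≤ η) (hη1 : η < 1) (hne : ∀ g ≤ 2 ^ q, (fsl K (gp q g)).Nonempty)
    {θ : ℝ} (hθ : θ ∈ Icc (0 : ℝ) 1) :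
    ∃ g ≤ 2 ^ q, ∃ t, ∀ x ∈ fsl K (gp q g), (1 - η) • x + t ∈ fsl K θ := by
  have hq : (0 : ℝ) < 2 ^ q := by positivity
  have hmain : ∀ g ≤ 2 ^ q, ∀ e ≤ 2 ^ q, ∀ lam : ℝ, 0 ≤ lam → lam ≤ η →
      θ = (1 - lam) * gp q g + lam * gp q e →
      ∃ t, ∀ x ∈ fsl K (gp q g), (1 - η) • x + t ∈ fsl K θ := by
    intro g hg e he lam hl0 hl1 hθe
    obtain ⟨k0, hk0⟩ := hne g hg
    obtain ⟨y, hy⟩ := hne e he
    refine ⟨(η - lam) • k0 + lam • y, fun x hx => ?_⟩
    have h1 : (0 : ℝ) < 1 - lam := by linarith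
    set w : Fin p → ℝ := ((1 - η) / (1 - lam)) • x + ((η - lam) / (1 - lam)) • k0 with hw
    have hwk : (Fin.cons (gp q g) w : Fin (p + 1) → ℝ) ∈ K := by
      have h := hK hx hk0 (a := (1 - η) / (1 - lam)) (b := (η - lam) / (1 - lam))
        (div_nonneg (by linarith) h1.le) (div_nonneg (by linarith) h1.le)
        (by rw [← add_div, div_eq_one_iff_eq h1.ne']; ring)
      convert h using 1
      funext i
      refine Fin.cases ?_ (fun j => ?_) i
      · simp only [Fin.cons_zero, Pi.add_apply, Pi.smul_apply, smul_eq_mul]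
        field_simp
        ring
      · simp [hw]
    have h2 := hK hwk hy (a := 1 - lam) (b := lam) h1.le hl0 (by ring)
    show (Fin.cons θ _ : Fin (p + 1) → ℝ) ∈ K
    convert h2 using 1
    funext i
    refine Fin.cases ?_ (fun j => ?_) i
    · simp [hθe]
    · simp only [Fin.cons_succ, hw, Pi.add_apply, Pi.smul_apply, smul_eq_mul]
      field_simp
      ring
  rcases le_or_gt θ (1 / 2) with h | h
  · set g := ⌊θ * 2 ^ q⌋₊ with hg
    have hg1 : (g : ℝ) ≤ θ * 2 ^ q := Nat.floor_le (by have := hθ.1; positivity)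
    have hg2 : θ * 2 ^ q < g + 1 := Nat.lt_floor_add_one _
    have hgle : g ≤ 2 ^ q := by
      have : (g : ℝ) ≤ ((2 ^ q : ℕ) : ℝ) := by push_cast; nlinarith
      exact_mod_cast this
    have hgp : gp q g ≤ 1 / 2 := by rw [gp, div_le_iff₀ hq]; nlinarith
    refine ⟨g, hgle, hmain g hgle _ le_rfl ((θ - gp q g) / (1 - gp q g)) ?_ ?_ ?_⟩
    · exact div_nonneg (by rw [gp, sub_nonneg, div_le_iff₀ hq]; linarith) (by linarith)
    · rw [div_le_iff₀ (by linarith)]
      have h3 : θ - gp q g ≤ 1 / 2 ^ q := by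
        rw [gp, sub_le_iff_le_add, ← add_div, le_div_iff₀ hq]; linarith
      have h4 : 2 / (2 : ℝ) ^ q = 2 * (1 / 2 ^ q) := by ring
      have h5 : (0 : ℝ) ≤ 1 / 2 ^ q := by positivity
      nlinarith
    · rw [gp_top]
      have : (1 : ℝ) - gp q g ≠ 0 := by linarith
      field_simp
      ring
  · set g := ⌈θ * 2 ^ q⌉₊ with hg
    have hg1 : θ * 2 ^ q ≤ (g : ℝ) := Nat.le_ceil _
    have hg2 : (g : ℝ) < θ * 2 ^ q + 1 := Nat.ceil_lt_add_one (by have := hθ.1; positivity)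
    have hgle : g ≤ 2 ^ q := Nat.ceil_le.2 (by push_cast; nlinarith [hθ.2])
    have hgp : 1 / 2 < gp q g := by rw [gp, lt_div_iff₀ hq]; nlinarith
    have hgp0 : θ ≤ gp q g := by rw [gp, le_div_iff₀ hq]; linarith
    refine ⟨g, hgle, hmain g hgle 0 (Nat.zero_le _) ((gp q g - θ) / gp q g) ?_ ?_ ?_⟩
    · exact div_nonneg (by linarith) (by linarith)
    · rw [div_le_iff₀ (by linarith)]
      have h3 : gp q g - θ ≤ 1 / 2 ^ q := by
        rw [gp, sub_le_iff_le_add, div_le_iff₀ hq, add_mul, one_div,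
          inv_mul_cancel₀ hq.ne']
        linarith
      have h4 : 2 / (2 : ℝ) ^ q = 2 * (1 / 2 ^ q) := by ring
      have h5 : (0 : ℝ) ≤ 1 / 2 ^ q := by positivity
      nlinarith
    · rw [gp_zero]
      have : gp q g ≠ 0 := by linarith
      field_simp
      ring

lemma fsl_smul {p : ℕ} (K : Set (Fin (p + 1) → ℝ)) {c : ℝ} (hc : c ≠ 0) (σ : ℝ) :
    fsl (c • K) σ = c • fsl K (σ / c) := by
  ext y
  rw [Set.mem_smul_set_iff_inv_smul_mem₀ hc]
  show (Fin.cons σ y : Fin (p + 1) → ℝ) ∈ c • K ↔ (Fin.cons (σ / c) (c⁻¹ • y) : Fin (p + 1) → ℝ) ∈ K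
  rw [Set.mem_smul_set_iff_inv_smul_mem₀ hc, smul_cons, div_eq_inv_mul]

lemma surj_of_abs_det {p : ℕ} {A : (Fin p → ℝ) →ₗ[ℝ] (Fin p → ℝ)} {r : ℝ} (hr : 0 < r)
    (h : |LinearMap.det A| = r) : Function.Surjective A :=
  surjective_of_det fun h0 => by rw [h0, abs_zero] at h; linarith

/-- The grid condition: all grid slices of the shrunk body have volume at least `cB m`. -/
def GridBig (m d q : ℕ) (s : ℝ) (K : Set (Fin (m + d) → ℝ)) : Prop :=
  ∀ j : Fin d → ℕ, (∀ k, j k ≤ 2 ^ q) →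
    cB * m ≤ s ^ m * (volume (sl d K fun k => gp q (j k))).toReal

/-- Iterated slicing. -/
theorem lift_lattice (hbase : ∀ (ι : Type) [Fintype ι] [Nonempty ι]
    (B : ι → Set (Fin m → ℝ)), (∀ i, Convex ℝ (B i)) → (∀ i, IsCompact (B i)) →
    (∀ i, cB * m ≤ (volume (B i)).toReal) → ∀ S0 : Set (Fin m → ℝ), Convex ℝ S0 → IsCompact S0 →
    0 < (volume S0).toReal → (volume S0).toReal ≤ (1 / 2) ^ m →
    ∃ A : (Fin m → ℝ) →ₗ[ℝ] (Fin m → ℝ), |LinearMap.det A| = 1 ∧
      (∀ i, miss (B i) A ≤ ENNReal.ofReal (4 * Fintype.card ι * Real.exp (-(cB * m)))) ∧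
      ∀ z : Fin m → ℤ, A (zr z) ∈ S0 → z = 0)
    (hm1 : 1 ≤ cB * m) {q : ℕ} {η : ℝ} (hη : 2 / (2 : ℝ) ^ q ≤ η) (hη1 : η < 1)
    {G : ℝ} {S0 : Set (Fin m → ℝ)} (hS1 : Convex ℝ S0) (hS2 : IsCompact S0)
    (hS3 : 0 < (volume S0).toReal) (hS4 : (volume S0).toReal ≤ (1 / 2) ^ m) :
    ∀ (d : ℕ) (ι : Type) [Fintype ι] [Nonempty ι] (K : ι → Set (Fin (m + d) → ℝ)) (c : ℝ),
      (∀ i, Convex ℝ (K i)) → (∀ i, IsCompact (K i)) → c ≤ 1 → 1 / 2 ≤ c * (1 - η) ^ d →
      (∀ i, GridBig m d q (c * (1 - η) ^ d) (K i)) →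
      (Fintype.card ι : ℝ) * ((2 ^ q + 1 : ℕ) : ℝ) ^ d ≤ G →
      ∃ A : (Fin (m + d) → ℝ) →ₗ[ℝ] (Fin (m + d) → ℝ), |LinearMap.det A| = (1 / 4) ^ d ∧
        (∀ i, miss (c • K i) A ≤ ENNReal.ofReal (bd G (cB * m) d)) ∧
        ∀ z : Fin (m + d) → ℤ, (∀ k, |topC d (A (zr z)) k| < 1 / 4) →
          topC d (A (zr z)) = 0 ∧ (botC d (A (zr z)) ∈ S0 → z = 0) := by
  intro d
  induction d with
  | zero =>
    intro ι _ _ K c hKc hKk _hc1 hc2 hgrid hG
    simp only [pow_zero, mul_one] at hc2 hG hgrid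
    have hc0 : 0 < c := by linarith
    have hvol : ∀ i, cB * m ≤ (volume (c • K i)).toReal := fun i => by
      have h : cB * m ≤ c ^ m * (volume (K i)).toReal :=
        hgrid i Fin.elim0 fun k => k.elim0
      rw [Measure.addHaar_smul, Module.finrank_fin_fun, ENNReal.toReal_mul,
        ENNReal.toReal_ofReal (abs_nonneg _), abs_of_nonneg (pow_nonneg hc0.le _)]
      exact h
    obtain ⟨A, hdet, hmiss, hshort⟩ := hbase ι (fun i => c • K i) (fun i => (hKc i).smul c)
      (fun i => (hKk i).smul c) hvol S0 hS1 hS2 hS3 hS4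
    refine ⟨A, by simpa using hdet, fun i => (hmiss i).trans (ENNReal.ofReal_le_ofReal ?_),
      fun z _ => ⟨funext fun k => k.elim0, fun h => hshort z h⟩⟩
    have hG0 : (0 : ℝ) < G := lt_of_lt_of_le (by exact_mod_cast Fintype.card_pos) hG
    rw [bd_zero hG0.ne']
    gcongr
  | succ d ih =>
    intro ι _ _ K c hKc hKk hc1 hc2 hgrid hG
    have h1η : 0 ≤ 1 - η := by linarith
    have h2η : 1 - η ≤ 1 := by
      have : (0 : ℝ) < 2 / 2 ^ q := by positivity
      linarith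
    have hpow1 : (1 - η) ^ (d + 1) ≤ 1 := pow_le_one₀ h1η h2η
    have hc0 : 0 < c := by
      by_contra hcon
      push Not at hcon
      nlinarith [pow_nonneg h1η (d + 1)]
    have hc2' : 1 / 2 ≤ c := hc2.trans (mul_le_of_le_one_right hc0.le hpow1)
    have hcc : c * (1 - η) ≤ 1 := by nlinarith
    have hG0 : (0 : ℝ) < G := lt_of_lt_of_le (mul_pos (by exact_mod_cast Fintype.card_pos)
      (pow_pos (by positivity) _)) hG
    set K' : ι × Fin (2 ^ q + 1) → Set (Fin (m + d) → ℝ) :=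
      fun p => fsl (K p.1) (gp q p.2) with hK'
    have hsl : ∀ i (g : ℕ) (j : Fin d → ℕ), sl d (fsl (K i) (gp q g)) (fun k => gp q (j k)) =
        sl (d + 1) (K i) fun k => gp q (Fin.cons (α := fun _ => ℕ) g j k) := by
      intro i g j
      rw [← sl_cons]
      congr 1
      funext k
      refine Fin.cases ?_ (fun k => ?_) k <;> simp
    have hgrid' : ∀ p, GridBig m d q (c * (1 - η) * (1 - η) ^ d) (K' p) := by
      intro p j hj
      have h := hgrid p.1 (Fin.cons (α := fun _ => ℕ) (p.2 : ℕ) j) (fun k => by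
        refine Fin.cases ?_ (fun k => ?_) k
        · simpa using Nat.lt_succ_iff.1 p.2.2
        · simpa using hj k)
      rw [pow_succ', ← mul_assoc] at h
      rw [hK', hsl]
      exact h
    obtain ⟨A, hdet, hmiss, hshort⟩ := ih (ι × Fin (2 ^ q + 1)) K' (c * (1 - η))
      (fun p => by
        intro x hx y hy a b ha hb hab
        show (Fin.cons (gp q p.2) (a • x + b • y) : Fin (m + d + 1) → ℝ) ∈ K p.1
        have h := hKc p.1 hx hy ha hb hab
        rwa [smul_cons, smul_cons, cons_add_cons, ← add_mul, hab, one_mul] at h)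
      (fun p => isCompact_fsl (hKk _) _) hcc (by rwa [mul_assoc, ← pow_succ'])
      hgrid' (by
        rw [Fintype.card_prod, Fintype.card_fin, Nat.cast_mul, mul_assoc, ← pow_succ']
        exact hG)
    have hne : ∀ i, ∀ g ≤ 2 ^ q, (fsl (K i) (gp q g)).Nonempty := by
      intro i g hg
      have h := hgrid i (Fin.cons (α := fun _ => ℕ) g fun _ => 0) (fun k => by
        refine Fin.cases ?_ (fun k => ?_) k <;> simp [hg])
      by_contra hcon
      rw [Set.not_nonempty_iff_eq_empty] at hcon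
      rw [← hsl, hcon] at h
      simp [sl] at h
      linarith
    have hAs : Function.Surjective A := surj_of_abs_det (by positivity) hdet
    have hstep : ∀ i, ∀ σ ∈ Icc (0 : ℝ) (1 / 2),
        miss (fsl (c • K i) σ) A ≤ ENNReal.ofReal (bd G (cB * m) d) := by
      intro i σ hσ
      obtain ⟨g, hg, t, ht⟩ := slice_near (hKc i) hη hη1 (hne i) (θ := σ / c)
        ⟨div_nonneg hσ.1 hc0.le, by rw [div_le_one hc0]; linarith [hσ.2]⟩
      refine le_trans ?_ (hmiss (i, ⟨g, Nat.lt_succ_iff.2 hg⟩))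
      refine miss_le_of_translate (((isCompact_fsl (hKk i) _).smul _).measurableSet) hAs (c • t) ?_
      intro x hx
      rw [Set.mem_smul_set] at hx
      obtain ⟨w, hw, rfl⟩ := hx
      rw [fsl_smul _ hc0.ne', Set.mem_smul_set]
      exact ⟨_, ht w hw, by rw [smul_add, smul_smul]⟩
    obtain ⟨v, hv⟩ := step_lattice (fun i => c • K i)
      (fun i => ((hKk i).smul c).measurableSet) A hstep
    refine ⟨stepMap A v, ?_, fun i => (hv i).trans ?_, fun z hz => ?_⟩
    · rw [det_stepMap, abs_div, hdet, pow_succ]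
      norm_num
      ring
    · have hbd := bd_nonneg (μ := cB * m) hG0 d
      have hι : (Fintype.card ι : ℝ) ≤ G := le_trans (le_mul_of_one_le_right (Nat.cast_nonneg _)
        (one_le_pow₀ (by exact_mod_cast Nat.le_add_left 1 _))) hG
      rw [bd_succ hG0.ne', ← ENNReal.ofReal_pow hbd, ← ENNReal.ofReal_natCast,
        ← ENNReal.ofReal_mul (Nat.cast_nonneg _)]
      exact ENNReal.ofReal_le_ofReal (mul_le_mul_of_nonneg_right hι (by positivity))
    · set x := stepMap A v (zr z) with hx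
      have hx0 : x 0 = (z 0 : ℝ) / 4 := by rw [hx, stepMap_apply, Fin.cons_zero]; rfl
      have htop : topC (d + 1) x = Fin.cons (x 0) (topC d (Fin.tail x)) := rfl
      have hz0 : z 0 = 0 := by
        have h := hz 0
        rw [htop, Fin.cons_zero, hx0, abs_div, div_lt_div_iff₀ (by norm_num) (by norm_num)] at h
        norm_num at h
        by_contra hne0
        have h1 : (1 : ℝ) ≤ |((z 0 : ℤ) : ℝ)| := by exact_mod_cast Int.one_le_abs hne0
        linarith
      have htail : Fin.tail x = A (zr (Fin.tail z)) := by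
        rw [hx, stepMap_apply, Fin.tail_cons, show (zr z) 0 = (0 : ℝ) by simp [zr, hz0],
          zero_smul, add_zero]
        rfl
      obtain ⟨ht1, ht2⟩ := hshort (Fin.tail z) fun k => by
        have h := hz k.succ
        rw [htop, Fin.cons_succ, htail] at h
        exact h
      refine ⟨?_, fun hb => ?_⟩
      · rw [htop, hx0, hz0, htail, ht1]
        funext k
        refine Fin.cases ?_ (fun k => ?_) k <;> simp
      · have hzt : Fin.tail z = 0 := ht2 (by rw [← htail]; exact hb)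
        rw [← Fin.cons_self_tail z, hz0, hzt]
        funext k
        refine Fin.cases ?_ (fun k => ?_) k <;> simp

end

end Vale.Agent.P230.Upper
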