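import Vale.Agent.P230.Upper.Box
import Vale.Agent.P230.Upper.Cover
import Vale.Agent.P230.Upper.Transfer

/-!
P230 upper bound: `Θ_L(n) ≤ n · exp(O(log log n · log log log n))`.
-/

open MeasureTheory Set Filter Topology
open scoped ENNReal Pointwise

namespace Vale.Agent.P230.Upper

noncomputable section

lemma lintegral_affine {d : ℕ} {g : (Fin d → ℝ) → ℝ≥0∞} (hg : Measurable g)
    (x0 : Fin d → ℝ) {T : (Fin d → ℝ) →ₗ[ℝ] (Fin d → ℝ)} (hT : LinearMap.det T ≠ 0) :
    ∫⁻ τ, g (x0 + T τ) = ENNReal.ofReal |(LinearMap.det T)⁻¹| * ∫⁻ τ, g τ := by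
  have hTm : Measurable T := T.continuous_of_finiteDimensional.measurable
  calc ∫⁻ τ, g (x0 + T τ) = ∫⁻ τ, g (x0 + τ) ∂(Measure.map T volume) :=
        (lintegral_map (hg.comp (measurable_const_add x0)) hTm).symm
    _ = _ := by
        rw [Measure.map_linearMap_addHaar_eq_smul_addHaar _ hT, lintegral_smul_measure,
          lintegral_add_left_eq_self g x0, smul_eq_mul]

lemma vol_aux {μ h D V B n : ℝ} (hh : 0 < h) (hD : 0 < D) (hμ : 0 ≤ μ) (hB : 0 ≤ B)
    (hV : V ≤ 12 * B * h * D) (hμn : 24 * μ ≤ n) : 2 * μ / h * D⁻¹ * V ≤ n * B := by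
  calc 2 * μ / h * D⁻¹ * V ≤ 2 * μ / h * D⁻¹ * (12 * B * h * D) := by gcongr
    _ = 24 * μ * B := by field_simp; ring
    _ ≤ n * B := mul_le_mul_of_nonneg_right hμn hB

lemma final_aux {P V B B' q r n : ℝ} (hP : 0 ≤ P) (hn : 0 ≤ n) (hB : 0 ≤ B) (he : B' * q = B)
    (hr : 1 ≤ 3 * r) (hV : V ≤ n * B) : P * V ≤ 3 * n * B' * (P * (r * q)) := by
  calc P * V ≤ P * (n * B) := mul_le_mul_of_nonneg_left hV hP
    _ ≤ P * (n * B) * (3 * r) := le_mul_of_one_le_right (by positivity) hr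
    _ = _ := by rw [← he]; ring

/-- The covering in one set of coordinates, for admissible parameters. -/
theorem covering_core {m0 : ℕ} (hbase : ∀ m, m0 ≤ m → ∀ (ι : Type) [Fintype ι] [Nonempty ι]
    (B : ι → Set (Fin m → ℝ)), (∀ i, Convex ℝ (B i)) → (∀ i, IsCompact (B i)) →
    (∀ i, cB * m ≤ (volume (B i)).toReal) → ∀ S0 : Set (Fin m → ℝ), Convex ℝ S0 → IsCompact S0 →
    0 < (volume S0).toReal → (volume S0).toReal ≤ (1 / 2) ^ m →
    ∃ A : (Fin m → ℝ) →ₗ[ℝ] (Fin m → ℝ), |LinearMap.det A| = 1 ∧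
      (∀ i, miss (B i) A ≤ ENNReal.ofReal (4 * Fintype.card ι * Real.exp (-(cB * m)))) ∧
      ∀ z : Fin m → ℤ, A (zr z) ∈ S0 → z = 0)
    {m d q : ℕ} (hd : 0 < d) (hm : m0 ≤ m) (hm8 : 8 ≤ m) (hμ : 1 ≤ cB * m)
    (hq : 4 * (m + d) ^ 2 ≤ 2 ^ q)
    (hsmall : bd (((2 ^ q + 1 : ℕ) : ℝ) ^ d) (cB * m) d <
      (1 / ((m + d : ℕ) : ℝ)) ^ (m + d) * (1 / 2) ^ ((m + d) * (d + 1)))
    {K0 : Set (Fin (m + d) → ℝ)} (hKc : Convex ℝ K0) (hKk : IsCompact K0) (hKv : volume K0 ≠ 0) :
    ∃ M : (Fin (m + d) → ℝ) →ₗ[ℝ] (Fin (m + d) → ℝ), LinearMap.det M ≠ 0 ∧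
      (∀ y, ∃ k ∈ K0, ∃ z : Fin (m + d) → ℤ, y = k + M (zr z)) ∧
      (volume K0).toReal ≤
        3 * ((m + d : ℕ) : ℝ) * (192 * (d : ℝ) ^ 2) ^ d * |LinearMap.det M| := by
  obtain ⟨x0, T, h0, hT, hh0, hup, hgrid, hvolK⟩ := exists_slicing hd hKc hKk hKv
  have hn8 : (8 : ℝ) ≤ ((m + d : ℕ) : ℝ) := by
    have : 8 ≤ m + d := by omega
    exact_mod_cast this
  have hn0 : (0 : ℝ) < ((m + d : ℕ) : ℝ) := by linarith
  have hm8' : (8 : ℝ) ≤ m := by exact_mod_cast hm8
  set μ := cB * (m : ℝ) with hμdef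
  set γ : ℝ := (h0 / (2 * μ)) ^ ((m : ℝ)⁻¹) with hγdef
  have hγ : 0 < γ := Real.rpow_pos_of_pos (by positivity) _
  have hγm : γ ^ m = h0 / (2 * μ) := Real.rpow_inv_natCast_pow (by positivity) (by omega)
  -- the change of variables
  set Φl : (Fin (m + d) → ℝ) →ₗ[ℝ] (Fin (m + d) → ℝ) :=
    { toFun := fun x => glue d (T (topC d x)) (γ • botC d x)
      map_add' := fun x y => by rw [topC_add, botC_add, map_add, smul_add, glue_add]
      map_smul' := fun c x => by
        rw [topC_smul, botC_smul, map_smul, smul_comm γ c, glue_smul]; rfl } with hΦl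
  have hΦapp : ∀ x, Φl x = glue d (T (topC d x)) (γ • botC d x) := fun x => rfl
  have hΦinj : Function.Injective Φl := by
    intro x y hxy
    rw [hΦapp, hΦapp] at hxy
    have h1 := congrArg (topC d) hxy
    have h2 := congrArg (botC d) hxy
    rw [topC_glue, topC_glue] at h1
    rw [botC_glue, botC_glue] at h2
    rw [← glue_top_bot d x, ← glue_top_bot d y, (T.equivOfDetNeZero hT).injective h1,
      smul_right_injective _ hγ.ne' h2]
  have hΦdet : LinearMap.det Φl ≠ 0 := fun h =>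
    LinearMap.det_eq_zero_iff_ker_ne_bot.1 h (LinearMap.ker_eq_bot.2 hΦinj)
  set c0 : Fin (m + d) → ℝ := glue d x0 0 with hc0
  set K' : Set (Fin (m + d) → ℝ) := Φl ⁻¹' ((fun x => c0 + x) ⁻¹' K0) with hK'
  have hΦglue : ∀ τ y, c0 + Φl (glue d τ y) = glue d (x0 + T τ) (γ • y) := fun τ y => by
    rw [hΦapp, topC_glue, botC_glue, hc0, ← glue_add, zero_add]
  have hK'c : Convex ℝ K' := by
    intro x hx y hy s t hs ht hst
    show c0 + Φl (s • x + t • y) ∈ K0
    have h := hKc hx hy hs ht hst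
    convert h using 1
    rw [map_add, map_smul, map_smul, smul_add, smul_add, add_add_add_comm, ← add_smul, hst,
      one_smul]
  have hK'k : IsCompact K' :=
    (Φl.equivOfDetNeZero hΦdet).toContinuousLinearEquiv.toHomeomorph.isCompact_preimage.2
      ((Homeomorph.addLeft c0).isCompact_preimage.2 hKk)
  have hslv : ∀ τ, volume (sl d K' τ) =
      ENNReal.ofReal ((γ ^ m)⁻¹) * volume (sl d K0 (x0 + T τ)) := fun τ => by
    have h : sl d K' τ = (fun y : Fin m → ℝ => γ • y) ⁻¹' sl d K0 (x0 + T τ) := by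
      ext y
      show c0 + Φl (glue d τ y) ∈ K0 ↔ _
      rw [hΦglue]
      rfl
    rw [h, Measure.addHaar_preimage_smul _ hγ.ne', Module.finrank_fin_fun,
      abs_of_pos (inv_pos.2 (pow_pos hγ m))]
  have hK'v : volume K' = ENNReal.ofReal ((γ ^ m)⁻¹ * |(LinearMap.det T)⁻¹|) * volume K0 := by
    rw [volume_eq_sl d hK'k.measurableSet, volume_eq_sl d hKk.measurableSet]
    simp only [hslv]
    rw [lintegral_const_mul' _ _ ENNReal.ofReal_ne_top,
      lintegral_affine (measurable_volume_sl hKk.measurableSet) x0 hT,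
      ENNReal.ofReal_mul (inv_nonneg.2 (pow_nonneg hγ.le m)), mul_assoc]
  have hK'v' : volume K' = ENNReal.ofReal |(LinearMap.det Φl)⁻¹| * volume K0 := by
    rw [hK', Measure.addHaar_preimage_linearMap _ hΦdet, measure_preimage_add]
  -- slices on the grid
  have hgrid' : ∀ j : Fin d → ℕ, (∀ k, j k ≤ 2 ^ q) →
      2 * μ ≤ (volume (sl d K' fun k => gp q (j k))).toReal := fun j hj => by
    rw [hslv, ENNReal.toReal_mul, ENNReal.toReal_ofReal (inv_nonneg.2 (pow_nonneg hγ.le m)), hγm,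
      inv_div, div_mul_eq_mul_div, le_div_iff₀ hh0]
    exact mul_le_mul_of_nonneg_left (hgrid q j hj) (by positivity)
  set g0 : Fin d → ℝ := fun _ => gp q 0 with hg0
  have hg00 : g0 = 0 := funext fun _ => gp_zero q
  have hA0 : 2 * μ ≤ (volume (sl d K' 0)).toReal := by
    rw [← hg00]; exact hgrid' (fun _ => 0) fun _ => Nat.zero_le _
  have hA0up : (volume (sl d K' 0)).toReal ≤ 8 * μ := by
    rw [hslv, ENNReal.toReal_mul, ENNReal.toReal_ofReal (inv_nonneg.2 (pow_nonneg hγ.le m)), hγm,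
      inv_div, div_mul_eq_mul_div, div_le_iff₀ hh0]
    have := hup (x0 + T 0)
    nlinarith
  obtain ⟨a, W, hWc, hWk, hW0, hWsym, hWsub, hWlow, hWup⟩ :=
    exists_sym (convex_sl hK'c 0) (isCompact_sl hK'k 0) (by linarith)
  have hne : ∀ j : Fin d → ℕ, (∀ k, j k ≤ 2 ^ q) →
      (sl d K' fun k => gp q (j k)).Nonempty := fun j hj => by
    by_contra hcon
    rw [Set.not_nonempty_iff_eq_empty] at hcon
    have h := hgrid' j hj
    rw [hcon] at h
    simp at h
    linarith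
  obtain ⟨Ts, hTk, hTK, hTtop, hTdiff, hTvol⟩ :=
    exists_inner hWk hW0 hWc a q d K' hK'c (fun w hw => hWsub w hw) hne
  -- the lattice
  set η : ℝ := 1 / ((m + d : ℕ) : ℝ) with hηdef
  have hη : 0 < η := by positivity
  have hη4 : η < 1 / 4 := by rw [hηdef]; gcongr; linarith
  set S0 : Set (Fin m → ℝ) := (2 * η) • W with hS0
  have hS0v : (volume S0).toReal = (2 * η) ^ m * (volume W).toReal := by
    rw [hS0, Measure.addHaar_smul, Module.finrank_fin_fun, ENNReal.toReal_mul,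
      ENNReal.toReal_ofReal (abs_nonneg _), abs_of_nonneg (by positivity)]
  have hWpos : 0 < (volume W).toReal :=
    lt_of_lt_of_le (mul_pos (by positivity) (by linarith)) hWlow
  have hS4 : (volume S0).toReal ≤ (1 / 2) ^ m := by
    rw [hS0v]
    have h1 : (2 * η) ^ m ≤ (1 / 4 : ℝ) ^ m := by
      gcongr
      rw [hηdef, mul_one_div, div_le_iff₀ hn0]; linarith
    have h2 : 8 * μ ≤ (2 : ℝ) ^ m := by
      have h3 : (m : ℝ) ≤ (2 : ℝ) ^ m := by exact_mod_cast Nat.lt_two_pow_self.le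
      have h4 : cB ≤ 1 / 100 := min_le_left _ _
      have h5 := cB_pos
      rw [hμdef]
      nlinarith
    calc (2 * η) ^ m * (volume W).toReal ≤ (1 / 4 : ℝ) ^ m * (2 : ℝ) ^ m :=
          mul_le_mul h1 (hWup.trans (hA0up.trans h2)) hWpos.le (by positivity)
      _ = _ := by rw [← mul_pow]; norm_num
  set ηg : ℝ := 1 / (2 * ((m + d : ℕ) : ℝ) ^ 2) with hηg
  have hηg1 : ηg < 1 := by rw [hηg, div_lt_one (by positivity)]; nlinarith
  have hηgq : 2 / (2 : ℝ) ^ q ≤ ηg := by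
    rw [hηg, div_le_div_iff₀ (by positivity) (by positivity), one_mul]
    have : ((4 * (m + d) ^ 2 : ℕ) : ℝ) ≤ ((2 ^ q : ℕ) : ℝ) := by exact_mod_cast hq
    push_cast at this ⊢
    linarith
  have hhalf : ∀ e : ℕ, e ≤ d * m → 1 / 2 ≤ (1 - ηg) ^ e := fun e he => by
    have h := one_add_mul_le_pow (a := -ηg) (by linarith) e
    have h2 : (e : ℝ) * ηg ≤ 1 / 2 := by
      rw [hηg, mul_one_div, div_le_iff₀ (by positivity)]
      have h3 : (e : ℝ) ≤ ((d * m : ℕ) : ℝ) := by exact_mod_cast he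
      have h4 : ((d * m : ℕ) : ℝ) ≤ ((m + d : ℕ) : ℝ) ^ 2 := by
        push_cast; nlinarith [Nat.cast_nonneg (α := ℝ) d, Nat.cast_nonneg (α := ℝ) m]
      linarith
    rw [← sub_eq_add_neg] at h
    linarith
  set G : ℝ := ((2 ^ q + 1 : ℕ) : ℝ) ^ d with hG
  obtain ⟨A, hdet, hmiss, hsep⟩ := lift_lattice (hbase m hm) hμ hηgq hηg1 (G := G)
    (hWc.smul (2 * η)) (hWk.smul (2 * η)) (by rw [hS0v]; positivity) hS4 d PUnit (fun _ => K') 1
    (fun _ => hK'c) (fun _ => hK'k) le_rfl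
    (by rw [one_mul]; exact hhalf d (Nat.le_mul_of_pos_right d (by omega)))
    (fun _ j hj => by
      rw [one_mul, ← pow_mul]
      have h1 := hgrid' j hj
      have h2 := hhalf (d * m) le_rfl
      calc cB * (m : ℝ) = 1 / 2 * (2 * μ) := by rw [hμdef]; ring
        _ ≤ _ := mul_le_mul h2 h1 (by positivity) (le_trans (by norm_num) h2))
    (by rw [Fintype.card_punit]; simp [hG])
  have hmissK : miss K' A ≤ ENNReal.ofReal (bd G (cB * m) d) := by simpa using hmiss PUnit.unit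
  have hAdet : LinearMap.det A ≠ 0 := fun h => by
    rw [h, abs_zero] at hdet; exact (pow_ne_zero d (by norm_num : (1 / 4 : ℝ) ≠ 0)) hdet.symm
  have hcov := covering_of_small_miss hK'c hK'k hη hη4 hTk hTK hTtop hTdiff hWc hWsym hAdet hsep
    (by
      refine lt_of_le_of_lt hmissK ?_
      have hlow : ENNReal.ofReal ((1 / 2) ^ ((m + d) * (d + 1))) ≤ volume Ts := by
        refine le_trans ?_ hTvol
        rw [← ENNReal.ofReal_toReal hWk.measure_lt_top.ne, ← ENNReal.ofReal_mul (by positivity)]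
        refine ENNReal.ofReal_le_ofReal ?_
        calc (1 / 2 : ℝ) ^ ((m + d) * (d + 1))
            = (1 / 2) ^ ((m + d) * d) * (1 / 2) ^ (m + d) := by rw [← pow_add]; ring_nf
          _ ≤ (1 / 2) ^ ((m + d) * d) * (volume W).toReal := by
              gcongr
              refine le_trans ?_ hWlow
              refine le_trans (pow_le_pow_of_le_one (by norm_num) (by norm_num)
                (show m ≤ m + d by omega)) ?_
              exact le_mul_of_one_le_right (by positivity) (by linarith)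
      refine lt_of_lt_of_le ?_ (mul_le_mul' le_rfl hlow)
      rw [← ENNReal.ofReal_mul (by positivity), ENNReal.ofReal_lt_ofReal_iff (by positivity), hdet]
      refine lt_of_lt_of_le hsmall (mul_le_mul_of_nonneg_right ?_ (by positivity))
      rw [le_div_iff₀ (by positivity)]
      exact mul_le_of_le_one_right (by positivity) (pow_le_one₀ (by norm_num) (by norm_num)))
  refine ⟨Φl ∘ₗ ((1 + η)⁻¹ • A), ?_, fun y => ?_, ?_⟩
  · rw [LinearMap.det_comp, LinearMap.det_smul]
    exact mul_ne_zero hΦdet (mul_ne_zero (pow_ne_zero _ (by positivity)) hAdet)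
  · obtain ⟨w, hw⟩ : ∃ w, Φl w = y - c0 :=
      surjective_of_det hΦdet (y - c0)
    obtain ⟨k, hk, z, hz⟩ := hcov ((1 + η) • w)
    refine ⟨c0 + Φl k, hk, z, ?_⟩
    have hw' : w = k + (1 + η)⁻¹ • A (zr z) := by
      apply smul_right_injective _ (show (1 + η) ≠ 0 by positivity)
      simp only [smul_add, smul_smul, mul_inv_cancel₀ (show (1 + η) ≠ 0 by positivity), one_smul]
      exact hz
    have hy : y = c0 + Φl w := by rw [hw]; abel
    rw [hy, hw', map_add, LinearMap.comp_apply, LinearMap.smul_apply]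
    abel
  · have hK0fin : volume K0 ≠ ⊤ := hKk.measure_lt_top.ne
    have e1 : (volume K').toReal = (γ ^ m)⁻¹ * |(LinearMap.det T)⁻¹| * (volume K0).toReal := by
      rw [hK'v, ENNReal.toReal_mul, ENNReal.toReal_ofReal (by positivity)]
    have e2 : (volume K0).toReal = |LinearMap.det Φl| * (volume K').toReal := by
      rw [hK'v', ENNReal.toReal_mul, ENNReal.toReal_ofReal (abs_nonneg _), ← mul_assoc, abs_inv,
        mul_inv_cancel₀ (abs_ne_zero.2 hΦdet), one_mul]
    have hdT : 0 < |LinearMap.det T| := abs_pos.2 hT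
    have hV' : (volume K').toReal ≤ ((m + d : ℕ) : ℝ) * (48 * (d : ℝ) ^ 2) ^ d := by
      rw [e1, hγm, inv_div, abs_inv]
      refine vol_aux hh0 hdT (by positivity) (by positivity) hvolK ?_
      have h4 : cB ≤ 1 / 100 := min_le_left _ _
      have h5 := cB_pos
      have h6 : (m : ℝ) ≤ ((m + d : ℕ) : ℝ) := by exact_mod_cast Nat.le_add_right m d
      have h7 : cB * (m : ℝ) ≤ 1 / 100 * (m : ℝ) := mul_le_mul_of_nonneg_right h4 (by positivity)
      have h8 : (0 : ℝ) ≤ (m : ℝ) := by positivity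
      rw [hμdef]; linarith only [h6, h7, h8]
    rw [LinearMap.det_comp, LinearMap.det_smul, Module.finrank_fin_fun, abs_mul, abs_mul, hdet,
      abs_of_pos (by positivity : (0 : ℝ) < (1 + η)⁻¹ ^ (m + d)), e2]
    have he : (1 + η) ^ (m + d) ≤ 3 := by
      calc (1 + η) ^ (m + d) ≤ Real.exp η ^ (m + d) :=
            pow_le_pow_left₀ (by positivity) (by linarith [Real.add_one_le_exp η]) _
        _ = Real.exp 1 := by rw [← Real.exp_nat_mul, hηdef, mul_one_div, div_self hn0.ne']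
        _ ≤ 3 := Real.exp_one_lt_three.le
    have hinv : 1 ≤ 3 * (1 + η)⁻¹ ^ (m + d) := by
      rw [inv_pow, ← div_eq_mul_inv, le_div_iff₀ (by positivity), one_mul]; exact he
    have h192 : (192 * (d : ℝ) ^ 2) ^ d * (1 / 4 : ℝ) ^ d = (48 * (d : ℝ) ^ 2) ^ d := by
      rw [← mul_pow]; ring_nf
    exact final_aux (abs_nonneg _) (by positivity) (by positivity) h192 hinv hV'

lemma small_bd {m d q : ℕ} {L : ℝ} (hL : L = Real.log ((m + d : ℕ) : ℝ)) (hL8 : 8 ≤ L)
    (hd1 : 8 * L / cB ≤ (2 : ℝ) ^ d) (hdL : (d : ℝ) + 1 < L)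
    (hsq : L ^ 2 ≤ cB / 100 * ((m + d : ℕ) : ℝ)) (hm2 : ((m + d : ℕ) : ℝ) ≤ 2 * (m : ℝ))
    (hμ1 : 1 ≤ cB * (m : ℝ)) (hq2 : 2 ^ q + 1 ≤ (m + d) ^ 3) :
    bd (((2 ^ q + 1 : ℕ) : ℝ) ^ d) (cB * m) d <
      (1 / ((m + d : ℕ) : ℝ)) ^ (m + d) * (1 / 2) ^ ((m + d) * (d + 1)) := by
  have hcB := cB_pos
  set nR : ℝ := ((m + d : ℕ) : ℝ) with hnRdef
  set G : ℝ := ((2 ^ q + 1 : ℕ) : ℝ) ^ d with hG
  set μ := cB * (m : ℝ) with hμdef
  have hn0 : 0 < nR := by
    rw [hnRdef]; exact_mod_cast (show 0 < m + d by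
      by_contra h
      rw [Nat.eq_zero_of_not_pos h] at hq2
      simp at hq2)
  have hG1 : 1 ≤ G := one_le_pow₀ (by exact_mod_cast Nat.le_add_left 1 _)
  have hGle : G ≤ Real.exp (3 * (d : ℝ) * L) := by
    calc G ≤ (nR ^ 3) ^ d := by
          rw [hG]; gcongr; rw [hnRdef]; exact_mod_cast hq2
      _ = _ := by
          rw [← pow_mul, hL, show 3 * (d : ℝ) * Real.log nR = ((3 * d : ℕ) : ℝ) * Real.log nR by
            push_cast; ring, Real.exp_nat_mul, Real.exp_log hn0]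
  have hX : 4 * G ^ 2 * Real.exp (-μ) ≤ Real.exp (-(μ / 2)) := by
    have h4 : (4 : ℝ) ≤ Real.exp 2 := by
      rw [show (2 : ℝ) = 1 + 1 by norm_num, Real.exp_add]
      nlinarith [Real.exp_one_gt_d9]
    calc 4 * G ^ 2 * Real.exp (-μ)
        ≤ Real.exp 2 * Real.exp (3 * (d : ℝ) * L) ^ 2 * Real.exp (-μ) := by gcongr
      _ = Real.exp (2 + 6 * (d : ℝ) * L - μ) := by
          rw [← Real.exp_nat_mul, ← Real.exp_add, ← Real.exp_add]; congr 1; push_cast; ring
      _ ≤ _ := Real.exp_le_exp.2 (by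
          have h1 : (d : ℝ) * L ≤ L * L := mul_le_mul_of_nonneg_right (by linarith) (by linarith)
          have h2 : (64 : ℝ) ≤ L ^ 2 := by nlinarith
          have h3 : cB / 100 * nR ≤ μ / 50 := by
            rw [hμdef]
            have := mul_le_mul_of_nonneg_left hm2 hcB.le
            linarith
          linarith)
  have hbd : bd G μ d ≤ Real.exp (-(μ / 2) * (2 : ℝ) ^ d) := by
    rw [bd]
    refine (div_le_self (by positivity) hG1).trans
      ((pow_le_pow_left₀ (by positivity) hX _).trans_eq ?_)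
    rw [← Real.exp_nat_mul]; push_cast; ring_nf
  refine lt_of_le_of_lt hbd ?_
  rw [← Real.lt_log_iff_exp_lt (by positivity), Real.log_mul (by positivity) (by positivity),
    Real.log_pow, Real.log_pow, one_div, one_div, Real.log_inv, Real.log_inv, ← hL]
  have h1 : nR / 4 * cB * (8 * L / cB) ≤ μ / 2 * (2 : ℝ) ^ d := by
    refine mul_le_mul ?_ hd1 (by positivity) (by positivity)
    rw [hμdef]
    have := mul_le_mul_of_nonneg_left hm2 hcB.le
    linarith
  rw [show nR / 4 * cB * (8 * L / cB) = 2 * (nR * L) by field_simp; ring] at h1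
  have h3 := Real.log_two_lt_d9
  have h5 := Real.log_two_gt_d9
  have h2 : nR * ((d : ℝ) + 1) * Real.log 2 < nR * L := by
    rw [mul_assoc]
    refine mul_lt_mul_of_pos_left ?_ hn0
    have : ((d : ℝ) + 1) * Real.log 2 ≤ ((d : ℝ) + 1) * 1 :=
      mul_le_mul_of_nonneg_left (by linarith) (by positivity)
    linarith
  push_cast at hnRdef ⊢
  rw [hnRdef] at h1 h2
  linarith

/-- Elementary asymptotics used for the parameters. -/
lemma exists_params : ∃ N0 : ℕ, ∀ n, N0 ≤ n → ∀ m0 : ℕ, 4 * m0 ≤ n → ∃ m d q : ℕ,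
    n = m + d ∧ 0 < d ∧ m0 ≤ m ∧ 8 ≤ m ∧ 1 ≤ cB * m ∧ 4 * (m + d) ^ 2 ≤ 2 ^ q ∧
    bd (((2 ^ q + 1 : ℕ) : ℝ) ^ d) (cB * m) d <
      (1 / ((m + d : ℕ) : ℝ)) ^ (m + d) * (1 / 2) ^ ((m + d) * (d + 1)) ∧
    3 * (192 * (d : ℝ) ^ 2) ^ d ≤
      Real.exp (40 * Real.log (Real.log n) * Real.log (Real.log (Real.log n))) := by
  have hcB := cB_pos
  have hL : Tendsto (fun n : ℕ => Real.log n) atTop atTop :=
    Real.tendsto_log_atTop.comp tendsto_natCast_atTop_atTop
  have hLL := Real.tendsto_log_atTop.comp hL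
  have hLLL := Real.tendsto_log_atTop.comp hLL
  have hsq : ∀ᶠ n : ℕ in atTop, Real.log n ^ 2 ≤ cB / 100 * n := by
    have h := (Real.isLittleO_pow_log_id_atTop (n := 2)).bound (div_pos hcB (by norm_num : (0:ℝ) < 100))
    filter_upwards [tendsto_natCast_atTop_atTop.eventually h] with n hn
    simpa [abs_of_nonneg] using hn
  have hlin : ∀ᶠ n : ℕ in atTop, Real.log (Real.log n) ≤ 1 / 8 * Real.log n := by
    have h := Real.isLittleO_log_id_atTop.bound (show (0 : ℝ) < 1 / 8 by norm_num)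
    filter_upwards [hL.eventually h, hL.eventually (eventually_ge_atTop 1)] with n hn h1
    rw [id_eq, Real.norm_eq_abs, Real.norm_eq_abs, abs_of_nonneg (by linarith : 0 ≤ Real.log n)] at hn
    exact (le_abs_self _).trans hn
  obtain ⟨N0, hN0⟩ := eventually_atTop.1 (((hL.eventually (eventually_ge_atTop (18 / cB))).and
    (hL.eventually (eventually_ge_atTop 8))).and ((hLL.eventually (eventually_ge_atTop 2)).and
    ((hLLL.eventually (eventually_ge_atTop 2)).and (hsq.and (hlin.and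
    (eventually_ge_atTop (max 32 ⌈4 / cB⌉₊)))))))
  refine ⟨N0, fun n hn m0 hm0 => ?_⟩
  obtain ⟨⟨hL18, hL8⟩, hLL2, hLLL2, hsq', hlin', hn32⟩ := hN0 n hn
  simp only [Function.comp_apply] at hLL2 hLLL2
  simp only [max_le_iff] at hn32
  obtain ⟨hn32, hn4⟩ := hn32
  set L := Real.log (n : ℝ) with hLdef
  set LL := Real.log L with hLLdef
  set LLL := Real.log LL with hLLLdef
  have hnR : (32 : ℝ) ≤ n := by exact_mod_cast hn32
  set x := ⌈8 * L / cB⌉₊ with hx
  have hx1 : 8 * L / cB ≤ x := Nat.le_ceil _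
  have hx2 : (x : ℝ) < 8 * L / cB + 1 := Nat.ceil_lt_add_one (by positivity)
  have hx0 : x ≠ 0 := by
    intro h
    rw [h, Nat.cast_zero] at hx1
    have : 0 < 8 * L / cB := by positivity
    linarith
  set d := Nat.log 2 x + 1 with hd
  have hd1 : (x : ℝ) ≤ (2 : ℝ) ^ d := by
    exact_mod_cast (Nat.lt_pow_succ_log_self one_lt_two x).le
  have hd2 : (2 : ℝ) ^ d ≤ 18 * L / cB := by
    have h : 2 ^ d ≤ 2 * x := by
      rw [hd, pow_succ]; have := Nat.pow_log_le_self 2 hx0; omega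
    have h' : (2 : ℝ) ^ d ≤ 2 * x := by exact_mod_cast h
    have h1 : 1 ≤ L / cB := by
      rw [one_le_div hcB]
      have : cB ≤ 1 / 100 := min_le_left _ _
      linarith
    calc (2 : ℝ) ^ d ≤ 2 * (8 * L / cB + 1) := by linarith
      _ = 16 * (L / cB) + 2 := by ring
      _ ≤ 18 * (L / cB) := by linarith
      _ = _ := by ring
  have hdLL : (d : ℝ) ≤ 3 * LL := by
    have h := Real.log_le_log (by positivity) hd2
    rw [Real.log_pow, mul_div_right_comm, Real.log_mul (by positivity) (by positivity),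
      ← hLLdef] at h
    have h2 : Real.log (18 / cB) ≤ LL := Real.log_le_log (by positivity) hL18
    have h3 := Real.log_two_gt_d9
    nlinarith
  have hdL : (d : ℝ) + 1 < L := by linarith
  have hdn : 2 * d ≤ n := by
    have hLn : L ≤ (n : ℝ) - 1 := Real.log_le_sub_one_of_pos (by linarith)
    have hLsq : L ≤ L ^ 2 / 8 := by nlinarith
    have : ((2 * d : ℕ) : ℝ) ≤ (n : ℝ) := by
      push_cast
      have h4 : cB ≤ 1 / 100 := min_le_left _ _
      nlinarith
    exact_mod_cast this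
  have hdpos : 0 < d := Nat.succ_pos _
  clear_value d x LLL LL L
  obtain ⟨m, rfl⟩ : ∃ m, n = m + d := ⟨n - d, by omega⟩
  set q := Nat.log 2 (4 * (m + d) ^ 2) + 1 with hq
  have hq1 : 4 * (m + d) ^ 2 ≤ 2 ^ q := (Nat.lt_pow_succ_log_self one_lt_two _).le
  have hq2 : 2 ^ q + 1 ≤ (m + d) ^ 3 := by
    have h : 2 ^ q ≤ 2 * (4 * (m + d) ^ 2) := by
      rw [hq, pow_succ]
      have := Nat.pow_log_le_self 2 (show 4 * (m + d) ^ 2 ≠ 0 by positivity)
      omega
    nlinarith
  have hm2 : ((m + d : ℕ) : ℝ) ≤ 2 * (m : ℝ) := by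
    have : m + d ≤ 2 * m := by omega
    exact_mod_cast this
  have hμ1 : 1 ≤ cB * (m : ℝ) := by
    have h1 : (4 / cB : ℝ) ≤ ((m + d : ℕ) : ℝ) := (Nat.le_ceil _).trans (by exact_mod_cast hn4)
    rw [div_le_iff₀ hcB] at h1
    nlinarith
  refine ⟨m, d, q, rfl, hdpos, by omega, by omega, hμ1, hq1, ?_, ?_⟩
  · exact small_bd hLdef hL8 (hx1.trans hd1) hdL hsq' hm2 hμ1 hq2
  · have hd0 : (0 : ℝ) < d := by exact_mod_cast hdpos
    have hlogd : Real.log d ≤ Real.log 3 + LLL := by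
      rw [hLLLdef, ← Real.log_mul (by norm_num) (by positivity)]
      exact Real.log_le_log hd0 hdLL
    have hlog3 : Real.log 3 ≤ 2 := by
      rw [Real.log_le_iff_le_exp (by norm_num)]
      linarith [Real.add_one_le_exp (2 : ℝ)]
    have h192 : Real.log 192 ≤ 6 := by
      rw [Real.log_le_iff_le_exp (by norm_num)]
      have h2 := Real.exp_one_gt_d9
      calc (192 : ℝ) ≤ (2.7 : ℝ) ^ 6 := by norm_num
        _ ≤ Real.exp 1 ^ 6 := by gcongr; linarith
        _ = _ := by rw [← Real.exp_nat_mul]; norm_num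
    have hlogD : Real.log (192 * (d : ℝ) ^ 2) ≤ 7 * LLL := by
      rw [Real.log_mul (by norm_num) (by positivity), Real.log_pow]
      push_cast
      linarith
    have h3e : (3 : ℝ) ≤ Real.exp (19 * LL * LLL) := by
      have h4 : (4 : ℝ) ≤ LL * LLL := by nlinarith
      linarith [Real.add_one_le_exp (19 * LL * LLL)]
    calc 3 * (192 * (d : ℝ) ^ 2) ^ d
        ≤ Real.exp (19 * LL * LLL) * Real.exp (21 * LL * LLL) := by
          refine mul_le_mul h3e ?_ (by positivity) (by positivity)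
          rw [← Real.log_le_iff_le_exp (by positivity), Real.log_pow]
          calc (d : ℝ) * Real.log (192 * (d : ℝ) ^ 2) ≤ (3 * LL) * (7 * LLL) :=
                mul_le_mul hdLL hlogD (Real.log_nonneg (by
                  have : (1 : ℝ) ≤ (d : ℝ) := by exact_mod_cast hdpos
                  nlinarith)) (by positivity)
            _ = _ := by ring
      _ = _ := by rw [← Real.exp_add]; congr 1; ring

/-- The main upper bound. -/
theorem thetaL_upper : ∃ N : ℕ, ∀ n, N ≤ n → ∀ K : Set (EuclideanSpace ℝ (Fin n)),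
    IsConvexBody K → thetaL K ≤ ENNReal.ofReal
      ((n : ℝ) * Real.exp (40 * Real.log (Real.log n) * Real.log (Real.log (Real.log n)))) := by
  obtain ⟨m0, hbase⟩ := base_lattice
  obtain ⟨N0, hN0⟩ := exists_params
  refine ⟨max N0 (4 * m0), fun n hn K hK => ?_⟩
  obtain ⟨m, d, q, rfl, hd, hm, hm8, hμ, hq, hsmall, hbound⟩ :=
    hN0 n (le_trans (le_max_left _ _) hn) m0 (le_trans (le_max_right _ _) hn)
  obtain ⟨hKc, hKk, hKi⟩ := hK
  set K0 : Set (Fin (m + d) → ℝ) := WithLp.ofLp '' K with hK0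
  set e := WithLp.linearEquiv 2 ℝ (Fin (m + d) → ℝ) with he
  have hK0e : K0 = e.toLinearMap '' K := rfl
  have hK0c : Convex ℝ K0 := hK0e ▸ hKc.linear_image _
  have hK0k : IsCompact K0 := hKk.image (PiLp.continuous_ofLp 2 _)
  have hK0v : volume K0 ≠ 0 := by
    have hq' : MeasurePreserving
        (WithLp.toLp 2 : (Fin (m + d) → ℝ) → EuclideanSpace ℝ (Fin (m + d))) volume volume :=
      PiLp.volume_preserving_toLp _
    have h1 : volume K ≠ 0 := (Measure.measure_pos_of_nonempty_interior volume hKi).ne'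
    rw [← hq'.measure_preimage hKk.measurableSet.nullMeasurableSet] at h1
    convert h1 using 2
    ext x
    simp only [hK0, mem_preimage, mem_image]
    exact ⟨fun ⟨k, hk, hkx⟩ => by rw [← hkx]; exact hk, fun h => ⟨_, h, rfl⟩⟩
  obtain ⟨M, hM, hcov, hvol⟩ := covering_core hbase hd hm hm8 hμ hq hsmall hK0c hK0k hK0v
  refine (thetaL_le_of_pi hKk hM hcov).trans ?_
  refine ENNReal.div_le_of_le_mul ?_
  rw [← ENNReal.ofReal_mul (by positivity), ← ENNReal.ofReal_toReal hK0k.measure_lt_top.ne]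
  refine ENNReal.ofReal_le_ofReal (hvol.trans ?_)
  calc 3 * ((m + d : ℕ) : ℝ) * (192 * (d : ℝ) ^ 2) ^ d * |LinearMap.det M|
      = ((m + d : ℕ) : ℝ) * (3 * (192 * (d : ℝ) ^ 2) ^ d) * |LinearMap.det M| := by ring
    _ ≤ _ := by gcongr

/-- In particular the worst lattice covering density is `n^(1+o(1))`. -/
theorem thetaL_upper_rpow (δ : ℝ) (hδ : 0 < δ) : ∃ N : ℕ, ∀ n, N ≤ n →
    ∀ K : Set (EuclideanSpace ℝ (Fin n)), IsConvexBody K →
      thetaL K ≤ ENNReal.ofReal ((n : ℝ) ^ (1 + δ)) := by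
  obtain ⟨N, hN⟩ := thetaL_upper
  have hL : Tendsto (fun n : ℕ => Real.log n) atTop atTop :=
    Real.tendsto_log_atTop.comp tendsto_natCast_atTop_atTop
  have hLL := Real.tendsto_log_atTop.comp hL
  have h := (Real.isLittleO_pow_log_id_atTop (n := 2)).bound (show 0 < δ / 40 by positivity)
  obtain ⟨N1, hN1⟩ := eventually_atTop.1 ((hL.eventually h).and
    ((hL.eventually (eventually_ge_atTop 1)).and ((hLL.eventually (eventually_ge_atTop 1)).and
    (eventually_ge_atTop 1))))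
  refine ⟨max N N1, fun n hn K hK => (hN n (le_trans (le_max_left _ _) hn) K hK).trans ?_⟩
  obtain ⟨h1, h2, h3, h4⟩ := hN1 n (le_trans (le_max_right _ _) hn)
  simp only [Function.comp_apply] at h3
  rw [id_eq, Real.norm_eq_abs, Real.norm_eq_abs, abs_of_nonneg (sq_nonneg _),
    abs_of_nonneg (by linarith : 0 ≤ Real.log n)] at h1
  have hn0 : (0 : ℝ) < n := by exact_mod_cast h4
  refine ENNReal.ofReal_le_ofReal ?_
  rw [Real.rpow_add hn0, Real.rpow_one, Real.rpow_def_of_pos hn0]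
  refine mul_le_mul_of_nonneg_left (Real.exp_le_exp.2 ?_) hn0.le
  have h5 : Real.log (Real.log (Real.log n)) ≤ Real.log (Real.log n) :=
    Real.log_le_self (by linarith)
  have h6 := Real.log_nonneg h3
  nlinarith

end

end Vale.Agent.P230.Upper
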