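import Vale.Agent.P230.Upper.Combin

/-!
P230 upper bound: integer relations among grid points, circuits, and the transfer between
dependence over `ℤ` and modulo a large prime.
-/

open Finset Matrix

namespace Vale.Agent.P230.Upper

noncomputable section

open scoped Classical

variable {m : ℕ}

/-- The lift `u ↦ (1, u)`. -/
def liftZ (u : Fin m → ℤ) : Fin (m + 1) → ℤ := Fin.cons 1 u

lemma liftZ_injective : Function.Injective (liftZ (m := m)) := fun u v h => by
  simpa [liftZ] using h

/-- The lift reduced modulo `P`. -/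
def liftP (P : ℕ) (u : Fin m → ℤ) : Fin (m + 1) → ZMod P := fun i => (liftZ u i : ZMod P)

lemma natAbs_liftZ_le {L : ℕ} (hL : 1 ≤ L) {u : Fin m → ℤ} (hu : ∀ i, (u i).natAbs ≤ L)
    (i : Fin (m + 1)) : (liftZ u i).natAbs ≤ L := by
  refine Fin.cases ?_ (fun j => ?_) i
  · simpa [liftZ] using hL
  · simpa [liftZ] using hu j

lemma indepP_imp_indepZ {P : ℕ} [hP : Fact P.Prime] {T : Finset (Fin m → ℤ)}
    (h : LinearIndepOn (ZMod P) (liftP P) (T : Set (Fin m → ℤ))) :
    LinearIndepOn ℤ liftZ (T : Set (Fin m → ℤ)) := by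
  rw [linearIndepOn_finset_iff] at h ⊢
  intro q hq u hu
  by_contra hne
  obtain ⟨g, hg, hg1⟩ := T.extract_gcd q ⟨u, hu⟩
  have hd : T.gcd q ≠ 0 := fun h0 => hne (Finset.gcd_eq_zero_iff.1 h0 u hu)
  have hgz : ∑ i ∈ T, g i • liftZ i = 0 := by
    refine smul_right_injective (Fin (m + 1) → ℤ) hd ?_
    simp only [Finset.smul_sum, smul_smul, smul_zero]
    rw [← hq]
    exact Finset.sum_congr rfl fun i hi => by rw [← hg i hi]
  have hzero := h (fun i => (g i : ZMod P)) (by
    funext l
    have := congrArg (fun x : ℤ => (x : ZMod P)) (congrFun hgz l)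
    simpa [liftP, Finset.sum_apply] using this)
  have hdvd : (P : ℤ) ∣ T.gcd g := Finset.dvd_gcd fun i hi =>
    (ZMod.intCast_zmod_eq_zero_iff_dvd _ _).1 (hzero i hi)
  rw [hg1] at hdvd
  have h1 := hP.out.one_lt
  have := Int.le_of_dvd one_pos hdvd
  omega

/-- The Gram matrix of the lifts of a finite set. -/
def gram (T : Finset (Fin m → ℤ)) : Matrix ↥T ↥T ℤ :=
  Matrix.of fun i j => ∑ l, liftZ (i : Fin m → ℤ) l * liftZ (j : Fin m → ℤ) l

lemma gram_det_ne_zero {T : Finset (Fin m → ℤ)}
    (h : LinearIndepOn ℤ liftZ (T : Set (Fin m → ℤ))) : (gram T).det ≠ 0 := by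
  intro h0
  obtain ⟨q, hq0, hq⟩ := Matrix.exists_vecMul_eq_zero_iff.2 h0
  have hlin : LinearIndependent ℤ fun i : ↥T => liftZ (i : Fin m → ℤ) := h
  apply hq0
  funext i
  refine Fintype.linearIndependent_iff.1 hlin q ?_ i
  have hsq : ∑ l, (∑ i : ↥T, q i * liftZ (i : Fin m → ℤ) l) ^ 2 = 0 := by
    calc ∑ l, (∑ i : ↥T, q i * liftZ (i : Fin m → ℤ) l) ^ 2
        = ∑ j : ↥T, (q ᵥ* gram T) j * q j := by
          simp only [Matrix.vecMul, dotProduct, gram, Matrix.of_apply, Finset.sum_mul, sq,
            Finset.mul_sum]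
          rw [Finset.sum_comm]
          refine Finset.sum_congr rfl fun j _ => ?_
          rw [Finset.sum_comm]
          exact Finset.sum_congr rfl fun i _ => Finset.sum_congr rfl fun l _ => by ring
      _ = 0 := by simp [hq]
  funext l
  have hl := (Finset.sum_eq_zero_iff_of_nonneg fun l _ => sq_nonneg _).1 hsq l (mem_univ l)
  simpa [Finset.sum_apply] using pow_eq_zero_iff two_ne_zero |>.1 hl

lemma indepZ_imp_indepP {P : ℕ} [Fact P.Prime] {L K : ℕ} (hL : 1 ≤ L)
    (hP : K.factorial * ((m + 1) * L ^ 2) ^ K < P) {T : Finset (Fin m → ℤ)} (hK : T.card ≤ K)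
    (hT : ∀ u ∈ T, ∀ i, (u i).natAbs ≤ L)
    (h : LinearIndepOn ℤ liftZ (T : Set (Fin m → ℤ))) :
    LinearIndepOn (ZMod P) (liftP P) (T : Set (Fin m → ℤ)) := by
  have hdet := gram_det_ne_zero h
  have hentry : ∀ i j, AbsoluteValue.abs (gram T i j) ≤ (((m + 1) * L ^ 2 : ℕ) : ℤ) := by
    intro i j
    rw [AbsoluteValue.abs_apply, gram, Matrix.of_apply]
    refine (Finset.abs_sum_le_sum_abs _ _).trans ?_
    calc ∑ l, |liftZ (i : Fin m → ℤ) l * liftZ (j : Fin m → ℤ) l|
        ≤ ∑ _l : Fin (m + 1), ((L : ℤ) * L) := by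
          refine Finset.sum_le_sum fun l _ => ?_
          rw [abs_mul, Int.abs_eq_natAbs, Int.abs_eq_natAbs]
          have h1 := natAbs_liftZ_le hL (hT _ i.2) l
          have h2 := natAbs_liftZ_le hL (hT _ j.2) l
          exact mul_le_mul (by exact_mod_cast h1) (by exact_mod_cast h2) (by positivity)
            (by positivity)
      _ = _ := by
          simp only [Finset.sum_const, Finset.card_univ, Fintype.card_fin, nsmul_eq_mul]
          push_cast
          ring
  have hb := Matrix.det_le hentry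
  rw [AbsoluteValue.abs_apply, nsmul_eq_mul, Fintype.card_coe] at hb
  have hnd : ((gram T).det : ZMod P) ≠ 0 := by
    intro h0
    rw [ZMod.intCast_zmod_eq_zero_iff_dvd] at h0
    have h1 := Int.le_of_dvd (abs_pos.2 hdet) ((dvd_abs _ _).2 h0)
    have h2 : T.card.factorial * ((m + 1) * L ^ 2) ^ T.card ≤
        K.factorial * ((m + 1) * L ^ 2) ^ K := by
      refine Nat.mul_le_mul (Nat.factorial_le hK) (Nat.pow_le_pow_right ?_ hK)
      positivity
    have h3 : ((T.card.factorial * ((m + 1) * L ^ 2) ^ T.card : ℕ) : ℤ) < (P : ℤ) := by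
      exact_mod_cast lt_of_le_of_lt h2 hP
    push_cast at h3 hb
    linarith
  rw [linearIndepOn_finset_iff]
  intro q hq u hu
  by_contra hne
  apply hnd
  have hmap : ((gram T).det : ZMod P) = (Matrix.map (gram T) (Int.castRingHom (ZMod P))).det := by
    simpa using RingHom.map_det (Int.castRingHom (ZMod P)) (gram T)
  rw [hmap]
  refine Matrix.exists_vecMul_eq_zero_iff.1 ⟨fun i => q i, fun h0 => hne (congrFun h0 ⟨u, hu⟩), ?_⟩
  funext j
  simp only [Matrix.vecMul, dotProduct, Matrix.map_apply, gram, Matrix.of_apply, map_sum, map_mul,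
    Finset.mul_sum, Pi.zero_apply]
  rw [Finset.sum_comm]
  refine Finset.sum_eq_zero fun l _ => ?_
  simp only [← mul_assoc, ← Finset.sum_mul]
  have h2 := congrFun hq l
  simp only [Finset.sum_apply, Pi.smul_apply, smul_eq_mul, Pi.zero_apply, liftP] at h2
  rw [← Finset.sum_coe_sort] at h2
  simp only [eq_intCast]
  exact mul_eq_zero_of_left h2 _

/-- A minimal dependent set over `ℤ`. -/
def IsCirc (C : Finset (Fin m → ℤ)) : Prop :=
  ¬ LinearIndepOn ℤ liftZ (C : Set (Fin m → ℤ)) ∧
    ∀ z ∈ C, LinearIndepOn ℤ liftZ ((C.erase z : Finset (Fin m → ℤ)) : Set (Fin m → ℤ))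

lemma exists_circ {D : Finset (Fin m → ℤ)}
    (h : ¬ LinearIndepOn ℤ liftZ (D : Set (Fin m → ℤ))) : ∃ C ⊆ D, IsCirc C := by
  obtain ⟨C, hC, hmin⟩ := (D.powerset.filter fun C : Finset (Fin m → ℤ) =>
    ¬ LinearIndepOn ℤ liftZ (C : Set (Fin m → ℤ))).exists_min_image (fun C => C.card)
      ⟨D, by simp [h]⟩
  simp only [mem_filter, mem_powerset] at hC hmin
  refine ⟨C, hC.1, hC.2, fun z hz => ?_⟩
  by_contra hd
  have h1 := hmin (C.erase z) ⟨(Finset.erase_subset _ _).trans hC.1, hd⟩
  have h2 := Finset.card_erase_of_mem hz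
  have h3 := Finset.card_pos.2 ⟨z, hz⟩
  omega

/-- A primitive relation with full support. -/
lemma circ_relation {t : ℕ} {x : Fin t → Fin m → ℤ} (hx : Function.Injective x)
    (hC : IsCirc (univ.image x)) :
    3 ≤ t ∧ ∃ p : Fin t → ℤ, ∑ i, p i • liftZ (x i) = 0 ∧ (∀ i, p i ≠ 0) ∧
      ∃ w : Fin t → ℤ, ∑ i, w i * p i = 1 := by
  have hsum : ∀ q : Fin t → ℤ, (∑ i, q i • liftZ (x i)) =
      ∑ u ∈ univ.image x, (Function.extend x q 0 u) • liftZ u := fun q => by
    rw [Finset.sum_image fun a _ b _ h => hx h]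
    exact Finset.sum_congr rfl fun i _ => by rw [hx.extend_apply]
  obtain ⟨hdep, herase⟩ := hC
  rw [linearIndepOn_finset_iff] at hdep
  push Not at hdep
  obtain ⟨q, hq, u, hu, hqu⟩ := hdep
  obtain ⟨i0, -, rfl⟩ := Finset.mem_image.1 hu
  set p0 : Fin t → ℤ := fun i => q (x i) with hp0
  have hp0sum : ∑ i, p0 i • liftZ (x i) = 0 := by
    rw [← hq, Finset.sum_image fun a _ b _ h => hx h]
  have hfull : ∀ p : Fin t → ℤ, ∑ i, p i • liftZ (x i) = 0 → p ≠ 0 → ∀ i, p i ≠ 0 := by
    intro p hp hpne i hi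
    have h := herase (x i) (Finset.mem_image_of_mem x (mem_univ i))
    rw [linearIndepOn_finset_iff] at h
    apply hpne
    funext j
    rcases eq_or_ne j i with rfl | hji
    · exact hi
    have h2 := h (Function.extend x p 0) (by
      rw [← hp, hsum p, Finset.sum_erase _ (by rw [hx.extend_apply, hi, zero_smul])])
      (x j) (Finset.mem_erase.2 ⟨hx.ne hji, Finset.mem_image_of_mem x (mem_univ j)⟩)
    rwa [hx.extend_apply] at h2
  have hne0 : p0 ≠ 0 := fun h0 => hqu (congrFun h0 i0)
  have hall := hfull p0 hp0sum hne0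
  obtain ⟨p, hp, hp1⟩ := (univ : Finset (Fin t)).extract_gcd p0 ⟨i0, mem_univ _⟩
  have hd : univ.gcd p0 ≠ 0 := fun h0 =>
    hall i0 (Finset.gcd_eq_zero_iff.1 h0 i0 (mem_univ _))
  have hpsum : ∑ i, p i • liftZ (x i) = 0 := by
    refine smul_right_injective (Fin (m + 1) → ℤ) hd ?_
    simp only [Finset.smul_sum, smul_smul, smul_zero]
    rw [← hp0sum]
    exact Finset.sum_congr rfl fun i hi => by rw [← hp i hi]
  refine ⟨?_, p, hpsum, fun i hi => hall i (by rw [hp i (mem_univ i), hi, mul_zero]), ?_⟩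
  · by_contra hlt
    push Not at hlt
    have h0 := congrFun hp0sum 0
    simp only [Finset.sum_apply, Pi.smul_apply, smul_eq_mul, liftZ, Fin.cons_zero, mul_one,
      Pi.zero_apply] at h0
    interval_cases t
    · exact i0.elim0
    · rw [Fin.sum_univ_one] at h0
      exact hall 0 h0
    · rw [Fin.sum_univ_two] at h0
      have hxe : x 0 = x 1 := by
        funext l
        have hl := congrFun hp0sum l.succ
        simp only [Fin.sum_univ_two, Pi.add_apply, Pi.smul_apply, smul_eq_mul, liftZ,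
          Fin.cons_succ, Pi.zero_apply] at hl
        have h10 : p0 1 = -p0 0 := by linarith
        have : p0 0 * (x 0 l - x 1 l) = 0 := by rw [h10] at hl; linarith
        exact sub_eq_zero.1 ((mul_eq_zero.1 this).resolve_left (hall 0))
      exact absurd (hx hxe) (by decide)
  · obtain ⟨w, hw⟩ := Finset.gcd_eq_sum_mul (univ : Finset (Fin t)) p
    rw [hp1] at hw
    exact ⟨w, by rw [hw]; exact Finset.sum_congr rfl fun i _ => by ring⟩

/-- Circuits of a given size. -/
def circs (S : Finset (Fin m → ℤ)) (t : ℕ) : Finset (Finset (Fin m → ℤ)) :=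
  (S.powersetCard t).filter IsCirc

/-- Circuits as tuples. -/
def circTuples (S : Finset (Fin m → ℤ)) (t : ℕ) : Finset (Fin t → Fin m → ℤ) :=
  (Fintype.piFinset fun _ : Fin t => S).filter
    fun x => Function.Injective x ∧ IsCirc (univ.image x)

lemma factorial_mul_circs_le (S : Finset (Fin m → ℤ)) (t : ℕ) :
    t.factorial * (circs S t).card ≤ (circTuples S t).card := by
  have hcard : ∀ C ∈ circs S t, C.card = t := fun C hC => by
    simp only [circs, mem_filter, mem_powersetCard] at hC
    exact hC.1.2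
  let f : ↥(circs S t) × Equiv.Perm (Fin t) → (Fin t → Fin m → ℤ) := fun q i =>
    (((q.1 : Finset (Fin m → ℤ)).equivFinOfCardEq (hcard _ q.1.2)).symm (q.2 i) : Fin m → ℤ)
  have himg : ∀ q, univ.image (f q) = (q.1 : Finset (Fin m → ℤ)) := fun q => by
    ext u
    simp only [Finset.mem_image, mem_univ, true_and, f]
    refine ⟨fun ⟨i, hi⟩ => hi ▸ Finset.coe_mem _, fun hu => ?_⟩
    exact ⟨q.2.symm (((q.1 : Finset (Fin m → ℤ)).equivFinOfCardEq (hcard _ q.1.2)) ⟨u, hu⟩),
      by simp⟩
  have hinj : Function.Injective f := by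
    intro q q' hqq
    have h1 : q.1 = q'.1 := Subtype.ext (by rw [← himg q, ← himg q', hqq])
    obtain ⟨C, π⟩ := q
    obtain ⟨C', π'⟩ := q'
    simp only at h1
    subst h1
    refine Prod.ext rfl (Equiv.ext fun i => ?_)
    exact (Equiv.injective _ (Subtype.ext (congrFun hqq i)))
  calc t.factorial * (circs S t).card
      = (univ : Finset (↥(circs S t) × Equiv.Perm (Fin t))).card := by
        simp [Fintype.card_perm, mul_comm]
    _ = ((univ : Finset (↥(circs S t) × Equiv.Perm (Fin t))).image f).card :=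
        (Finset.card_image_of_injective _ hinj).symm
    _ ≤ _ := Finset.card_le_card fun y hy => by
        obtain ⟨q, -, rfl⟩ := Finset.mem_image.1 hy
        have hq := q.1.2
        simp only [circs, mem_filter, mem_powersetCard] at hq
        refine Finset.mem_filter.2 ⟨Fintype.mem_piFinset.2 fun i => hq.1.1 ?_, ?_, ?_⟩
        · exact Finset.coe_mem _
        · exact Subtype.coe_injective.comp ((Equiv.injective _).comp (Equiv.injective _))
        · rw [himg q]; exact hq.2

/-- Bad pairs modulo `P` are governed by circuits over `ℤ`. -/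
lemma badPairs_le {P : ℕ} [Fact P.Prime] {L K : ℕ} (hL : 1 ≤ L)
    (hP : K.factorial * ((m + 1) * L ^ 2) ^ K < P) {S : Finset (Fin m → ℤ)}
    (hS : ∀ u ∈ S, ∀ i, (u i).natAbs ≤ L) {R : ℕ} (hR : R + 1 ≤ K) :
    (badPairs (liftP P) S R).card ≤
      ∑ t ∈ Finset.Icc 3 (R + 1), (circs S t).card * (t * S.card.choose (R + 1 - t)) := by
  have hcov : badPairs (liftP P) S R ⊆ (Finset.Icc 3 (R + 1)).biUnion fun t =>
      (circs S t).biUnion fun C => C.biUnion fun z =>
        (S.powersetCard (R + 1 - t)).image fun W => (C.erase z ∪ W, z) := by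
    intro q hq
    obtain ⟨U, z⟩ := q
    simp only [badPairs, indepSets, mem_filter, mem_product, mem_powersetCard] at hq
    obtain ⟨⟨⟨⟨hUS, hUR⟩, hUi⟩, hzS⟩, hzU, hspan⟩ := hq
    have hDsub : insert z U ⊆ S := Finset.insert_subset hzS hUS
    have hdep : ¬ LinearIndepOn ℤ liftZ ((insert z U : Finset (Fin m → ℤ)) : Set (Fin m → ℤ)) := by
      intro hi
      have h2 := indepZ_imp_indepP (P := P) hL hP
        (by rw [Finset.card_insert_of_notMem hzU]; omega) (fun u hu => hS u (hDsub hu)) hi
      rw [Finset.coe_insert, linearIndepOn_insert (by simpa using hzU)] at h2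
      exact h2.2 hspan
    obtain ⟨C, hCD, hC⟩ := exists_circ hdep
    have hzC : z ∈ C := by
      by_contra hz
      refine hC.1 ((indepP_imp_indepZ hUi).mono ?_)
      intro u hu
      have := hCD hu
      simp only [Finset.mem_insert] at this
      rcases this with rfl | h
      · exact absurd hu hz
      · exact h
    have hCU : C.erase z ⊆ U := fun u hu => by
      obtain ⟨hne, hu⟩ := Finset.mem_erase.1 hu
      exact (Finset.mem_insert.1 (hCD hu)).resolve_left hne
    have hct : C.card ≤ R + 1 := by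
      have := Finset.card_le_card hCD
      rw [Finset.card_insert_of_notMem hzU] at this
      omega
    have h3 : 3 ≤ C.card := by
      have e := C.equivFin.symm
      have hinj : Function.Injective fun i => (e i : Fin m → ℤ) :=
        Subtype.coe_injective.comp e.injective
      refine (circ_relation hinj ?_).1
      convert hC using 1
      ext u
      simp only [Finset.mem_image, mem_univ, true_and]
      exact ⟨fun ⟨i, hi⟩ => hi ▸ Finset.coe_mem _, fun hu => ⟨e.symm ⟨u, hu⟩, by simp⟩⟩
    simp only [Finset.mem_biUnion, Finset.mem_Icc, Finset.mem_image, mem_powersetCard]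
    refine ⟨C.card, ⟨h3, hct⟩, C, ?_, z, hzC, U \ C.erase z,
      ⟨Finset.sdiff_subset.trans hUS, ?_⟩, ?_⟩
    · simp only [circs, mem_filter, mem_powersetCard, and_true]
      exact ⟨hCD.trans hDsub, hC⟩
    · rw [Finset.card_sdiff_of_subset hCU, Finset.card_erase_of_mem hzC, hUR]
      omega
    · rw [Finset.union_sdiff_of_subset hCU]
  refine (Finset.card_le_card hcov).trans (Finset.card_biUnion_le.trans ?_)
  refine Finset.sum_le_sum fun t _ => Finset.card_biUnion_le.trans ?_
  refine (Finset.sum_le_card_nsmul _ _ (t * S.card.choose (R + 1 - t)) fun C hC => ?_).trans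
    (by rw [smul_eq_mul])
  simp only [circs, mem_filter, mem_powersetCard] at hC
  refine Finset.card_biUnion_le.trans ((Finset.sum_le_card_nsmul _ _ _ fun z _ => ?_).trans
    (by rw [smul_eq_mul, hC.1.2]))
  exact Finset.card_image_le.trans (Finset.card_powersetCard _ _).le

end

end Vale.Agent.P230.Upper
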